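import Vale.Agent.Lib.P040Z.Defs

/-!
Bit counting for the thermometer codes of a star: bounds for `fval`, the number of agreeing bits at
one pivot, and the triangle inequality for `agree`.
-/

namespace Vale.Agent.Lib.P040Z

open Finset

variable {k : ℕ}

theorem res_eq (n p q : ℕ) (hp : p < n) (hq : q < n) :
    (q + n - p) % n = if p ≤ q then q - p else q + n - p := by
  split_ifs with h
  · have : q + n - p = (q - p) + n := by omega
    rw [this, Nat.add_mod_right, Nat.mod_eq_of_lt (by omega)]
  · exact Nat.mod_eq_of_lt (by omega)

theorem res_inj (n p q q' : ℕ) (hp : p < n) (hq : q < n) (hq' : q' < n)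
    (h : (q + n - p) % n = (q' + n - p) % n) : q = q' := by
  rw [res_eq n p q hp hq, res_eq n p q' hp hq'] at h
  split_ifs at h <;> omega

/-- At most `k` labels lie in the window. -/
theorem fval_le_k (σ : Fin (2 * k + 1) → Fin (2 * k + 1)) (hσ : Function.Injective σ)
    (l : Fin (2 * k + 1)) : fval σ l ≤ k := by
  unfold fval
  have h : (univ.filter fun y : Fin (2 * k + 1) => y < l ∧ inW k (σ y) (σ l)).card ≤
      (Finset.Icc 1 k).card := by
    apply Finset.card_le_card_of_injOn
      (fun y => ((σ y : ℕ) + (2 * k + 1) - σ l) % (2 * k + 1))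
    · intro y hy
      have hy' := (Finset.mem_filter.mp hy).2.2
      unfold inW at hy'
      simp only [Finset.coe_Icc, Set.mem_Icc]
      exact hy'
    · intro a _ b _ hab
      apply hσ
      apply Fin.ext
      exact res_inj _ _ _ _ (σ l).2 (σ a).2 (σ b).2 hab
  simpa using h

/-- At most `l` labels lie below `l`. -/
theorem fval_le_l (σ : Fin (2 * k + 1) → Fin (2 * k + 1)) (l : Fin (2 * k + 1)) :
    fval σ l ≤ (l : ℕ) := by
  unfold fval
  have h : (univ.filter fun y : Fin (2 * k + 1) => y < l ∧ inW k (σ y) (σ l)).card ≤
      (Finset.Iio l).card := by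
    apply Finset.card_le_card
    intro y hy
    exact Finset.mem_Iio.mpr (Finset.mem_filter.mp hy).2.1
  simpa using h

/-- At most `k` of the labels below `l` lie outside the window. -/
theorem lo_le_fval (σ : Fin (2 * k + 1) → Fin (2 * k + 1)) (hσ : Function.Injective σ)
    (l : Fin (2 * k + 1)) : (l : ℕ) ≤ fval σ l + k := by
  have h2 : (univ.filter fun y : Fin (2 * k + 1) => y < l ∧ ¬ inW k (σ y) (σ l)).card ≤
      (Finset.Ioc k (2 * k)).card := by
    apply Finset.card_le_card_of_injOn
      (fun y => ((σ y : ℕ) + (2 * k + 1) - σ l) % (2 * k + 1))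
    · intro y hy
      have hy1 := (Finset.mem_filter.mp hy).2.1
      have hy2 := (Finset.mem_filter.mp hy).2.2
      unfold inW at hy2
      have hne : (σ y : ℕ) ≠ σ l := by
        intro he
        have : y = l := hσ (Fin.ext he)
        exact absurd hy1 (by simp [this])
      have h3 := res_eq (2 * k + 1) (σ l) (σ y) (σ l).2 (σ y).2
      have h4 : ((σ y : ℕ) + (2 * k + 1) - σ l) % (2 * k + 1) < 2 * k + 1 :=
        Nat.mod_lt _ (by omega)
      simp only [Finset.coe_Ioc, Set.mem_Ioc]
      split_ifs at h3 <;> omega
    · intro a _ b _ hab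
      apply hσ
      apply Fin.ext
      exact res_inj _ _ _ _ (σ l).2 (σ a).2 (σ b).2 hab
  have h1 : (Finset.Iio l).card ≤
      (univ.filter fun y : Fin (2 * k + 1) => y < l ∧ inW k (σ y) (σ l)).card +
      (univ.filter fun y : Fin (2 * k + 1) => y < l ∧ ¬ inW k (σ y) (σ l)).card := by
    refine le_trans (Finset.card_le_card ?_) (Finset.card_union_le _ _)
    intro y hy
    have := Finset.mem_Iio.mp hy
    by_cases hw : inW k (σ y) (σ l)
    · exact Finset.mem_union_left _ (Finset.mem_filter.mpr ⟨Finset.mem_univ _, this, hw⟩)
    · exact Finset.mem_union_right _ (Finset.mem_filter.mpr ⟨Finset.mem_univ _, this, hw⟩)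
  simp only [Fin.card_Iio, Nat.card_Ioc] at h1 h2
  unfold fval
  omega

theorem uval_add (σ : Fin (2 * k + 1) → Fin (2 * k + 1)) (hσ : Function.Injective σ)
    (l : Fin (2 * k + 1)) : uval σ l + ((l : ℕ) - k) = fval σ l := by
  have := lo_le_fval σ hσ l
  unfold uval
  omega

theorem uval_le_wid (σ : Fin (2 * k + 1) → Fin (2 * k + 1)) (hσ : Function.Injective σ)
    (l : Fin (2 * k + 1)) : uval σ l ≤ wid k l := by
  have h1 := uval_add σ hσ l
  have h2 := fval_le_k σ hσ l
  have h3 := fval_le_l σ l
  have hl := l.2
  unfold wid
  rcases le_total (l : ℕ) (2 * k - l) with h | h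
  · rw [min_eq_left h]; omega
  · rw [min_eq_right h]; omega

theorem cast_dist (a b : ℕ) : (((a - b) + (b - a) : ℕ) : ℤ) = |(a : ℤ) - b| := by
  rcases le_total a b with h | h
  · rw [abs_of_nonpos (by omega)]; omega
  · rw [abs_of_nonneg (by omega)]; omega

theorem ham_right (w u u' : ℕ) :
    ((range w).filter fun i => decide (i < u) ≠ decide (i < u')).card ≤ (u - u') + (u' - u) := by
  have h : ((range w).filter fun i => decide (i < u) ≠ decide (i < u')) ⊆
      Finset.Ico (min u u') (max u u') := by
    intro i hi
    have hi2 := (Finset.mem_filter.mp hi).2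
    simp only [ne_eq, decide_eq_decide] at hi2
    simp only [Finset.mem_Ico]
    rcases le_total u u' with h | h
    · rw [min_eq_left h, max_eq_right h]; omega
    · rw [min_eq_right h, max_eq_left h]; omega
  refine le_trans (Finset.card_le_card h) ?_
  rw [Nat.card_Ico]
  rcases le_total u u' with h | h
  · rw [min_eq_left h, max_eq_right h]; omega
  · rw [min_eq_right h, max_eq_left h]; omega

theorem ham_left (w u u' : ℕ) :
    ((range w).filter fun i => decide (w - i ≤ u) ≠ decide (w - i ≤ u')).card ≤
      (u - u') + (u' - u) := by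
  have h : ((range w).filter fun i => decide (w - i ≤ u) ≠ decide (w - i ≤ u')) ⊆
      Finset.Ico (w - max u u') (w - min u u') := by
    intro i hi
    have hi1 := Finset.mem_range.mp (Finset.mem_filter.mp hi).1
    have hi2 := (Finset.mem_filter.mp hi).2
    simp only [ne_eq, decide_eq_decide] at hi2
    simp only [Finset.mem_Ico]
    rcases le_total u u' with h | h
    · rw [min_eq_left h, max_eq_right h]; omega
    · rw [min_eq_right h, max_eq_left h]; omega
  refine le_trans (Finset.card_le_card h) ?_
  rw [Nat.card_Ico]
  rcases le_total u u' with h | h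
  · rw [min_eq_left h, max_eq_right h]; omega
  · rw [min_eq_right h, max_eq_left h]; omega

/-- Two stars with the same split differ in at most `|f - f'|` bits at a pivot. -/
theorem bit_ham (T S : Star k) (hJ : T.J = S.J) (l : Fin (2 * k + 1)) :
    (((range (wid k l)).filter fun i => T.bit l i ≠ S.bit l i).card : ℤ) ≤
      |(fval T.pos l : ℤ) - fval S.pos l| := by
  have h1 := uval_add T.pos T.pos.injective l
  have h2 := uval_add S.pos S.pos.injective l
  have key : ((range (wid k l)).filter fun i => T.bit l i ≠ S.bit l i).card ≤
      (uval T.pos l - uval S.pos l) + (uval S.pos l - uval T.pos l) := by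
    unfold Star.bit
    rw [hJ]
    split_ifs
    · exact ham_right _ _ _
    · exact ham_left _ _ _
  rw [← cast_dist]
  have : (uval T.pos l - uval S.pos l) + (uval S.pos l - uval T.pos l) =
      (fval T.pos l - fval S.pos l) + (fval S.pos l - fval T.pos l) := by omega
  rw [this] at key
  exact_mod_cast key

/-- Triangle inequality for `agree`. -/
theorem agree_triangle (T T' S S' : Star k) (hJ : T.J = S.J) (hJ' : T'.J = S'.J) :
    (agree T T' : ℤ) ≤ agree S S' + ∑ l, |(fval T.pos l : ℤ) - fval S.pos l| +
      ∑ l, |(fval T'.pos l : ℤ) - fval S'.pos l| := by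
  unfold agree
  push_cast
  rw [← Finset.sum_add_distrib, ← Finset.sum_add_distrib]
  apply Finset.sum_le_sum
  intro l _
  have h1 := bit_ham T S hJ l
  have h2 := bit_ham T' S' hJ' l
  have hsub : ((range (wid k l)).filter fun i => T.bit l i = T'.bit l i) ⊆
      (((range (wid k l)).filter fun i => S.bit l i = S'.bit l i) ∪
        ((range (wid k l)).filter fun i => T.bit l i ≠ S.bit l i)) ∪
        ((range (wid k l)).filter fun i => T'.bit l i ≠ S'.bit l i) := by
    intro i hi
    have hi1 := (Finset.mem_filter.mp hi).1
    have hi2 := (Finset.mem_filter.mp hi).2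
    simp only [Finset.mem_union, Finset.mem_filter]
    by_cases h3 : T.bit l i = S.bit l i
    · by_cases h4 : T'.bit l i = S'.bit l i
      · exact Or.inl (Or.inl ⟨hi1, by rw [← h3, ← h4, hi2]⟩)
      · exact Or.inr ⟨hi1, h4⟩
    · exact Or.inl (Or.inr ⟨hi1, h3⟩)
  have hc := Finset.card_le_card hsub
  have hu1 := Finset.card_union_le (((range (wid k l)).filter fun i => S.bit l i = S'.bit l i) ∪
        ((range (wid k l)).filter fun i => T.bit l i ≠ S.bit l i))
        ((range (wid k l)).filter fun i => T'.bit l i ≠ S'.bit l i)
  have hu2 := Finset.card_union_le ((range (wid k l)).filter fun i => S.bit l i = S'.bit l i)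
        ((range (wid k l)).filter fun i => T.bit l i ≠ S.bit l i)
  have hc' : ((((range (wid k l)).filter fun i => T.bit l i = T'.bit l i).card : ℕ) : ℤ) ≤
      ((range (wid k l)).filter fun i => S.bit l i = S'.bit l i).card +
        ((range (wid k l)).filter fun i => T.bit l i ≠ S.bit l i).card +
        ((range (wid k l)).filter fun i => T'.bit l i ≠ S'.bit l i).card := by
    have : ((range (wid k l)).filter fun i => T.bit l i = T'.bit l i).card ≤
      ((range (wid k l)).filter fun i => S.bit l i = S'.bit l i).card +
        ((range (wid k l)).filter fun i => T.bit l i ≠ S.bit l i).card +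
        ((range (wid k l)).filter fun i => T'.bit l i ≠ S'.bit l i).card := by omega
    exact_mod_cast this
  linarith

theorem count_right (w u u' : ℕ) (hu : u ≤ w) (hu' : u' ≤ w) :
    ((range w).filter fun i => decide (i < u) = decide (i < u')).card + ((u - u') + (u' - u)) = w := by
  have hcomp : ((range w).filter fun i => ¬ decide (i < u) = decide (i < u')).card =
      (u - u') + (u' - u) := by
    have : ((range w).filter fun i => ¬ decide (i < u) = decide (i < u')) =
        Finset.Ico (min u u') (max u u') := by
      ext i
      simp only [Finset.mem_filter, Finset.mem_range, decide_eq_decide, Finset.mem_Ico]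
      rcases le_total u u' with h | h
      · rw [min_eq_left h, max_eq_right h]; omega
      · rw [min_eq_right h, max_eq_left h]; omega
    rw [this, Nat.card_Ico]
    rcases le_total u u' with h | h
    · rw [min_eq_left h, max_eq_right h]; omega
    · rw [min_eq_right h, max_eq_left h]; omega
  have := Finset.card_filter_add_card_filter_not (s := range w)
    (fun i => decide (i < u) = decide (i < u'))
  rw [hcomp, Finset.card_range] at this
  exact this

theorem count_left (w u u' : ℕ) (hu : u ≤ w) (hu' : u' ≤ w) :
    ((range w).filter fun i => decide (w - i ≤ u) = decide (w - i ≤ u')).card +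
      ((u - u') + (u' - u)) = w := by
  have hcomp : ((range w).filter fun i => ¬ decide (w - i ≤ u) = decide (w - i ≤ u')).card =
      (u - u') + (u' - u) := by
    have : ((range w).filter fun i => ¬ decide (w - i ≤ u) = decide (w - i ≤ u')) =
        Finset.Ico (w - max u u') (w - min u u') := by
      ext i
      simp only [Finset.mem_filter, Finset.mem_range, decide_eq_decide, Finset.mem_Ico]
      rcases le_total u u' with h | h
      · rw [min_eq_left h, max_eq_right h]; omega
      · rw [min_eq_right h, max_eq_left h]; omega
    rw [this, Nat.card_Ico]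
    rcases le_total u u' with h | h
    · rw [min_eq_left h, max_eq_right h]; omega
    · rw [min_eq_right h, max_eq_left h]; omega
  have := Finset.card_filter_add_card_filter_not (s := range w)
    (fun i => decide (w - i ≤ u) = decide (w - i ≤ u'))
  rw [hcomp, Finset.card_range] at this
  exact this

theorem count_mixed (w u u' : ℕ) (hu : u ≤ w) (hu' : u' ≤ w) :
    ((range w).filter fun i => decide (i < u) = decide (w - i ≤ u')).card =
      (u + u' - w) + (w - (u + u')) := by
  rcases le_total w (u + u') with h | h
  · have : ((range w).filter fun i => decide (i < u) = decide (w - i ≤ u')) =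
        Finset.Ico (w - u') u := by
      ext i
      simp only [Finset.mem_filter, Finset.mem_range, decide_eq_decide, Finset.mem_Ico]
      omega
    rw [this, Nat.card_Ico]; omega
  · have : ((range w).filter fun i => decide (i < u) = decide (w - i ≤ u')) =
        Finset.Ico u (w - u') := by
      ext i
      simp only [Finset.mem_filter, Finset.mem_range, decide_eq_decide, Finset.mem_Ico]
      omega
    rw [this, Nat.card_Ico]; omega

/-- Agreeing bits at a pivot on the right of both stars. -/
theorem agree_right (T T' : Star k) (l : Fin (2 * k + 1)) (h : T.J ≤ (l : ℕ)) (h' : T'.J ≤ (l : ℕ)) :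
    (((range (wid k l)).filter fun i => T.bit l i = T'.bit l i).card : ℤ) =
      wid k l - |(fval T.pos l : ℤ) - fval T'.pos l| := by
  have h1 := uval_add T.pos T.pos.injective l
  have h2 := uval_add T'.pos T'.pos.injective l
  have hc := count_right (wid k l) (uval T.pos l) (uval T'.pos l)
    (uval_le_wid _ T.pos.injective l) (uval_le_wid _ T'.pos.injective l)
  have e : ((range (wid k l)).filter fun i => T.bit l i = T'.bit l i) =
      ((range (wid k l)).filter fun i => decide (i < uval T.pos l) = decide (i < uval T'.pos l)) := by
    apply Finset.filter_congr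
    intro i _
    simp only [Star.bit, if_pos h, if_pos h']
  rw [e, ← cast_dist]
  have : (uval T.pos l - uval T'.pos l) + (uval T'.pos l - uval T.pos l) =
      (fval T.pos l - fval T'.pos l) + (fval T'.pos l - fval T.pos l) := by omega
  rw [this] at hc
  omega

/-- Agreeing bits at a pivot on the left of both stars. -/
theorem agree_left (T T' : Star k) (l : Fin (2 * k + 1)) (h : ¬ T.J ≤ (l : ℕ)) (h' : ¬ T'.J ≤ (l : ℕ)) :
    (((range (wid k l)).filter fun i => T.bit l i = T'.bit l i).card : ℤ) =
      wid k l - |(fval T.pos l : ℤ) - fval T'.pos l| := by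
  have h1 := uval_add T.pos T.pos.injective l
  have h2 := uval_add T'.pos T'.pos.injective l
  have hc := count_left (wid k l) (uval T.pos l) (uval T'.pos l)
    (uval_le_wid _ T.pos.injective l) (uval_le_wid _ T'.pos.injective l)
  have e : ((range (wid k l)).filter fun i => T.bit l i = T'.bit l i) =
      ((range (wid k l)).filter fun i =>
        decide (wid k l - i ≤ uval T.pos l) = decide (wid k l - i ≤ uval T'.pos l)) := by
    apply Finset.filter_congr
    intro i _
    simp only [Star.bit, if_neg h, if_neg h']
  rw [e, ← cast_dist]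
  have : (uval T.pos l - uval T'.pos l) + (uval T'.pos l - uval T.pos l) =
      (fval T.pos l - fval T'.pos l) + (fval T'.pos l - fval T.pos l) := by omega
  rw [this] at hc
  omega

/-- Agreeing bits at a pivot between the two stars. -/
theorem agree_mid (T T' : Star k) (l : Fin (2 * k + 1)) (h : T.J ≤ (l : ℕ)) (h' : ¬ T'.J ≤ (l : ℕ)) :
    (((range (wid k l)).filter fun i => T.bit l i = T'.bit l i).card : ℤ) =
      |(fval T.pos l : ℤ) + fval T'.pos l - (l : ℕ)| := by
  have h1 := uval_add T.pos T.pos.injective l
  have h2 := uval_add T'.pos T'.pos.injective l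
  have hc := count_mixed (wid k l) (uval T.pos l) (uval T'.pos l)
    (uval_le_wid _ T.pos.injective l) (uval_le_wid _ T'.pos.injective l)
  have e : ((range (wid k l)).filter fun i => T.bit l i = T'.bit l i) =
      ((range (wid k l)).filter fun i =>
        decide (i < uval T.pos l) = decide (wid k l - i ≤ uval T'.pos l)) := by
    apply Finset.filter_congr
    intro i _
    simp only [Star.bit, if_pos h, if_neg h']
  rw [e, hc]
  have hw : (wid k l : ℤ) + 2 * (((l : ℕ) - k : ℕ) : ℤ) = (l : ℕ) := by
    have hl := l.2
    unfold wid
    rcases le_total (l : ℕ) (2 * k - l) with h | h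
    · rw [min_eq_left h]; omega
    · rw [min_eq_right h]; omega
  have hu : (fval T.pos l : ℤ) + fval T'.pos l - (l : ℕ) =
      (uval T.pos l : ℤ) + uval T'.pos l - wid k l := by
    omega
  rw [hu]
  rcases le_total ((uval T.pos l : ℤ) + uval T'.pos l - wid k l) 0 with h0 | h0
  · rw [abs_of_nonpos h0]; omega
  · rw [abs_of_nonneg h0]; omega

end Vale.Agent.Lib.P040Z
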