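import Vale.Agent.Lib.P040Z.Defs

/-!
Pointwise form of the agreement of two stars: bounds on the thermometer values and the number of
agreeing bits at one pivot.
-/

namespace Vale.Agent.Lib.P040Z

open Finset

variable {k : ℕ}

theorem card_lt_val (l : Fin (2 * k + 1)) :
    (univ.filter fun y : Fin (2 * k + 1) => y < l).card = (l : ℕ) := by
  have : (univ.filter fun y : Fin (2 * k + 1) => y < l) = Finset.Iio l := by
    ext y; simp
  rw [this, Fin.card_Iio]

theorem fval_le_self (σ : Fin (2 * k + 1) → Fin (2 * k + 1)) (l : Fin (2 * k + 1)) :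
    fval σ l ≤ (l : ℕ) := by
  unfold fval
  rw [← card_lt_val l]
  exact Finset.card_le_card fun y hy => by
    simp only [mem_filter, mem_univ, true_and] at hy ⊢
    exact hy.1

theorem cyc_form (p q : Fin (2 * k + 1)) :
    ((p : ℕ) + (2 * k + 1) - q) % (2 * k + 1) =
      if (q : ℕ) ≤ p then (p : ℕ) - q else (p : ℕ) + (2 * k + 1) - q := by
  have hp := p.2
  have hq := q.2
  split_ifs with h
  · have : (p : ℕ) + (2 * k + 1) - q = ((p : ℕ) - q) + (2 * k + 1) := by omega
    rw [this, Nat.add_mod_right, Nat.mod_eq_of_lt (by omega)]
  · exact Nat.mod_eq_of_lt (by omega)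

theorem inW_iff (p q : Fin (2 * k + 1)) :
    inW k p q ↔ ((q : ℕ) < p ∧ (p : ℕ) ≤ q + k) ∨
      ((p : ℕ) < q ∧ (p : ℕ) + (2 * k + 1) ≤ q + k) := by
  unfold inW
  rw [cyc_form]
  have hp := p.2
  have hq := q.2
  split_ifs with h <;> omega

/-- The window after a position has `k` positions. -/
theorem card_inW (q : Fin (2 * k + 1)) :
    (univ.filter fun p : Fin (2 * k + 1) => inW k p q).card = k := by
  have hq := q.2
  have h : (univ.filter fun p : Fin (2 * k + 1) => inW k p q).card = (range k).card := by
    refine Finset.card_bij
      (fun p _ => if (q : ℕ) ≤ p then (p : ℕ) - q - 1 else (p : ℕ) + (2 * k + 1) - q - 1) ?_ ?_ ?_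
    · intro p hp
      simp only [mem_filter, mem_univ, true_and] at hp
      rw [inW_iff] at hp
      simp only [mem_range]
      have := p.2
      split_ifs <;> omega
    · intro p hp p' hp' e
      simp only [mem_filter, mem_univ, true_and] at hp hp'
      rw [inW_iff] at hp hp'
      have := p.2
      have := p'.2
      apply Fin.ext
      split_ifs at e <;> omega
    · intro j hj
      simp only [mem_range] at hj
      by_cases hc : (q : ℕ) + 1 + j < 2 * k + 1
      · refine ⟨⟨(q : ℕ) + 1 + j, hc⟩, ?_, ?_⟩
        · simp only [mem_filter, mem_univ, true_and]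
          rw [inW_iff]; simp only; omega
        · simp only
          split_ifs <;> omega
      · refine ⟨⟨(q : ℕ) + 1 + j - (2 * k + 1), by omega⟩, ?_, ?_⟩
        · simp only [mem_filter, mem_univ, true_and]
          rw [inW_iff]; simp only; omega
        · simp only
          split_ifs <;> omega
  rw [h, card_range]

theorem fval_le_k (σ : Fin (2 * k + 1) → Fin (2 * k + 1)) (hσ : Function.Injective σ)
    (l : Fin (2 * k + 1)) : fval σ l ≤ k := by
  unfold fval
  refine le_trans ?_ (le_of_eq (card_inW (σ l)))
  refine Finset.card_le_card_of_injOn σ ?_ hσ.injOn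
  intro y hy
  simp only [coe_filter, mem_univ, true_and, Set.mem_ofPred_eq] at hy ⊢
  exact hy.2

/-- At least `l - k` labels below `l` lie in the window. -/
theorem sub_le_fval (σ : Fin (2 * k + 1) → Fin (2 * k + 1)) (hσ : Function.Injective σ)
    (l : Fin (2 * k + 1)) : (l : ℕ) - k ≤ fval σ l := by
  -- the labels below `l` outside the window inject into the complement of the window and of `σ l`
  have hcomp : (univ.filter fun y : Fin (2 * k + 1) => y < l ∧ ¬ inW k (σ y) (σ l)).card ≤ k := by
    have h1 : (univ.filter fun p : Fin (2 * k + 1) => ¬ inW k p (σ l) ∧ p ≠ σ l).card = k := by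
      have h2 := card_inW (σ l)
      have h3 : (univ.filter fun p : Fin (2 * k + 1) => inW k p (σ l) ∨ p = σ l).card = k + 1 := by
        rw [Finset.filter_or, Finset.card_union_of_disjoint, h2]
        · simp [Finset.filter_eq']
        · rw [Finset.disjoint_left]
          intro p hp hp'
          simp only [mem_filter, mem_univ, true_and] at hp hp'
          subst hp'
          rw [inW_iff] at hp
          omega
      have h4 := Finset.card_filter_add_card_filter_not (s := (univ : Finset (Fin (2 * k + 1))))
        (p := fun p : Fin (2 * k + 1) => inW k p (σ l) ∨ p = σ l)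
      rw [h3] at h4
      simp only [card_univ, Fintype.card_fin, not_or] at h4
      have h5 : (univ.filter fun p : Fin (2 * k + 1) => ¬ inW k p (σ l) ∧ p ≠ σ l).card =
          (univ.filter fun p : Fin (2 * k + 1) => ¬ inW k p (σ l) ∧ ¬ p = σ l).card := rfl
      omega
    refine le_trans ?_ (le_of_eq h1)
    refine Finset.card_le_card_of_injOn σ ?_ hσ.injOn
    intro y hy
    simp only [coe_filter, mem_univ, true_and, Set.mem_ofPred_eq] at hy ⊢
    refine ⟨hy.2, fun h => ?_⟩
    have := hσ h
    exact absurd hy.1 (by rw [this]; exact lt_irrefl _)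
  have hsplit := Finset.card_filter_add_card_filter_not
    (s := (univ.filter fun y : Fin (2 * k + 1) => y < l)) (p := fun y => inW k (σ y) (σ l))
  rw [Finset.filter_filter, Finset.filter_filter, card_lt_val] at hsplit
  unfold fval
  omega

/-- The thermometer value is at most the width. -/
theorem uval_le_wid (σ : Fin (2 * k + 1) → Fin (2 * k + 1)) (hσ : Function.Injective σ)
    (l : Fin (2 * k + 1)) : uval σ l ≤ wid k l := by
  have h1 := fval_le_self σ l
  have h2 := fval_le_k σ hσ l
  have h3 := l.2
  unfold uval wid
  omega

/-- Number of `i < w` with the two threshold tests at `u`, `u'` agreeing. -/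
theorem card_same (w u u' : ℕ) (hu : u ≤ w) (hu' : u' ≤ w) :
    (((range w).filter fun i => decide (i < u) = decide (i < u')).card : ℤ) =
      w - |(u : ℤ) - u'| := by
  have hsub : (range w).filter (fun i => decide (i < u) = decide (i < u')) =
      range (min u u') ∪ Finset.Ico (max u u') w := by
    ext i
    simp only [mem_filter, mem_range, decide_eq_decide, mem_union, mem_Ico, lt_min_iff, max_le_iff]
    omega
  rw [hsub, Finset.card_union_of_disjoint, card_range, Nat.card_Ico]
  · rcases le_total u u' with h | h
    · rw [min_eq_left h, max_eq_right h, abs_sub_comm, abs_of_nonneg (by omega)]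
      push_cast [Nat.cast_sub hu']
      ring
    · rw [min_eq_right h, max_eq_left h, abs_of_nonneg (by omega)]
      push_cast [Nat.cast_sub hu]
      ring
  · rw [Finset.disjoint_left]
    intro i hi hi'
    simp only [mem_range, mem_Ico, lt_min_iff, max_le_iff] at hi hi'
    omega

/-- Both bits reflected. -/
theorem card_same' (w u u' : ℕ) (hu : u ≤ w) (hu' : u' ≤ w) :
    (((range w).filter fun i => decide (w - i ≤ u) = decide (w - i ≤ u')).card : ℤ) =
      w - |(u : ℤ) - u'| := by
  have : ((range w).filter fun i => decide (w - i ≤ u) = decide (w - i ≤ u')).card =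
      ((range w).filter fun i => decide (i < u) = decide (i < u')).card := by
    refine Finset.card_bij (fun i _ => w - 1 - i) ?_ ?_ ?_
    · intro i hi
      simp only [mem_filter, mem_range, decide_eq_decide] at hi ⊢
      omega
    · intro i hi j hj e
      simp only [mem_filter, mem_range] at hi hj
      omega
    · intro j hj
      simp only [mem_filter, mem_range, decide_eq_decide] at hj
      refine ⟨w - 1 - j, ?_, by omega⟩
      simp only [mem_filter, mem_range, decide_eq_decide]
      omega
  rw [this]
  exact card_same w u u' hu hu'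

/-- One bit plain, the other reflected. -/
theorem card_opp (w u u' : ℕ) (hu : u ≤ w) (hu' : u' ≤ w) :
    (((range w).filter fun i => decide (i < u) = decide (w - i ≤ u')).card : ℤ) =
      |(u : ℤ) + u' - w| := by
  rcases le_total (u + u') w with h | h
  · -- agreeing: `u ≤ i < w - u'`
    have hs : (range w).filter (fun i => decide (i < u) = decide (w - i ≤ u')) = Finset.Ico u (w - u') := by
      ext i
      simp only [mem_filter, mem_range, decide_eq_decide, mem_Ico]
      omega
    rw [hs, Nat.card_Ico, abs_of_nonpos (by omega)]
    omega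
  · have hs : (range w).filter (fun i => decide (i < u) = decide (w - i ≤ u')) = Finset.Ico (w - u') u := by
      ext i
      simp only [mem_filter, mem_range, decide_eq_decide, mem_Ico]
      omega
    rw [hs, Nat.card_Ico, abs_of_nonneg (by omega)]
    omega

/-- The count at one pivot, `f` form, star on the left of the pivot for both. -/
theorem uval_diff (σ τ : Fin (2 * k + 1) → Fin (2 * k + 1)) (hσ : Function.Injective σ)
    (hτ : Function.Injective τ) (l : Fin (2 * k + 1)) :
    (uval σ l : ℤ) - uval τ l = (fval σ l : ℤ) - fval τ l := by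
  have h1 := sub_le_fval σ hσ l
  have h2 := sub_le_fval τ hτ l
  unfold uval
  omega

/-- The opposite-side combination in `f` form. -/
theorem uval_add_sub_wid (σ τ : Fin (2 * k + 1) → Fin (2 * k + 1)) (hσ : Function.Injective σ)
    (hτ : Function.Injective τ) (l : Fin (2 * k + 1)) :
    (uval σ l : ℤ) + uval τ l - wid k l = (fval σ l : ℤ) + fval τ l - l := by
  have h1 := sub_le_fval σ hσ l
  have h2 := sub_le_fval τ hτ l
  have h3 := l.2
  unfold uval wid
  omega

/-- Agreement at a pivot on the same side (right) of both stars. -/
theorem agree_at_right (T T' : Star k) (l : Fin (2 * k + 1)) (h : T.J ≤ (l : ℕ)) (h' : T'.J ≤ (l : ℕ)) :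
    (((range (wid k l)).filter fun i => T.bit l i = T'.bit l i).card : ℤ) =
      wid k l - |(fval T.pos l : ℤ) - fval T'.pos l| := by
  have hσ := T.pos.injective
  have hτ := T'.pos.injective
  have : (range (wid k l)).filter (fun i => T.bit l i = T'.bit l i) =
      (range (wid k l)).filter (fun i => decide (i < uval T.pos l) = decide (i < uval T'.pos l)) := by
    refine Finset.filter_congr fun i _ => ?_
    simp only [Star.bit, if_pos h, if_pos h']
  rw [this, card_same _ _ _ (uval_le_wid _ hσ l) (uval_le_wid _ hτ l), uval_diff _ _ hσ hτ]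

/-- Agreement at a pivot on the same side (left) of both stars. -/
theorem agree_at_left (T T' : Star k) (l : Fin (2 * k + 1)) (h : ¬ T.J ≤ (l : ℕ)) (h' : ¬ T'.J ≤ (l : ℕ)) :
    (((range (wid k l)).filter fun i => T.bit l i = T'.bit l i).card : ℤ) =
      wid k l - |(fval T.pos l : ℤ) - fval T'.pos l| := by
  have hσ := T.pos.injective
  have hτ := T'.pos.injective
  have : (range (wid k l)).filter (fun i => T.bit l i = T'.bit l i) =
      (range (wid k l)).filter (fun i => decide (wid k l - i ≤ uval T.pos l) =
        decide (wid k l - i ≤ uval T'.pos l)) := by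
    refine Finset.filter_congr fun i _ => ?_
    simp only [Star.bit, if_neg h, if_neg h']
  rw [this, card_same' _ _ _ (uval_le_wid _ hσ l) (uval_le_wid _ hτ l), uval_diff _ _ hσ hτ]

/-- Agreement at a pivot between the two stars: right of `T`, left of `T'`. -/
theorem agree_at_between (T T' : Star k) (l : Fin (2 * k + 1)) (h : T.J ≤ (l : ℕ)) (h' : ¬ T'.J ≤ (l : ℕ)) :
    (((range (wid k l)).filter fun i => T.bit l i = T'.bit l i).card : ℤ) =
      |(fval T.pos l : ℤ) + fval T'.pos l - l| := by
  have hσ := T.pos.injective
  have hτ := T'.pos.injective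
  have : (range (wid k l)).filter (fun i => T.bit l i = T'.bit l i) =
      (range (wid k l)).filter (fun i => decide (i < uval T.pos l) =
        decide (wid k l - i ≤ uval T'.pos l)) := by
    refine Finset.filter_congr fun i _ => ?_
    simp only [Star.bit, if_pos h, if_neg h']
  rw [this, card_opp _ _ _ (uval_le_wid _ hσ l) (uval_le_wid _ hτ l), uval_add_sub_wid _ _ hσ hτ]

end Vale.Agent.Lib.P040Z
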