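import Vale.Agent.Lib.P040M.BothSides

/-!
Assembly for the bound on all `x`-monotone drawings: bit words with agreements bounded by the pair
counts give `(number of bits) * zar m`, and deleting a blue vertex passes from odd to even `n`.
-/

namespace Vale.Agent.Lib.P040Z

open Finset Vale.Agent.Lib.P040 Vale.Agent.Lib.P040M

/-- Per bit: `mono_pairs`. -/
theorem card_mul_zar_le_sum_agree {m : ℕ} {I : Type*} [Fintype I] (φ : Fin m → I → Bool) :
    Fintype.card I * zar m ≤ ∑ r : Fin m, ∑ s : Fin m,
      if r < s then (univ.filter fun i => φ r i = φ s i).card else 0 := by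
  classical
  calc Fintype.card I * zar m = ∑ _i : I, zar m := by simp
    _ ≤ ∑ i : I, ∑ r : Fin m, ∑ s : Fin m,
          if r < s then (if φ r i = φ s i then 1 else 0) else 0 :=
        Finset.sum_le_sum fun i _ => mono_pairs m (fun r => φ r i)
    _ = _ := by
        rw [Finset.sum_comm]
        refine Finset.sum_congr rfl fun r _ => ?_
        rw [Finset.sum_comm]
        refine Finset.sum_congr rfl fun s _ => ?_
        by_cases h : r < s
        · simp only [h, if_true]
          rw [Finset.card_filter]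
        · simp [h]

/-- Bit words whose agreements are bounded by `X r s`. -/
theorem card_mul_zar_le_of_agree {m : ℕ} {I : Type*} [Fintype I] (φ : Fin m → I → Bool)
    (X : Fin m → Fin m → ℕ)
    (h : ∀ r s, r < s → (univ.filter fun i => φ r i = φ s i).card ≤ X r s) :
    Fintype.card I * zar m ≤ ∑ r : Fin m, ∑ s : Fin m, if r < s then X r s else 0 := by
  refine le_trans (card_mul_zar_le_sum_agree φ) ?_
  refine Finset.sum_le_sum fun r _ => Finset.sum_le_sum fun s _ => ?_
  by_cases hrs : r < s
  · simp only [hrs, if_true]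
    exact h r s hrs
  · simp [hrs]

/-- `meetingPairs` as a sum over pairs of reds. -/
theorem meetingPairs_eq {m n : ℕ} (D : MonoDrawing m n) :
    D.meetingPairs = ∑ r : Fin m, ∑ s : Fin m, if r < s then
      (by classical exact ((univ : Finset (Fin n × Fin n)).filter fun p =>
        p.1 ≠ p.2 ∧ D.Meet r p.1 s p.2).card) else 0 := by
  classical
  unfold MonoDrawing.meetingPairs
  simp only [card_filter]
  rw [Fintype.sum_prod_type]
  refine Finset.sum_congr rfl fun r _ => ?_
  rw [Fintype.sum_prod_type]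
  refine Finset.sum_congr rfl fun s _ => ?_
  by_cases h : r < s
  · simp only [h, if_true, true_and]
  · simp only [h, if_false, false_and, Finset.sum_const_zero]

/-- The drawing with one blue vertex deleted. -/
def del {m n : ℕ} (D : MonoDrawing m (n + 1)) (b : Fin (n + 1)) : MonoDrawing m n where
  xR := D.xR
  xB := fun y => D.xB (b.succAbove y)
  yR := D.yR
  yB := fun y => D.yB (b.succAbove y)
  xR_inj := D.xR_inj
  xB_mono := D.xB_mono.comp (Fin.strictMono_succAbove b)
  x_ne := fun r _ => D.x_ne r _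
  edge := fun r y => D.edge r (b.succAbove y)
  cont := fun r _ => D.cont r _
  at_red := fun r _ => D.at_red r _
  at_blue := fun r _ => D.at_blue r _
  avoid_red := fun r _ s hs h => D.avoid_red r _ s hs h
  avoid_blue := fun r _ _ hc h =>
    D.avoid_blue r _ _ (fun e => hc (Fin.succAbove_right_injective e)) h

open Classical in
/-- The meeting quadruples of a drawing. -/
noncomputable def meetSet {m n : ℕ} (D : MonoDrawing m n) :
    Finset (Fin m × Fin m × Fin n × Fin n) :=
  (univ : Finset (Fin m × Fin m × Fin n × Fin n)).filter fun q =>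
    q.1 < q.2.1 ∧ q.2.2.1 ≠ q.2.2.2 ∧ D.Meet q.1 q.2.2.1 q.2.1 q.2.2.2

theorem del_meet {m n : ℕ} (D : MonoDrawing m (n + 1)) (b : Fin (n + 1)) (r s : Fin m)
    (u v : Fin n) : (del D b).Meet r u s v ↔ D.Meet r (b.succAbove u) s (b.succAbove v) := Iff.rfl

theorem del_meetingPairs {m n : ℕ} (D : MonoDrawing m (n + 1)) (b : Fin (n + 1)) :
    (del D b).meetingPairs = ((meetSet D).filter fun q => q.2.2.1 ≠ b ∧ q.2.2.2 ≠ b).card := by
  classical
  unfold MonoDrawing.meetingPairs
  refine Finset.card_bij (fun q _ => (q.1, q.2.1, b.succAbove q.2.2.1, b.succAbove q.2.2.2))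
    ?_ ?_ ?_
  · rintro ⟨r, s, u, v⟩ hq
    simp only [mem_filter, mem_univ, true_and, meetSet] at hq ⊢
    obtain ⟨h1, h2, h3⟩ := hq
    exact ⟨⟨h1, fun h => h2 (Fin.succAbove_right_injective h), h3⟩,
      Fin.succAbove_ne b u, Fin.succAbove_ne b v⟩
  · rintro ⟨r, s, u, v⟩ _ ⟨r', s', u', v'⟩ _ h
    simp only [Prod.mk.injEq] at h ⊢
    exact ⟨h.1, h.2.1, Fin.succAbove_right_injective h.2.2.1,
      Fin.succAbove_right_injective h.2.2.2⟩
  · rintro ⟨r, s, u, v⟩ hq
    simp only [mem_filter, mem_univ, true_and, meetSet] at hq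
    obtain ⟨⟨h1, h2, h3⟩, hu, hv⟩ := hq
    obtain ⟨u', rfl⟩ := Fin.exists_succAbove_eq hu
    obtain ⟨v', rfl⟩ := Fin.exists_succAbove_eq hv
    refine ⟨(r, s, u', v'), ?_, rfl⟩
    simp only [mem_filter, mem_univ, true_and]
    exact ⟨h1, fun h => h2 (congrArg _ h), h3⟩

/-- Each meeting survives the deletion of every blue vertex but its two. -/
theorem sum_del {m n : ℕ} (D : MonoDrawing m (n + 1)) :
    ∑ b, (del D b).meetingPairs = (n - 1) * D.meetingPairs := by
  classical
  simp_rw [del_meetingPairs, card_filter]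
  rw [Finset.sum_comm]
  have hcard : ∀ q ∈ meetSet D,
      (∑ x : Fin (n + 1), if q.2.2.1 ≠ x ∧ q.2.2.2 ≠ x then 1 else 0) = n - 1 := by
    rintro ⟨r, s, u, v⟩ hq
    simp only [meetSet, mem_filter, mem_univ, true_and] at hq
    have huv : u ≠ v := hq.2.1
    simp only [← card_filter]
    have : (univ.filter fun x : Fin (n + 1) => u ≠ x ∧ v ≠ x) = (univ \ {u, v}) := by
      ext x
      simp only [mem_filter, mem_univ, true_and, mem_sdiff, mem_insert, mem_singleton]
      constructor
      · rintro ⟨h1, h2⟩ (h | h)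
        · exact h1 h.symm
        · exact h2 h.symm
      · intro h
        exact ⟨fun h' => h (Or.inl h'.symm), fun h' => h (Or.inr h'.symm)⟩
    rw [this, Finset.card_sdiff_of_subset (Finset.subset_univ _), Finset.card_univ,
      Fintype.card_fin, Finset.card_pair huv]
    omega
  rw [Finset.sum_congr rfl hcard, Finset.sum_const, smul_eq_mul, mul_comm]
  rfl

/-- The counting step for the blue class. -/
theorem bound_succ {m n B : ℕ} (D : MonoDrawing m (n + 1))
    (h : ∀ b, B ≤ (del D b).meetingPairs) : (n + 1) * B ≤ (n - 1) * D.meetingPairs := by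
  rw [← sum_del D]
  calc (n + 1) * B = ∑ _x : Fin (n + 1), B := by simp
    _ ≤ _ := Finset.sum_le_sum fun x _ => h x

theorem zar_odd (k : ℕ) : zar (2 * k + 1) = k * k := by
  unfold zar
  have h1 : (2 * k + 1) / 2 = k := by omega
  have h2 : (2 * k + 1 - 1) / 2 = k := by omega
  rw [h1, h2]

theorem zar_even (k : ℕ) : zar (2 * k + 2) = (k + 1) * k := by
  unfold zar
  have h1 : (2 * k + 2) / 2 = k + 1 := by omega
  have h2 : (2 * k + 2 - 1) / 2 = k := by omega
  rw [h1, h2]

/-- Even `n` from odd `n - 1`. -/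
theorem even_step {m k : ℕ} (D : MonoDrawing m (2 * k + 2))
    (h : ∀ b, zar m * zar (2 * k + 1) ≤ (del D b).meetingPairs) :
    zar m * zar (2 * k + 2) ≤ D.meetingPairs := by
  have h1 := bound_succ (m := m) (n := 2 * k + 1) D h
  rw [zar_even]
  rw [zar_odd] at h1
  have e : 2 * k + 1 - 1 = 2 * k := by omega
  rw [e] at h1
  rcases Nat.eq_zero_or_pos k with rfl | hk
  · simp
  · have h2 : 2 * k * (zar m * ((k + 1) * k)) ≤ 2 * k * D.meetingPairs := by
      calc 2 * k * (zar m * ((k + 1) * k)) = (2 * k + 1 + 1) * (zar m * (k * k)) := by ring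
        _ ≤ _ := h1
    exact Nat.le_of_mul_le_mul_left h2 (by omega)

end Vale.Agent.Lib.P040Z
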