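import Vale.Agent.Lib.P040Z.Defs

/-!
Values of `fval` when the word after the pivot has all large labels first, or all small labels
first, and under reversal of the rotation.
-/

namespace Vale.Agent.Lib.P040Z

open Finset

variable {k : ℕ}

/-- The offset of position `p` after position `q`. -/
def off (k : ℕ) (p q : Fin (2 * k + 1)) : ℕ := ((p : ℕ) + (2 * k + 1) - q) % (2 * k + 1)

lemma off_eq (p q : Fin (2 * k + 1)) :
    off k p q = if (q : ℕ) ≤ p then (p : ℕ) - q else (p : ℕ) + (2 * k + 1) - q := by
  have hp := p.2
  have hq := q.2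
  unfold off
  split_ifs with h
  · have h1 : (p : ℕ) + (2 * k + 1) - q = ((p : ℕ) - q) + (2 * k + 1) := by omega
    rw [h1, Nat.add_mod_right, Nat.mod_eq_of_lt (by omega)]
  · exact Nat.mod_eq_of_lt (by omega)

lemma inW_iff_off (p q : Fin (2 * k + 1)) : inW k p q ↔ 1 ≤ off k p q ∧ off k p q ≤ k := Iff.rfl

lemma off_lt (p q : Fin (2 * k + 1)) : off k p q < 2 * k + 1 := by
  have hp := p.2
  have hq := q.2
  rw [off_eq]
  split_ifs <;> omega

lemma off_eq_zero_iff (p q : Fin (2 * k + 1)) : off k p q = 0 ↔ p = q := by
  have hp := p.2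
  have hq := q.2
  rw [off_eq, Fin.ext_iff]
  split_ifs <;> omega

lemma off_inj {p p' q : Fin (2 * k + 1)} (h : off k p q = off k p' q) : p = p' := by
  have hp := p.2
  have hp' := p'.2
  have hq := q.2
  rw [off_eq, off_eq] at h
  rw [Fin.ext_iff]
  split_ifs at h <;> omega

/-- Exactly `k` positions lie in the window after `q`. -/
lemma card_inW (q : Fin (2 * k + 1)) :
    (univ.filter fun p : Fin (2 * k + 1) => inW k p q).card = k := by
  have hq := q.2
  have h : (univ.filter fun p : Fin (2 * k + 1) => inW k p q).card = (range k).card := by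
    refine card_bij (fun p _ => off k p q - 1) ?_ ?_ ?_
    · intro p hp
      have := (mem_filter.1 hp).2
      rw [inW_iff_off] at this
      rw [mem_range]
      omega
    · intro p hp p' hp' he
      have h1 := (mem_filter.1 hp).2
      have h2 := (mem_filter.1 hp').2
      rw [inW_iff_off] at h1 h2
      exact off_inj (q := q) (by omega)
    · intro i hi
      have hi' := mem_range.1 hi
      by_cases hc : (q : ℕ) + i + 1 < 2 * k + 1
      · refine ⟨⟨(q : ℕ) + i + 1, hc⟩, ?_, ?_⟩
        · rw [mem_filter]
          refine ⟨mem_univ _, ?_⟩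
          rw [inW_iff_off, off_eq]
          simp only
          split_ifs <;> omega
        · rw [off_eq]
          simp only
          split_ifs <;> omega
      · refine ⟨⟨(q : ℕ) + i + 1 - (2 * k + 1), by omega⟩, ?_, ?_⟩
        · rw [mem_filter]
          refine ⟨mem_univ _, ?_⟩
          rw [inW_iff_off, off_eq]
          simp only
          split_ifs <;> omega
        · rw [off_eq]
          simp only
          split_ifs <;> omega
  rw [h, card_range]

/-- Exactly `k` labels lie in the window of `l`. -/
lemma card_window (σ : Equiv.Perm (Fin (2 * k + 1))) (l : Fin (2 * k + 1)) :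
    (univ.filter fun y : Fin (2 * k + 1) => inW k (σ y) (σ l)).card = k := by
  refine Eq.trans ?_ (card_inW (σ l))
  refine card_bij (fun y _ => σ y) ?_ ?_ ?_
  · intro y hy
    exact mem_filter.2 ⟨mem_univ _, (mem_filter.1 hy).2⟩
  · intro y _ y' _ he
    exact σ.injective he
  · intro p hp
    refine ⟨σ.symm p, mem_filter.2 ⟨mem_univ _, ?_⟩, by simp⟩
    simpa using (mem_filter.1 hp).2

lemma not_inW_self (σ : Equiv.Perm (Fin (2 * k + 1))) (l : Fin (2 * k + 1)) :
    ¬ inW k (σ l) (σ l) := by
  rw [inW_iff_off]
  have := (off_eq_zero_iff (σ l) (σ l)).2 rfl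
  omega

lemma card_lt (l : Fin (2 * k + 1)) :
    (univ.filter fun y : Fin (2 * k + 1) => y < l).card = (l : ℕ) := by
  have := Fin.card_Iio l
  rw [← this]
  congr 1
  ext y
  simp

lemma card_gt (l : Fin (2 * k + 1)) :
    (univ.filter fun y : Fin (2 * k + 1) => l < y).card = 2 * k - (l : ℕ) := by
  have := Fin.card_Ioi l
  have h2 : (univ.filter fun y : Fin (2 * k + 1) => l < y) = Ioi l := by
    ext y
    simp
  rw [h2, this]
  omega

/-- The window splits into small and large labels. -/
lemma window_split (σ : Equiv.Perm (Fin (2 * k + 1))) (l : Fin (2 * k + 1)) :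
    fval σ l + (univ.filter fun y : Fin (2 * k + 1) => l < y ∧ inW k (σ y) (σ l)).card = k := by
  refine Eq.trans ?_ (card_window σ l)
  unfold fval
  rw [← card_union_of_disjoint]
  · congr 1
    ext y
    simp only [mem_union, mem_filter, mem_univ, true_and]
    constructor
    · rintro (h1 | h1)
      · exact h1.2
      · exact h1.2
    · intro h1
      rcases lt_trichotomy y l with h2 | h2 | h2
      · exact Or.inl ⟨h2, h1⟩
      · subst h2
        exact absurd h1 (not_inW_self σ y)
      · exact Or.inr ⟨h2, h1⟩
  · rw [disjoint_left]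
    intro y h1 h2
    have h3 := (mem_filter.1 h1).2.1
    have h4 := (mem_filter.1 h2).2.1
    exact absurd h3 (not_lt.2 h4.le)

/-- Large labels first: the count of small labels in the window is minimal. -/
theorem fval_lo (σ : Equiv.Perm (Fin (2 * k + 1))) (l : Fin (2 * k + 1))
    (hpat : ∀ y y', l < y → y' < l → off k (σ y) (σ l) < off k (σ y') (σ l)) :
    fval σ l = (l : ℕ) - k := by
  have hl := l.2
  have hs := window_split σ l
  set W := (univ.filter fun y : Fin (2 * k + 1) => l < y ∧ inW k (σ y) (σ l)) with hW
  by_cases hsm : ∃ y', y' < l ∧ inW k (σ y') (σ l)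
  · obtain ⟨y', hy', hin⟩ := hsm
    have hin' := (inW_iff_off _ _).1 hin
    -- all large labels are in the window
    have hall : W = univ.filter fun y : Fin (2 * k + 1) => l < y := by
      ext y
      simp only [hW, mem_filter, mem_univ, true_and]
      constructor
      · exact fun h => h.1
      · intro h
        refine ⟨h, ?_⟩
        have h1 := hpat y y' h hy'
        rw [inW_iff_off]
        refine ⟨?_, by omega⟩
        have hne : off k (σ y) (σ l) ≠ 0 := by
          rw [Ne, off_eq_zero_iff]
          intro he
          have := σ.injective he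
          exact absurd h (by rw [this]; exact lt_irrefl _)
        omega
    rw [hall, card_gt] at hs
    omega
  · have hzero : fval σ l = 0 := by
      unfold fval
      rw [card_eq_zero, filter_eq_empty_iff]
      intro y _ hy
      exact hsm ⟨y, hy.1, hy.2⟩
    -- the window consists of large labels only, so there are at least `k` of them
    have hle : W.card ≤ 2 * k - (l : ℕ) := by
      rw [← card_gt]
      apply card_le_card
      intro y hy
      simp only [hW, mem_filter, mem_univ, true_and] at hy ⊢
      exact hy.1
    omega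

/-- Small labels first: the count of small labels in the window is maximal. -/
theorem fval_hi (σ : Equiv.Perm (Fin (2 * k + 1))) (l : Fin (2 * k + 1))
    (hpat : ∀ y y', y < l → l < y' → off k (σ y) (σ l) < off k (σ y') (σ l)) :
    fval σ l = min (l : ℕ) k := by
  have hl := l.2
  have hs := window_split σ l
  set W := (univ.filter fun y : Fin (2 * k + 1) => l < y ∧ inW k (σ y) (σ l)) with hW
  by_cases hlg : ∃ y', l < y' ∧ inW k (σ y') (σ l)
  · obtain ⟨y', hy', hin⟩ := hlg
    have hin' := (inW_iff_off _ _).1 hin
    have hall : (univ.filter fun y : Fin (2 * k + 1) => y < l ∧ inW k (σ y) (σ l)) =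
        univ.filter fun y : Fin (2 * k + 1) => y < l := by
      ext y
      simp only [mem_filter, mem_univ, true_and]
      constructor
      · exact fun h => h.1
      · intro h
        refine ⟨h, ?_⟩
        have h1 := hpat y y' h hy'
        rw [inW_iff_off]
        refine ⟨?_, by omega⟩
        have hne : off k (σ y) (σ l) ≠ 0 := by
          rw [Ne, off_eq_zero_iff]
          intro he
          have := σ.injective he
          exact absurd h (by rw [this]; exact lt_irrefl _)
        omega
    have hval : fval σ l = (l : ℕ) := by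
      unfold fval
      rw [hall, card_lt]
    have hpos : 0 < W.card := card_pos.2 ⟨y', by
      simp only [hW, mem_filter, mem_univ, true_and]
      exact ⟨hy', hin⟩⟩
    omega
  · have hzero : W.card = 0 := by
      rw [card_eq_zero, hW, filter_eq_empty_iff]
      intro y _ hy
      exact hlg ⟨y, hy.1, hy.2⟩
    have hle : fval σ l ≤ (l : ℕ) := by
      rw [← card_lt l]
      apply card_le_card
      intro y hy
      simp only [mem_filter, mem_univ, true_and] at hy ⊢
      exact hy.1
    omega

/-- Reversal of the rotation: `τ y + σ y` constant modulo `2 k + 1`. -/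
theorem fval_rev (σ τ : Equiv.Perm (Fin (2 * k + 1))) (c : ℕ)
    (hτ : ∀ y, ((τ y : ℕ) + σ y) % (2 * k + 1) = c % (2 * k + 1)) (l : Fin (2 * k + 1)) :
    fval τ l + fval σ l = (l : ℕ) := by
  have hkey : ∀ y, y ≠ l → (inW k (τ y) (τ l) ↔ ¬ inW k (σ y) (σ l)) := by
    intro y hy
    have hσ : σ y ≠ σ l := fun h => hy (σ.injective h)
    have hτ' : τ y ≠ τ l := fun h => hy (τ.injective h)
    have h1 := hτ y
    have h2 := hτ l
    have h3 : ((τ y : ℕ) + σ y) % (2 * k + 1) = ((τ l : ℕ) + σ l) % (2 * k + 1) := by
      rw [h1, h2]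
    have a1 := (τ y).2
    have a2 := (τ l).2
    have a3 := (σ y).2
    have a4 := (σ l).2
    have hne1 : (σ y : ℕ) ≠ σ l := fun h => hσ (Fin.ext h)
    have hne2 : (τ y : ℕ) ≠ τ l := fun h => hτ' (Fin.ext h)
    -- offsets add up to `2 k + 1`
    have hoff : off k (τ y) (τ l) + off k (σ y) (σ l) = 2 * k + 1 := by
      rw [off_eq, off_eq]
      have hmod : ((τ y : ℕ) + σ y) ≡ ((τ l : ℕ) + σ l) [MOD (2 * k + 1)] := h3
      generalize (τ y : ℕ) = a at *
      generalize (τ l : ℕ) = b at *
      generalize (σ y : ℕ) = u at *
      generalize (σ l : ℕ) = v at *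
      have h5 : a + u = b + v ∨ a + u + (2 * k + 1) = b + v ∨ a + u = b + v + (2 * k + 1) := by
        have h6 : a + u < 2 * (2 * k + 1) := by omega
        have h7 : b + v < 2 * (2 * k + 1) := by omega
        by_cases h8 : a + u < 2 * k + 1 <;> by_cases h9 : b + v < 2 * k + 1
        · rw [Nat.ModEq, Nat.mod_eq_of_lt h8, Nat.mod_eq_of_lt h9] at hmod
          exact Or.inl hmod
        · have h10 : (b + v) % (2 * k + 1) = b + v - (2 * k + 1) := by
            rw [Nat.mod_eq_sub_mod (by omega), Nat.mod_eq_of_lt (by omega)]
          rw [Nat.ModEq, Nat.mod_eq_of_lt h8, h10] at hmod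
          right; left
          omega
        · have h10 : (a + u) % (2 * k + 1) = a + u - (2 * k + 1) := by
            rw [Nat.mod_eq_sub_mod (by omega), Nat.mod_eq_of_lt (by omega)]
          rw [Nat.ModEq, Nat.mod_eq_of_lt h9, h10] at hmod
          right; right
          omega
        · have h10 : (a + u) % (2 * k + 1) = a + u - (2 * k + 1) := by
            rw [Nat.mod_eq_sub_mod (by omega), Nat.mod_eq_of_lt (by omega)]
          have h11 : (b + v) % (2 * k + 1) = b + v - (2 * k + 1) := by
            rw [Nat.mod_eq_sub_mod (by omega), Nat.mod_eq_of_lt (by omega)]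
          rw [Nat.ModEq, h10, h11] at hmod
          left
          omega
      split_ifs <;> omega
    rw [inW_iff_off, inW_iff_off]
    have hn1 : off k (τ y) (τ l) ≠ 0 := by
      rw [Ne, off_eq_zero_iff]
      exact hτ'
    have hn2 : off k (σ y) (σ l) ≠ 0 := by
      rw [Ne, off_eq_zero_iff]
      exact hσ
    omega
  refine Eq.trans ?_ (card_lt l)
  unfold fval
  rw [← card_union_of_disjoint]
  · congr 1
    ext y
    simp only [mem_union, mem_filter, mem_univ, true_and]
    by_cases hy : y < l
    · have := hkey y (ne_of_lt hy)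
      simp only [hy, true_and, iff_true]
      by_cases h1 : inW k (σ y) (σ l)
      · exact Or.inr h1
      · exact Or.inl (this.2 h1)
    · simp [hy]
  · rw [disjoint_left]
    intro y h1 h2
    have h3 := mem_filter.1 h1
    have h4 := mem_filter.1 h2
    have h5 := (hkey y (ne_of_lt h3.2.1)).1 h3.2.2
    exact h5 h4.2.2

end Vale.Agent.Lib.P040Z
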