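import Vale.Agent.Lib.P040Z.Defs

/-!
Rotating a circular position function so that an upper block comes first: the counts `fval` do not
change.
-/

namespace Vale.Agent.Lib.P040Z

open Finset

variable {k : ℕ}

theorem off_shift (n a b c : ℕ) (hb : b < n) (ha : a < n) (hn : 0 < n) :
    ((a + c) % n + n - (b + c) % n) % n = (a + n - b) % n := by
  have hB : (b + c) % n < n := Nat.mod_lt _ hn
  have h1 : ((a + c) % n + n - (b + c) % n) + (b + c) ≡ (a + n - b) + (b + c) [MOD n] := by
    have e1 : (a + n - b) + (b + c) = a + c + n := by omega
    rw [e1]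
    have h2 : ((a + c) % n + n - (b + c) % n) + (b + c) ≡
        ((a + c) % n + n - (b + c) % n) + (b + c) % n [MOD n] :=
      Nat.ModEq.add_left _ (Nat.mod_modEq _ _).symm
    refine h2.trans ?_
    have e2 : ((a + c) % n + n - (b + c) % n) + (b + c) % n = (a + c) % n + n := by omega
    rw [e2]
    exact Nat.ModEq.add_right _ (Nat.mod_modEq _ _)
  exact Nat.ModEq.add_right_cancel' _ h1

/-- Rotation: `U` an upper block of the positions `p` is moved to the front. -/
theorem exists_rotate (p : Fin (2 * k + 1) ≃ Fin (2 * k + 1)) (U : Finset (Fin (2 * k + 1)))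
    (hU : ∀ u ∈ U, ∀ v, v ∉ U → p v < p u) :
    ∃ p' : Fin (2 * k + 1) ≃ Fin (2 * k + 1),
      (∀ x y, p' x < p' y ↔ (x ∈ U ∧ y ∉ U) ∨ ((x ∈ U ↔ y ∈ U) ∧ p x < p y)) ∧
      ∀ l, fval p' l = fval p l := by
  classical
  have hn0 : 0 < 2 * k + 1 := by omega
  by_cases hc : U.card < (2 * k + 1)
  · -- positions of the block
    have hcomp : (Uᶜ).card = (2 * k + 1) - U.card := by
      rw [card_compl, Fintype.card_fin]
    have hpos1 : ∀ x, x ∈ U → (2 * k + 1) - U.card ≤ (p x).val := by
      intro x hx
      by_contra hlt
      have h1 : (Uᶜ).card ≤ (range (p x).val).card := by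
        refine card_le_card_of_injOn (fun v => (p v).val) ?_ ?_
        · intro v hv
          have hv' : v ∉ U := by simpa using hv
          have := hU x hx v hv'
          simp only [coe_range, Set.mem_Iio]
          exact this
        · intro a _ b _ hab
          exact p.injective (Fin.ext hab)
      rw [card_range, hcomp] at h1
      omega
    have hpos2 : ∀ x, x ∉ U → (p x).val < (2 * k + 1) - U.card := by
      intro x hx
      by_contra hge
      have h1 : U.card ≤ (Ioo (p x).val (2 * k + 1)).card := by
        refine card_le_card_of_injOn (fun v => (p v).val) ?_ ?_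
        · intro u hu
          have := hU u hu x hx
          simp only [coe_Ioo, Set.mem_Ioo]
          exact ⟨this, (p u).isLt⟩
        · intro a _ b _ hab
          exact p.injective (Fin.ext hab)
      rw [Nat.card_Ioo] at h1
      omega
    let g : Fin (2 * k + 1) → Fin (2 * k + 1) := fun a => ⟨(a.val + U.card) % (2 * k + 1), Nat.mod_lt _ hn0⟩
    have hval : ∀ x, (g (p x)).val = if x ∈ U then (p x).val + U.card - (2 * k + 1) else (p x).val + U.card := by
      intro x
      show ((p x).val + U.card) % (2 * k + 1) = _
      have hlt := (p x).isLt
      split_ifs with hx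
      · have := hpos1 x hx
        have h3 : (2 * k + 1) ≤ (p x).val + U.card := by omega
        rw [Nat.mod_eq_sub_mod h3, Nat.mod_eq_of_lt (by omega)]
      · have := hpos2 x hx
        exact Nat.mod_eq_of_lt (by omega)
    have hginj : Function.Injective g := by
      intro a b hab
      by_contra hne
      have h1 : (a.val + U.card) % (2 * k + 1) = (b.val + U.card) % (2 * k + 1) := congrArg Fin.val hab
      have h2 := off_shift (2 * k + 1) a.val b.val U.card b.isLt a.isLt hn0
      rw [h1] at h2
      have h3 : ((b.val + U.card) % (2 * k + 1) + (2 * k + 1) - (b.val + U.card) % (2 * k + 1)) % (2 * k + 1) = 0 := by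
        have : (b.val + U.card) % (2 * k + 1) + (2 * k + 1) - (b.val + U.card) % (2 * k + 1) = (2 * k + 1) := by
          have := Nat.mod_lt (b.val + U.card) hn0
          omega
        rw [this, Nat.mod_self]
      rw [h3] at h2
      have h4 := a.isLt
      have h5 := b.isLt
      have hne' : a.val ≠ b.val := fun e => hne (Fin.ext e)
      rcases lt_or_gt_of_ne hne' with h6 | h6
      · have h7 : (a.val + (2 * k + 1) - b.val) % (2 * k + 1) = a.val + (2 * k + 1) - b.val := Nat.mod_eq_of_lt (by omega)
        omega
      · have h7 : (a.val + (2 * k + 1) - b.val) % (2 * k + 1) = a.val - b.val := by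
          rw [show a.val + (2 * k + 1) - b.val = (a.val - b.val) + (2 * k + 1) by omega, Nat.add_mod_right,
            Nat.mod_eq_of_lt (by omega)]
        omega
    have hgbij : Function.Bijective g := (Finite.injective_iff_bijective).1 hginj
    let e : Fin (2 * k + 1) ≃ Fin (2 * k + 1) := Equiv.ofBijective g hgbij
    refine ⟨p.trans e, ?_, ?_⟩
    · intro x y
      have hx : ((p.trans e) x).val = if x ∈ U then (p x).val + U.card - (2 * k + 1) else (p x).val + U.card :=
        hval x
      have hy : ((p.trans e) y).val = if y ∈ U then (p y).val + U.card - (2 * k + 1) else (p y).val + U.card :=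
        hval y
      rw [Fin.lt_def, hx, hy, Fin.lt_def]
      by_cases hxU : x ∈ U <;> by_cases hyU : y ∈ U
      · have h1 := hpos1 x hxU
        have h2 := hpos1 y hyU
        simp only [hxU, hyU, if_true, not_true_eq_false, and_false, true_iff, false_or, true_and]
        omega
      · have h1 := hpos1 x hxU
        have h2 := hpos2 y hyU
        have h3 := (p x).isLt
        simp only [hxU, hyU, if_true, if_false, not_false_eq_true, and_self, true_or, iff_true]
        omega
      · have h1 := hpos2 x hxU
        have h2 := hpos1 y hyU
        have h3 := (p y).isLt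
        simp only [hxU, hyU, if_true, if_false, false_and, false_or, false_iff, not_false_eq_true,
          not_true_eq_false, and_false, iff_false]
        omega
      · have h1 := hpos2 x hxU
        have h2 := hpos2 y hyU
        simp only [hxU, hyU, if_false, false_and, not_false_eq_true, false_or, iff_true, true_and]
        omega
    · intro l
      unfold fval
      refine congrArg card (filter_congr fun y _ => ?_)
      have h1 : ((p.trans e) y : ℕ) = ((p y).val + U.card) % (2 * k + 1) := rfl
      have h2 : ((p.trans e) l : ℕ) = ((p l).val + U.card) % (2 * k + 1) := rfl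
      have hoff := off_shift (2 * k + 1) (p y).val (p l).val U.card (p l).isLt (p y).isLt hn0
      unfold inW
      rw [h1, h2, hoff]
  · have hU' : U = univ := by
      apply (card_eq_iff_eq_univ U).1
      have := card_le_univ U
      rw [Fintype.card_fin] at this ⊢
      omega
    refine ⟨p, ?_, fun _ => rfl⟩
    intro x y
    simp [hU']

end Vale.Agent.Lib.P040Z
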