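import Vale.Agent.Lib.P040Z.Canon
import Vale.Agent.Lib.P040Z.Extreme
import Vale.Agent.Lib.P040Z.Rotate

/-!
The Ising sum for the canonical pair: `∑ |f_C + f_D - l|` is at most the number of pairs in
`R × L` with equal spins.
-/

namespace Vale.Agent.Lib.P040Z.Base72

open Finset

variable {k : ℕ}

theorem class_lemma (r s : Star k) (A : Fin (2 * k + 1) → Bool) (hJ : r.J ≤ s.J)
    (x y : Fin (2 * k + 1))
    (h1 : (((x : ℕ) < r.J ∧ A x = true) ∧ ¬ ((y : ℕ) < r.J ∧ A y = true)) ∨
      ((((x : ℕ) < r.J ∧ A x = true) ↔ ((y : ℕ) < r.J ∧ A y = true)) ∧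
        keyC r s A x < keyC r s A y))
    (h2 : ((s.J ≤ (y : ℕ) ∧ A y = true) ∧ ¬ (s.J ≤ (x : ℕ) ∧ A x = true)) ∨
      (((s.J ≤ (y : ℕ) ∧ A y = true) ↔ (s.J ≤ (x : ℕ) ∧ A x = true)) ∧
        keyD r s A x < keyD r s A y)) :
    ((x : ℕ) < r.J ∧ A x = true ∧ s.J ≤ (y : ℕ) ∧ A y = true) ∨
      (s.J ≤ (x : ℕ) ∧ A x = false ∧ (y : ℕ) < r.J ∧ A y = false) := by
  have hxb := x.2
  have hyb := y.2
  have hpx := (r.pos x).2
  have hpy := (r.pos y).2
  simp only [keyC, keyD] at h1 h2
  generalize A x = a at *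
  generalize A y = b at *
  cases a <;> cases b <;>
    simp only [Bool.true_eq_false, Bool.false_eq_true, and_true, and_false, false_and, true_and,
      if_true, if_false, false_or, or_false, not_false_eq_true, not_and, iff_false, iff_true,
      false_iff, true_iff, not_true_eq_false, implies_true, imp_false, reduceIte] at h1 h2 ⊢ <;>
    split_ifs at h1 h2 <;> omega

theorem canon_sum (r s : Star k) (A : Fin (2 * k + 1) → Bool) (hJ : r.J ≤ s.J) :
    ∑ l : Fin (2 * k + 1),
        |(fval (canonC r s A hJ).pos l : ℤ) + fval (canonD r s A hJ).pos l - (l : ℕ)| ≤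
      (((univ : Finset (Fin (2 * k + 1) × Fin (2 * k + 1))).filter
        fun p => s.J ≤ (p.1 : ℕ) ∧ (p.2 : ℕ) < r.J ∧ A p.1 = A p.2).card : ℤ) := by
  classical
  set C := canonC r s A hJ with hC
  set D := canonD r s A hJ with hD
  have hCl : ∀ a b, (C.pos a < C.pos b ↔ keyC r s A a < keyC r s A b) := fun a b =>
    Fin.lt_def.trans (canonC_lt r s A hJ a b)
  have hDl : ∀ a b, (D.pos a < D.pos b ↔ keyD r s A a < keyD r s A b) := fun a b =>
    Fin.lt_def.trans (canonD_lt r s A hJ a b)
  -- rotate `C` so that `L1` comes first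
  let U1 : Finset (Fin (2 * k + 1)) := univ.filter fun x => (x : ℕ) < r.J ∧ A x = true
  have hU1mem : ∀ x, x ∈ U1 ↔ ((x : ℕ) < r.J ∧ A x = true) := fun x => by simp [U1]
  obtain ⟨p2, hp2, hfp2⟩ := exists_rotate C.pos U1 (by
    intro u hu v hv
    rw [hU1mem] at hu hv
    rw [hCl]
    have hub := u.2
    have hvb := v.2
    have hpu := (r.pos u).2
    have hpv := (r.pos v).2
    obtain ⟨hu1, hu2⟩ := hu
    simp only [keyC, hu2, if_true]
    have hs : ¬ s.J ≤ (u : ℕ) := by omega
    have hr : ¬ r.J ≤ (u : ℕ) := by omega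
    simp only [hs, hr, if_false]
    by_cases hvr : (v : ℕ) < r.J
    · have hv3 : A v = false := by
        cases hA : A v
        · rfl
        · exact absurd ⟨hvr, hA⟩ hv
      simp only [hv3, Bool.false_eq_true, if_false]
      split_ifs <;> omega
    · split_ifs <;> omega)
  -- the reversal of `D`, with `R1` moved to the front
  let R : Fin (2 * k + 1) ≃ Fin (2 * k + 1) := D.pos.trans Fin.revPerm
  have hRval : ∀ y, (R y : ℕ) = 2 * k - D.pos y := by
    intro y
    have := (D.pos y).2
    simp only [R, Equiv.trans_apply, Fin.revPerm_apply, Fin.val_rev]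
    omega
  have hRl : ∀ a b, (R a < R b ↔ keyD r s A b < keyD r s A a) := by
    intro a b
    rw [← hDl, Fin.lt_def, Fin.lt_def, hRval, hRval]
    have := (D.pos a).2
    have := (D.pos b).2
    omega
  let U2 : Finset (Fin (2 * k + 1)) := univ.filter fun x => s.J ≤ (x : ℕ) ∧ A x = true
  have hU2mem : ∀ x, x ∈ U2 ↔ (s.J ≤ (x : ℕ) ∧ A x = true) := fun x => by simp [U2]
  obtain ⟨q2, hq2, hfq2⟩ := exists_rotate R U2 (by
    intro u hu v hv
    rw [hU2mem] at hu hv
    rw [hRl]
    have hub := u.2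
    have hvb := v.2
    have hpu := (r.pos u).2
    have hpv := (r.pos v).2
    obtain ⟨hu1, hu2⟩ := hu
    simp only [keyD, hu2, if_true, hu1]
    by_cases hvr : s.J ≤ (v : ℕ)
    · have hv3 : A v = false := by
        cases hA : A v
        · rfl
        · exact absurd ⟨hvr, hA⟩ hv
      simp only [hv3, Bool.false_eq_true, if_false, hvr]
      omega
    · split_ifs <;> omega)
  have hrev : ∀ l, fval R l + fval D.pos l = (l : ℕ) := by
    intro l
    refine fval_rev D.pos R (2 * k) ?_ l
    intro y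
    rw [hRval]
    have := (D.pos y).2
    congr 1
    omega
  -- the Kendall distance
  have hkend : kend (p2 : Fin (2 * k + 1) → Fin (2 * k + 1)) q2 ≤
      ((univ : Finset (Fin (2 * k + 1) × Fin (2 * k + 1))).filter
        fun p => s.J ≤ (p.1 : ℕ) ∧ (p.2 : ℕ) < r.J ∧ A p.1 = A p.2).card := by
    unfold kend
    refine Finset.card_le_card_of_injOn
      (fun q => if (q.1 : ℕ) < r.J then (q.2, q.1) else q) ?_ ?_
    · intro q hq
      have hq' := (mem_filter.1 hq).2
      obtain ⟨h1, h2⟩ := hq'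
      rw [hp2] at h1
      rw [hq2] at h2
      simp only [hU1mem, hU2mem, hCl, hRl] at h1 h2
      have hcl := class_lemma r s A hJ q.1 q.2 h1 h2
      have hq1 : (q.1 : ℕ) < (2 * k + 1) := q.1.2
      simp only [coe_filter, mem_univ, true_and, Set.mem_setOf_eq]
      rcases hcl with ⟨a1, a2, a3, a4⟩ | ⟨a1, a2, a3, a4⟩
      · rw [if_pos a1]
        exact ⟨a3, a1, by rw [a2, a4]⟩
      · rw [if_neg (by omega)]
        exact ⟨a1, a3, by rw [a2, a4]⟩
    · intro q hq q' hq' he
      have hq1 := (mem_filter.1 (Finset.mem_coe.1 hq)).2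
      have hq2' := (mem_filter.1 (Finset.mem_coe.1 hq')).2
      obtain ⟨h1, h2⟩ := hq1
      obtain ⟨h3, h4⟩ := hq2'
      rw [hp2] at h1 h3
      rw [hq2] at h2 h4
      simp only [hU1mem, hU2mem, hCl, hRl] at h1 h2 h3 h4
      have hcl := class_lemma r s A hJ q.1 q.2 h1 h2
      have hcl' := class_lemma r s A hJ q'.1 q'.2 h3 h4
      simp only at he
      rcases hcl with ⟨a1, a2, a3, a4⟩ | ⟨a1, a2, a3, a4⟩ <;>
        rcases hcl' with ⟨b1, b2, b3, b4⟩ | ⟨b1, b2, b3, b4⟩
      · rw [if_pos a1, if_pos b1] at he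
        have e1 := congrArg Prod.fst he
        have e2 := congrArg Prod.snd he
        simp only at e1 e2
        exact Prod.ext e2 e1
      · rw [if_pos a1, if_neg (by omega)] at he
        have e1 := congrArg Prod.fst he
        simp only at e1
        rw [e1] at a4
        rw [a4] at b2
        exact absurd b2 (by simp)
      · rw [if_neg (by omega), if_pos b1] at he
        have e1 := congrArg Prod.fst he
        simp only at e1
        rw [e1] at a2
        rw [a2] at b4
        exact absurd b4 (by simp)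
      · rw [if_neg (by omega), if_neg (by omega)] at he
        exact he
  have hlip := lip _ p2 q2 le_rfl
  have hrw : ∀ l : Fin (2 * k + 1),
      |(fval C.pos l : ℤ) + fval D.pos l - (l : ℕ)| = |(fval p2 l : ℤ) - fval q2 l| := by
    intro l
    have h1 := hfp2 l
    have h2 := hfq2 l
    have h3 := hrev l
    rw [h1, h2]
    congr 1
    have h4 : (fval R l : ℤ) + fval D.pos l = (l : ℕ) := by exact_mod_cast h3
    linarith
  calc ∑ l : Fin (2 * k + 1), |(fval C.pos l : ℤ) + fval D.pos l - (l : ℕ)|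
      = ∑ l : Fin (2 * k + 1), |(fval p2 l : ℤ) - fval q2 l| := Finset.sum_congr rfl fun l _ => hrw l
    _ ≤ (kend (p2 : Fin (2 * k + 1) → Fin (2 * k + 1)) q2 : ℤ) := hlip
    _ ≤ _ := by exact_mod_cast hkend

end Vale.Agent.Lib.P040Z.Base72
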