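import Vale.Agent.Lib.P040Z.AgreeF

/-!
At the canonical pairs one star is extreme at each pivot off the middle, hence the number of agreeing
bits at that pivot has the same form as in the middle.
-/

namespace Vale.Agent.Lib.P040Z.BasePivot

open Finset

variable {k : ℕ}

/-- The arithmetic of an extreme value. -/
theorem extreme_arith (w l f e : ℕ) (hk : w = min l (2 * k - l)) (hl : l ≤ 2 * k)
    (h1 : f ≤ k) (h2 : f ≤ l) (h3 : l ≤ f + k)
    (he : e = l - k ∨ e = min l k) :
    (w : ℤ) - |(f : ℤ) - e| = |(f : ℤ) + e - l| := by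
  rcases he with rfl | rfl
  · rcases le_total l k with h | h
    · have h4 : l - k = 0 := by omega
      have h5 : w = l := by omega
      rw [h4, h5]
      rw [abs_of_nonneg (by omega), abs_of_nonpos (by omega)]
      push_cast; ring
    · have h5 : w = 2 * k - l := by omega
      rw [h5, Nat.cast_sub (by omega), Nat.cast_sub h]
      rw [abs_of_nonneg (by omega), abs_of_nonpos (by omega)]
      push_cast; ring
  · rcases le_total l k with h | h
    · have h4 : min l k = l := by omega
      have h5 : w = l := by omega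
      rw [h4, h5]
      rw [abs_of_nonpos (by omega), abs_of_nonneg (by omega)]
      ring
    · have h4 : min l k = k := by omega
      have h5 : w = 2 * k - l := by omega
      rw [h4, h5, Nat.cast_sub (by omega)]
      rw [abs_of_nonpos (by omega), abs_of_nonneg (by omega)]
      push_cast; ring

/-- **Pivot step of the base.** If `s` is extreme at every pivot on the right of `s` and `r` at every
pivot on the left of `r`, the agreeing bits at every pivot are given by the middle formula. -/
theorem agree_pivot_eq (r s : Star k) (hrs : r.J ≤ s.J)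
    (hs : ∀ l : Fin (2 * k + 1), s.J ≤ (l : ℕ) →
      fval s.pos l = (l : ℕ) - k ∨ fval s.pos l = min (l : ℕ) k)
    (hr : ∀ l : Fin (2 * k + 1), (l : ℕ) < r.J →
      fval r.pos l = (l : ℕ) - k ∨ fval r.pos l = min (l : ℕ) k)
    (l : Fin (2 * k + 1)) :
    (((range (wid k l)).filter fun i => r.bit l i = s.bit l i).card : ℤ) =
      |(fval r.pos l : ℤ) + fval s.pos l - (l : ℕ)| := by
  have hl : (l : ℕ) ≤ 2 * k := by have := l.2; omega
  have hw : wid k l = min (l : ℕ) (2 * k - l) := rfl
  by_cases h1 : s.J ≤ (l : ℕ)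
  · have h2 : r.J ≤ (l : ℕ) := hrs.trans h1
    rw [agree_right r s l h2 h1]
    exact extreme_arith _ _ _ _ hw hl (fval_le_k _ r.pos.injective l) (fval_le_l _ l)
      (lo_le_fval _ r.pos.injective l) (hs l h1)
  · by_cases h2 : r.J ≤ (l : ℕ)
    · exact agree_mid r s l h2 h1
    · rw [agree_left r s l h2 h1, abs_sub_comm, add_comm (fval r.pos l : ℤ)]
      exact extreme_arith _ _ _ _ hw hl (fval_le_k _ s.pos.injective l) (fval_le_l _ l)
        (lo_le_fval _ s.pos.injective l) (hr l (by omega))

/-- The sum form. -/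
theorem agree_eq_sum (r s : Star k) (hrs : r.J ≤ s.J)
    (hs : ∀ l : Fin (2 * k + 1), s.J ≤ (l : ℕ) →
      fval s.pos l = (l : ℕ) - k ∨ fval s.pos l = min (l : ℕ) k)
    (hr : ∀ l : Fin (2 * k + 1), (l : ℕ) < r.J →
      fval r.pos l = (l : ℕ) - k ∨ fval r.pos l = min (l : ℕ) k) :
    (agree r s : ℤ) = ∑ l : Fin (2 * k + 1), |(fval r.pos l : ℤ) + fval s.pos l - (l : ℕ)| := by
  unfold agree
  push_cast
  exact Finset.sum_congr rfl fun l _ => agree_pivot_eq r s hrs hs hr l

end Vale.Agent.Lib.P040Z.BasePivot
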