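import Vale.Agent.Lib.P040Z.Extreme

/-!
When the clauses of `forced` inside one fan never hold, the star is extreme at each pivot of that fan.
-/

namespace Vale.Agent.Lib.P040Z.OffOrder

open Finset

variable {k : ℕ}

/-- Comparison of offsets from the comparison of positions. -/
theorem off_lt (p q a b : Fin (2 * k + 1))
    (h : ((q : ℕ) < a ∧ (q : ℕ) < b ∧ (a : ℕ) < b) ∨ ((q : ℕ) < a ∧ (b : ℕ) < q) ∨
      ((a : ℕ) < q ∧ (b : ℕ) < q ∧ (a : ℕ) < b)) (hp : p = q) :
    off k a p < off k b p := by
  subst hp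
  rw [off_eq, off_eq]
  have ha := a.2
  have hb := b.2
  have hq := p.2
  split_ifs <;> omega

/-- The order in the right fan of `s` when clause 2 never holds. -/
theorem right_order (s : Star k) (A : Fin (2 * k + 1) → Bool)
    (h2 : ∀ x y : Fin (2 * k + 1), s.J ≤ (x : ℕ) → s.J ≤ (y : ℕ) → x < y → A x ≠ s.above y x)
    {x y : Fin (2 * k + 1)} (hx : s.J ≤ (x : ℕ)) (hy : s.J ≤ (y : ℕ)) (hxy : x < y) :
    (A x = true → (s.pos x : ℕ) < s.pos y) ∧ (A x = false → (s.pos y : ℕ) < s.pos x) := by
  have h := h2 x y hx hy hxy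
  have hne : (s.pos x : ℕ) ≠ s.pos y := by
    intro he
    exact absurd (s.pos.injective (Fin.ext he)) (ne_of_lt hxy)
  simp only [Star.above, if_pos hy] at h
  constructor
  · intro hA
    rw [hA] at h
    by_contra hc
    apply h
    have : (s.pos y : ℕ) < s.pos x := by omega
    simp [this]
  · intro hA
    rw [hA] at h
    by_contra hc
    apply h
    have : ¬ (s.pos y : ℕ) < s.pos x := hc
    simp [this]

/-- The order in the left fan of `r` when clause 6 never holds. -/
theorem left_order (r : Star k) (A : Fin (2 * k + 1) → Bool)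
    (h6 : ∀ x y : Fin (2 * k + 1), (x : ℕ) < r.J → (y : ℕ) < r.J → x < y → A y ≠ r.above x y)
    {x y : Fin (2 * k + 1)} (hx : (x : ℕ) < r.J) (hy : (y : ℕ) < r.J) (hxy : x < y) :
    (A y = true → (r.pos x : ℕ) < r.pos y) ∧ (A y = false → (r.pos y : ℕ) < r.pos x) := by
  have h := h6 x y hx hy hxy
  have hne : (r.pos x : ℕ) ≠ r.pos y := by
    intro he
    exact absurd (r.pos.injective (Fin.ext he)) (ne_of_lt hxy)
  have hnx : ¬ r.J ≤ (x : ℕ) := by omega
  simp only [Star.above, if_neg hnx] at h
  constructor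
  · intro hA
    rw [hA] at h
    by_contra hc
    apply h
    have : (r.pos y : ℕ) < r.pos x := by omega
    simp [this]
  · intro hA
    rw [hA] at h
    by_contra hc
    apply h
    have : ¬ (r.pos y : ℕ) < r.pos x := hc
    simp [this]

/-- `s` is extreme at each pivot on its right. -/
theorem s_extreme (s : Star k) (A : Fin (2 * k + 1) → Bool)
    (h2 : ∀ x y : Fin (2 * k + 1), s.J ≤ (x : ℕ) → s.J ≤ (y : ℕ) → x < y → A x ≠ s.above y x)
    (l : Fin (2 * k + 1)) (hl : s.J ≤ (l : ℕ)) :
    fval s.pos l = (l : ℕ) - k ∨ fval s.pos l = min (l : ℕ) k := by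
  have hJl := (s.block l).mp hl
  cases hA : A l with
  | true =>
    left
    refine fval_lo s.pos l fun y y' hy hy' => ?_
    have hly : s.J ≤ (y : ℕ) := le_trans hl (le_of_lt hy)
    have hJy := (s.block y).mp hly
    have h1 := (right_order s A h2 hl hly hy).1 hA
    refine off_lt _ _ _ _ ?_ rfl
    by_cases hy'R : s.J ≤ (y' : ℕ)
    · have h3 := right_order s A h2 hy'R hl hy'
      have h4 := right_order s A h2 hy'R hly (hy'.trans hy)
      cases hA' : A y' with
      | true =>
        right; left
        exact ⟨h1, h3.1 hA'⟩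
      | false =>
        left
        exact ⟨h1, h3.2 hA', h4.2 hA'⟩
    · have h5 : ¬ ((s.pos y' : ℕ) < 2 * k + 1 - s.J) := fun hc => hy'R ((s.block y').mpr hc)
      left
      exact ⟨h1, by omega, by omega⟩
  | false =>
    right
    refine fval_hi s.pos l fun y y' hy hy' => ?_
    have hly' : s.J ≤ (y' : ℕ) := le_trans hl (le_of_lt hy')
    have h1 := (right_order s A h2 hl hly' hy').2 hA
    refine off_lt _ _ _ _ ?_ rfl
    by_cases hyR : s.J ≤ (y : ℕ)
    · have h3 := right_order s A h2 hyR hl hy
      have h4 := right_order s A h2 hyR hly' (hy.trans hy')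
      cases hA' : A y with
      | true =>
        right; right
        exact ⟨h3.1 hA', h1, h4.1 hA'⟩
      | false =>
        right; left
        exact ⟨h3.2 hA', h1⟩
    · have h5 : ¬ ((s.pos y : ℕ) < 2 * k + 1 - s.J) := fun hc => hyR ((s.block y).mpr hc)
      right; left
      exact ⟨by omega, h1⟩

/-- `r` is extreme at each pivot on its left. -/
theorem r_extreme (r : Star k) (A : Fin (2 * k + 1) → Bool)
    (h6 : ∀ x y : Fin (2 * k + 1), (x : ℕ) < r.J → (y : ℕ) < r.J → x < y → A y ≠ r.above x y)
    (l : Fin (2 * k + 1)) (hl : (l : ℕ) < r.J) :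
    fval r.pos l = (l : ℕ) - k ∨ fval r.pos l = min (l : ℕ) k := by
  have hJl : ¬ ((r.pos l : ℕ) < 2 * k + 1 - r.J) := fun hc => by
    have := (r.block l).mpr hc
    omega
  cases hA : A l with
  | true =>
    left
    refine fval_lo r.pos l fun y y' hy hy' => ?_
    have hly' : (y' : ℕ) < r.J := lt_trans hy' hl
    have hJy' : ¬ ((r.pos y' : ℕ) < 2 * k + 1 - r.J) := fun hc => by
      have := (r.block y').mpr hc
      omega
    have h1 := (left_order r A h6 hly' hl hy').1 hA
    refine off_lt _ _ _ _ ?_ rfl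
    by_cases hyL : (y : ℕ) < r.J
    · have h3 := left_order r A h6 hl hyL hy
      have h4 := left_order r A h6 hly' hyL (hy'.trans hy)
      cases hA' : A y with
      | true =>
        right; left
        exact ⟨h3.1 hA', h1⟩
      | false =>
        right; right
        exact ⟨h3.2 hA', h1, h4.2 hA'⟩
    · have h5 : (r.pos y : ℕ) < 2 * k + 1 - r.J := (r.block y).mp (by omega)
      right; right
      exact ⟨by omega, h1, by omega⟩
  | false =>
    right
    refine fval_hi r.pos l fun y y' hy hy' => ?_
    have hly : (y : ℕ) < r.J := lt_trans hy hl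
    have h1 := (left_order r A h6 hly hl hy).2 hA
    refine off_lt _ _ _ _ ?_ rfl
    by_cases hyL : (y' : ℕ) < r.J
    · have h3 := left_order r A h6 hl hyL hy'
      have h4 := left_order r A h6 hly hyL (hy.trans hy')
      cases hA' : A y' with
      | true =>
        left
        exact ⟨h1, h3.1 hA', h4.1 hA'⟩
      | false =>
        right; left
        exact ⟨h1, h3.2 hA'⟩
    · have h5 : (r.pos y' : ℕ) < 2 * k + 1 - r.J := (r.block y').mp (by omega)
      right; left
      exact ⟨h1, by omega⟩

end Vale.Agent.Lib.P040Z.OffOrder
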