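import Vale.Agent.Lib.P040Z.CanonFacts
import Vale.Agent.Lib.P040Z.BasePivot
import Vale.Agent.Lib.P040Z.OffOrder
import Vale.Agent.Lib.P040Z.Rotate

/-!
The base of the key inequality: the canonical pair of stars agrees in at most as many bits as there
are pairs with equal spins on opposite sides.
-/

namespace Vale.Agent.Lib.P040Z

open Finset

variable {k : ℕ}

section
variable (r s : Star k) (A : Fin (2 * k + 1) → Bool)

/-- The only inversions between the two rotated canonical orders. -/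
theorem inversion_class (x y : Fin (2 * k + 1))
    (h1 : (((x : ℕ) < r.J ∧ A x = true) ∧ ¬ ((y : ℕ) < r.J ∧ A y = true)) ∨
      ((((x : ℕ) < r.J ∧ A x = true) ↔ ((y : ℕ) < r.J ∧ A y = true)) ∧
        keyC r s A x < keyC r s A y))
    (h2 : ((s.J ≤ (y : ℕ) ∧ A y = true) ∧ ¬ (s.J ≤ (x : ℕ) ∧ A x = true)) ∨
      (((s.J ≤ (y : ℕ) ∧ A y = true) ↔ (s.J ≤ (x : ℕ) ∧ A x = true)) ∧
        keyD r s A x < keyD r s A y)) :
    (s.J ≤ (x : ℕ) ∧ (y : ℕ) < r.J ∧ A x = false ∧ A y = false) ∨
      ((x : ℕ) < r.J ∧ s.J ≤ (y : ℕ) ∧ A x = true ∧ A y = true) := by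
  have hx := x.2
  have hy := y.2
  have hpx := (r.pos x).2
  have hpy := (r.pos y).2
  simp only [keyC, keyD] at h1 h2
  cases hAx : A x <;> cases hAy : A y <;>
    simp only [hAx, hAy, Bool.false_eq_true, and_false, and_true, false_and, true_and, not_false_eq_true,
      not_true_eq_false, or_false, false_or, if_true, if_false, iff_true, iff_false, true_iff, false_iff,
      false_iff, reduceCtorEq] at h1 h2 ⊢ <;>
    split_ifs at h1 h2 <;> omega

end

/-- The base: the canonical pair agrees in at most the number of equal-spin pairs. -/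
theorem agree_canon_le (r s : Star k) (A : Fin (2 * k + 1) → Bool) (hJ : r.J ≤ s.J) :
    agree (canonC r s A hJ) (canonD r s A hJ) ≤
      ((univ : Finset (Fin (2 * k + 1) × Fin (2 * k + 1))).filter
        fun p => s.J ≤ (p.1 : ℕ) ∧ (p.2 : ℕ) < r.J ∧ A p.1 = A p.2).card := by
  classical
  have hCJ : (canonC r s A hJ).J = r.J := rfl
  have hDJ : (canonD r s A hJ).J = s.J := rfl
  have hs := OffOrder.s_extreme (canonD r s A hJ) A (by
    intro x y hx hy hxy he
    have := canon_forced r s A hJ x y (Or.inr (Or.inl ⟨hx, hy, hxy, he⟩))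
    rw [hDJ] at hy
    omega)
  have hr := OffOrder.r_extreme (canonC r s A hJ) A (by
    intro x y hx hy hxy he
    have := canon_forced r s A hJ x y (Or.inr (Or.inr (Or.inr (Or.inr (Or.inr ⟨hx, hy, hxy, he⟩)))))
    rw [hCJ] at hx
    omega)
  have hsum := BasePivot.agree_eq_sum (canonC r s A hJ) (canonD r s A hJ) hJ hs hr
  let U1 : Finset (Fin (2 * k + 1)) := univ.filter fun y => (y : ℕ) < r.J ∧ A y = true
  let U2 : Finset (Fin (2 * k + 1)) := univ.filter fun y => s.J ≤ (y : ℕ) ∧ A y = true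
  have memU1 : ∀ y, y ∈ U1 ↔ ((y : ℕ) < r.J ∧ A y = true) := by
    intro y
    simp only [U1, mem_filter, mem_univ, true_and]
  have memU2 : ∀ y, y ∈ U2 ↔ (s.J ≤ (y : ℕ) ∧ A y = true) := by
    intro y
    simp only [U2, mem_filter, mem_univ, true_and]
  let ρ : Fin (2 * k + 1) ≃ Fin (2 * k + 1) := (canonD r s A hJ).pos.trans Fin.revPerm
  have hρlt : ∀ a b, ρ a < ρ b ↔ keyD r s A b < keyD r s A a := by
    intro a b
    rw [← canonD_lt r s A hJ b a, Fin.lt_def]
    have h1 : ((ρ a : Fin (2 * k + 1)) : ℕ) = 2 * k + 1 - ((canonD r s A hJ).pos a + 1) := by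
      simp [ρ, Fin.val_rev]
    have h2 : ((ρ b : Fin (2 * k + 1)) : ℕ) = 2 * k + 1 - ((canonD r s A hJ).pos b + 1) := by
      simp [ρ, Fin.val_rev]
    have h3 := ((canonD r s A hJ).pos a).2
    have h4 := ((canonD r s A hJ).pos b).2
    rw [h1, h2]
    omega
  have hU1 : ∀ u ∈ U1, ∀ v, v ∉ U1 → (canonC r s A hJ).pos v < (canonC r s A hJ).pos u := by
    intro u hu v hv
    rw [Fin.lt_def, canonC_lt]
    rw [memU1] at hu hv
    obtain ⟨hu1, hu2⟩ := hu
    have h1 := u.2
    have h2 := v.2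
    have hpu := (r.pos u).2
    have hpv := (r.pos v).2
    simp only [keyC]
    cases hAv : A v
    · simp only [hu2, hAv, if_true, Bool.false_eq_true, if_false]
      split_ifs <;> omega
    · have hv' : ¬ (v : ℕ) < r.J := fun e => hv ⟨e, hAv⟩
      simp only [hu2, hAv, if_true]
      split_ifs <;> omega
  have hU2 : ∀ u ∈ U2, ∀ v, v ∉ U2 → ρ v < ρ u := by
    intro u hu v hv
    rw [hρlt]
    rw [memU2] at hu hv
    obtain ⟨hu1, hu2⟩ := hu
    have h1 := u.2
    have h2 := v.2
    have hpu := (r.pos u).2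
    have hpv := (r.pos v).2
    simp only [keyD]
    cases hAv : A v
    · simp only [hu2, hAv, if_true, Bool.false_eq_true, if_false]
      split_ifs <;> omega
    · have hv' : ¬ s.J ≤ (v : ℕ) := fun e => hv ⟨e, hAv⟩
      simp only [hu2, hAv, if_true]
      split_ifs <;> omega
  obtain ⟨σ1, hσ1, hfσ⟩ := exists_rotate (canonC r s A hJ).pos U1 hU1
  obtain ⟨τ1, hτ1, hfτ⟩ := exists_rotate ρ U2 hU2
  have hrev : ∀ l, fval ρ l + fval (canonD r s A hJ).pos l = (l : ℕ) := by
    intro l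
    refine fval_rev (canonD r s A hJ).pos ρ (2 * k) ?_ l
    intro y
    have hv : ((ρ y : Fin (2 * k + 1)) : ℕ) = 2 * k + 1 - ((canonD r s A hJ).pos y + 1) := by
      simp [ρ, Fin.val_rev]
    have h3 := ((canonD r s A hJ).pos y).2
    rw [hv]
    congr 1
    omega
  have hlip := lip (kend σ1 τ1) σ1 τ1 le_rfl
  have hkend : kend σ1 τ1 ≤
      ((univ : Finset (Fin (2 * k + 1) × Fin (2 * k + 1))).filter
        fun p => s.J ≤ (p.1 : ℕ) ∧ (p.2 : ℕ) < r.J ∧ A p.1 = A p.2).card := by
    have hclass : ∀ q : Fin (2 * k + 1) × Fin (2 * k + 1), σ1 q.1 < σ1 q.2 → τ1 q.2 < τ1 q.1 →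
        (s.J ≤ (q.1 : ℕ) ∧ (q.2 : ℕ) < r.J ∧ A q.1 = false ∧ A q.2 = false) ∨
          ((q.1 : ℕ) < r.J ∧ s.J ≤ (q.2 : ℕ) ∧ A q.1 = true ∧ A q.2 = true) := by
      intro q h1 h2
      refine inversion_class r s A q.1 q.2 ?_ ?_
      · have := (hσ1 q.1 q.2).1 h1
        rw [memU1, memU1, Fin.lt_def, canonC_lt] at this
        exact this
      · have := (hτ1 q.2 q.1).1 h2
        rw [memU2, memU2, hρlt] at this
        exact this
    unfold kend
    refine Finset.card_le_card_of_injOn (fun q => if s.J ≤ (q.1 : ℕ) then q else (q.2, q.1)) ?_ ?_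
    · intro q hq
      simp only [coe_filter, mem_univ, true_and, Set.mem_ofPred_eq] at hq ⊢
      rcases hclass q hq.1 hq.2 with ⟨a1, a2, a3, a4⟩ | ⟨a1, a2, a3, a4⟩
      · rw [if_pos a1]
        exact ⟨a1, a2, a3.trans a4.symm⟩
      · have : ¬ s.J ≤ (q.1 : ℕ) := by omega
        rw [if_neg this]
        exact ⟨a2, a1, a4.trans a3.symm⟩
    · intro p hp q hq hpq
      simp only [coe_filter, mem_univ, true_and, Set.mem_ofPred_eq] at hp hq
      simp only at hpq
      rcases hclass p hp.1 hp.2 with ⟨a1, a2, a3, a4⟩ | ⟨a1, a2, a3, a4⟩ <;>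
        rcases hclass q hq.1 hq.2 with ⟨b1, b2, b3, b4⟩ | ⟨b1, b2, b3, b4⟩
      · rw [if_pos a1, if_pos b1] at hpq
        exact hpq
      · have : ¬ s.J ≤ (q.1 : ℕ) := by omega
        rw [if_pos a1, if_neg this] at hpq
        have e1 := (Prod.ext_iff.mp hpq).1
        simp only at e1
        rw [e1, b4] at a3
        exact absurd a3 (by simp)
      · have : ¬ s.J ≤ (p.1 : ℕ) := by omega
        rw [if_neg this, if_pos b1] at hpq
        have e1 := (Prod.ext_iff.mp hpq).1
        simp only at e1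
        rw [← e1, a4] at b3
        exact absurd b3 (by simp)
      · have h1 : ¬ s.J ≤ (p.1 : ℕ) := by omega
        have h2 : ¬ s.J ≤ (q.1 : ℕ) := by omega
        rw [if_neg h1, if_neg h2] at hpq
        exact Prod.ext (Prod.ext_iff.mp hpq).2 (Prod.ext_iff.mp hpq).1
  have hfinal : (agree (canonC r s A hJ) (canonD r s A hJ) : ℤ) ≤ kend σ1 τ1 := by
    rw [hsum]
    refine le_trans (le_of_eq ?_) hlip
    refine Finset.sum_congr rfl fun l _ => ?_
    have h1 := hfσ l
    have h2 := hfτ l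
    have h3 := hrev l
    rw [h1, h2]
    congr 1
    have h4 : ((fval ρ l : ℕ) : ℤ) + fval (canonD r s A hJ).pos l = (l : ℕ) := by
      exact_mod_cast h3
    omega
  have : agree (canonC r s A hJ) (canonD r s A hJ) ≤ kend σ1 τ1 := by exact_mod_cast hfinal
  exact this.trans hkend

end Vale.Agent.Lib.P040Z
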