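import Vale.Agent.Lib.P040M.BothSides

/-!
All `x`-monotone drawings: the forced meetings of two edges at two reds, in every relative position.
-/

namespace Vale.Agent.Lib.P040Z

open Vale.Agent.Lib.P040M

variable {m n : ℕ} (D : MonoDrawing m n)

namespace MonoDrawing' 

/-- The position of an edge relative to a blue vertex in its range. -/
theorem posB {r : Fin m} {x c : Fin n} (hne : c ≠ x) (hin : D.xB c ∈ Set.uIcc (D.xR r) (D.xB x)) :
    (D.aboveB r x c = true ∧ D.yB c < D.edge r x (D.xB c)) ∨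
      (D.aboveB r x c = false ∧ D.edge r x (D.xB c) < D.yB c) := by
  have h1 := D.avoid_blue r x c hne hin
  have h2 := D.aboveB_true r x c
  cases hc : D.aboveB r x c
  · right
    refine ⟨rfl, ?_⟩
    have h3 : ¬ D.yB c < D.edge r x (D.xB c) := by rw [← h2, hc]; simp
    exact lt_of_le_of_ne (not_lt.mp h3) h1
  · left
    exact ⟨rfl, h2.mp hc⟩

/-- The position of an edge relative to a red vertex in its range. -/
theorem posR {r s : Fin m} {x : Fin n} (hne : s ≠ r) (hin : D.xR s ∈ Set.uIcc (D.xR r) (D.xB x)) :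
    (D.aboveR r x s = true ∧ D.yR s < D.edge r x (D.xR s)) ∨
      (D.aboveR r x s = false ∧ D.edge r x (D.xR s) < D.yR s) := by
  have h1 := D.avoid_red r x s hne hin
  have h2 := D.aboveR_true r x s
  cases hc : D.aboveR r x s
  · right
    refine ⟨rfl, ?_⟩
    have h3 : ¬ D.yR s < D.edge r x (D.xR s) := by rw [← h2, hc]; simp
    exact lt_of_le_of_ne (not_lt.mp h3) h1
  · left
    exact ⟨rfl, h2.mp hc⟩

/-- The comparison of `e` and `f` at `p` is `P`, at `q` is `Q`, `P ≠ Q`: they meet. -/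
theorem meet_core {r s : Fin m} {x y : Fin n} {p q : ℝ} {P Q : Bool} (hpq : p ≤ q)
    (h1 : Set.Icc p q ⊆ Set.uIcc (D.xR r) (D.xB x)) (h2 : Set.Icc p q ⊆ Set.uIcc (D.xR s) (D.xB y))
    (hP : (P = true ∧ D.edge s y p < D.edge r x p) ∨ (P = false ∧ D.edge r x p < D.edge s y p))
    (hQ : (Q = true ∧ D.edge s y q < D.edge r x q) ∨ (Q = false ∧ D.edge r x q < D.edge s y q))
    (hne : P ≠ Q) : D.Meet r x s y := by
  refine D.meet_of_sign hpq h1 h2 ?_
  rcases hP with ⟨a, b⟩ | ⟨a, b⟩ <;> rcases hQ with ⟨c, d⟩ | ⟨c, d⟩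
  · exact absurd (a.trans c.symm) hne
  · right; exact ⟨b, d⟩
  · left; exact ⟨b, d⟩
  · exact absurd (a.trans c.symm) hne

/-- `e` passes the blue end of `f`. -/
theorem cmp_e_blue {r s : Fin m} {x y : Fin n} (hne : y ≠ x) (hin : D.xB y ∈ Set.uIcc (D.xR r) (D.xB x)) :
    (D.aboveB r x y = true ∧ D.edge s y (D.xB y) < D.edge r x (D.xB y)) ∨
      (D.aboveB r x y = false ∧ D.edge r x (D.xB y) < D.edge s y (D.xB y)) := by
  rw [D.at_blue s y]
  exact posB D hne hin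

/-- `f` passes the blue end of `e`. -/
theorem cmp_f_blue {r s : Fin m} {x y : Fin n} (hne : x ≠ y) (hin : D.xB x ∈ Set.uIcc (D.xR s) (D.xB y)) :
    ((!D.aboveB s y x) = true ∧ D.edge s y (D.xB x) < D.edge r x (D.xB x)) ∨
      ((!D.aboveB s y x) = false ∧ D.edge r x (D.xB x) < D.edge s y (D.xB x)) := by
  rw [D.at_blue r x]
  rcases posB D hne hin with ⟨a, b⟩ | ⟨a, b⟩
  · right; exact ⟨by simp [a], b⟩
  · left; exact ⟨by simp [a], b⟩

/-- `e` passes the red end of `f`. -/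
theorem cmp_e_red {r s : Fin m} {x y : Fin n} (hne : s ≠ r) (hin : D.xR s ∈ Set.uIcc (D.xR r) (D.xB x)) :
    (D.aboveR r x s = true ∧ D.edge s y (D.xR s) < D.edge r x (D.xR s)) ∨
      (D.aboveR r x s = false ∧ D.edge r x (D.xR s) < D.edge s y (D.xR s)) := by
  rw [D.at_red s y]
  exact posR D hne hin

/-- `f` passes the red end of `e`. -/
theorem cmp_f_red {r s : Fin m} {x y : Fin n} (hne : r ≠ s) (hin : D.xR r ∈ Set.uIcc (D.xR s) (D.xB y)) :
    ((!D.aboveR s y r) = true ∧ D.edge s y (D.xR r) < D.edge r x (D.xR r)) ∨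
      ((!D.aboveR s y r) = false ∧ D.edge r x (D.xR r) < D.edge s y (D.xR r)) := by
  rw [D.at_red r x]
  rcases posR D hne hin with ⟨a, b⟩ | ⟨a, b⟩
  · right; exact ⟨by simp [a], b⟩
  · left; exact ⟨by simp [a], b⟩

variable {r s : Fin m} {x y : Fin n}

private lemma ne_of_x {r s : Fin m} (hrs : D.xR r < D.xR s) : s ≠ r := fun h => lt_irrefl _ (h ▸ hrs)

private lemma ne_blue {x y : Fin n} (h : x < y) : x ≠ y := ne_of_lt h

/-- Both blues right of `s`, `x < y`. -/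
theorem meet_RR1 (hrs : D.xR r < D.xR s) (hx : D.xR s < D.xB x) (hxy : x < y)
    (hb : D.aboveR r x s = D.aboveB s y x) : D.Meet r x s y := by
  have hB : D.xB x < D.xB y := D.xB_mono hxy
  have i1 : Set.uIcc (D.xR r) (D.xB x) = Set.Icc (D.xR r) (D.xB x) := Set.uIcc_of_lt (hrs.trans hx)
  have i2 : Set.uIcc (D.xR s) (D.xB y) = Set.Icc (D.xR s) (D.xB y) := Set.uIcc_of_lt (hx.trans hB)
  refine meet_core D (p := D.xR s) (q := D.xB x) hx.le ?_ ?_
    (cmp_e_red D (ne_of_x D hrs) (by rw [i1]; exact ⟨hrs.le, hx.le⟩))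
    (cmp_f_blue D (ne_of_lt hxy) (by rw [i2]; exact ⟨hx.le, hB.le⟩)) ?_
  · rw [i1]; exact Set.Icc_subset_Icc_left hrs.le
  · rw [i2]; exact Set.Icc_subset_Icc_right hB.le
  · rw [hb]; cases D.aboveB s y x <;> simp

/-- Both blues right of `s`, `y < x`. -/
theorem meet_RR2 (hrs : D.xR r < D.xR s) (hy : D.xR s < D.xB y) (hyx : y < x)
    (hb : D.aboveR r x s ≠ D.aboveB r x y) : D.Meet r x s y := by
  have hB : D.xB y < D.xB x := D.xB_mono hyx
  have i1 : Set.uIcc (D.xR r) (D.xB x) = Set.Icc (D.xR r) (D.xB x) :=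
    Set.uIcc_of_lt ((hrs.trans hy).trans hB)
  have i2 : Set.uIcc (D.xR s) (D.xB y) = Set.Icc (D.xR s) (D.xB y) := Set.uIcc_of_lt hy
  refine meet_core D (p := D.xR s) (q := D.xB y) hy.le ?_ ?_
    (cmp_e_red D (ne_of_x D hrs) (by rw [i1]; exact ⟨hrs.le, (hy.trans hB).le⟩))
    (cmp_e_blue D (ne_of_lt hyx) (by rw [i1]; exact ⟨(hrs.trans hy).le, hB.le⟩)) hb
  · rw [i1]; exact Set.Icc_subset_Icc hrs.le hB.le
  · rw [i2]

/-- Both blues left of `r`, `x < y`. -/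
theorem meet_LL1 (hrs : D.xR r < D.xR s) (hy : D.xB y < D.xR r) (hxy : x < y)
    (hb : D.aboveR s y r = D.aboveB r x y) : D.Meet r x s y := by
  have hB : D.xB x < D.xB y := D.xB_mono hxy
  have i1 : Set.uIcc (D.xR r) (D.xB x) = Set.Icc (D.xB x) (D.xR r) := Set.uIcc_of_gt (hB.trans hy)
  have i2 : Set.uIcc (D.xR s) (D.xB y) = Set.Icc (D.xB y) (D.xR s) := Set.uIcc_of_gt (hy.trans hrs)
  refine meet_core D (p := D.xB y) (q := D.xR r) hy.le ?_ ?_
    (cmp_e_blue D (ne_of_gt hxy) (by rw [i1]; exact ⟨hB.le, hy.le⟩))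
    (cmp_f_red D (ne_of_lt hrs |> fun h => fun e => h (congrArg D.xR e)) (by rw [i2]; exact ⟨hy.le, hrs.le⟩)) ?_
  · rw [i1]; exact Set.Icc_subset_Icc_left hB.le
  · rw [i2]; exact Set.Icc_subset_Icc_right hrs.le
  · rw [← hb]; cases D.aboveR s y r <;> simp

/-- Both blues left of `r`, `y < x`. -/
theorem meet_LL2 (hrs : D.xR r < D.xR s) (hx : D.xB x < D.xR r) (hyx : y < x)
    (hb : D.aboveR s y r ≠ D.aboveB s y x) : D.Meet r x s y := by
  have hB : D.xB y < D.xB x := D.xB_mono hyx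
  have i1 : Set.uIcc (D.xR r) (D.xB x) = Set.Icc (D.xB x) (D.xR r) := Set.uIcc_of_gt hx
  have i2 : Set.uIcc (D.xR s) (D.xB y) = Set.Icc (D.xB y) (D.xR s) :=
    Set.uIcc_of_gt ((hB.trans hx).trans hrs)
  refine meet_core D (p := D.xB x) (q := D.xR r) hx.le ?_ ?_
    (cmp_f_blue D (ne_of_gt hyx) (by rw [i2]; exact ⟨hB.le, (hx.trans hrs).le⟩))
    (cmp_f_red D (ne_of_lt hrs |> fun h => fun e => h (congrArg D.xR e)) (by rw [i2]; exact ⟨(hB.trans hx).le, hrs.le⟩)) ?_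
  · rw [i1]
  · rw [i2]; exact Set.Icc_subset_Icc hB.le hrs.le
  · intro h
    apply hb
    cases h1 : D.aboveB s y x <;> cases h2 : D.aboveR s y r <;> simp [h1, h2] at h ⊢

/-- `x` right of `s`, `y` left of `r`. -/
theorem meet_RL (hrs : D.xR r < D.xR s) (hx : D.xR s < D.xB x) (hy : D.xB y < D.xR r)
    (hb : D.aboveR r x s = D.aboveR s y r) : D.Meet r x s y := by
  have i1 : Set.uIcc (D.xR r) (D.xB x) = Set.Icc (D.xR r) (D.xB x) := Set.uIcc_of_lt (hrs.trans hx)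
  have i2 : Set.uIcc (D.xR s) (D.xB y) = Set.Icc (D.xB y) (D.xR s) := Set.uIcc_of_gt (hy.trans hrs)
  refine meet_core D (p := D.xR r) (q := D.xR s) hrs.le ?_ ?_
    (cmp_f_red D (ne_of_lt hrs |> fun h => fun e => h (congrArg D.xR e)) (by rw [i2]; exact ⟨hy.le, hrs.le⟩))
    (cmp_e_red D (ne_of_x D hrs) (by rw [i1]; exact ⟨hrs.le, hx.le⟩)) ?_
  · rw [i1]; exact Set.Icc_subset_Icc_right hx.le
  · rw [i2]; exact Set.Icc_subset_Icc_left hy.le
  · rw [hb]; cases D.aboveR s y r <;> simp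

/-- `x` between `r` and `s`, `y` left of `r`. -/
theorem meet_ML (hrs : D.xR r < D.xR s) (hx1 : D.xR r < D.xB x) (hx2 : D.xB x < D.xR s)
    (hy : D.xB y < D.xR r) (hne : x ≠ y)
    (hb : D.aboveR s y r ≠ D.aboveB s y x) : D.Meet r x s y := by
  have i1 : Set.uIcc (D.xR r) (D.xB x) = Set.Icc (D.xR r) (D.xB x) := Set.uIcc_of_lt hx1
  have i2 : Set.uIcc (D.xR s) (D.xB y) = Set.Icc (D.xB y) (D.xR s) := Set.uIcc_of_gt (hy.trans hrs)
  refine meet_core D (p := D.xR r) (q := D.xB x) hx1.le ?_ ?_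
    (cmp_f_red D (ne_of_lt hrs |> fun h => fun e => h (congrArg D.xR e)) (by rw [i2]; exact ⟨hy.le, hrs.le⟩))
    (cmp_f_blue D hne (by rw [i2]; exact ⟨(hy.trans hx1).le, hx2.le⟩)) ?_
  · rw [i1]
  · rw [i2]; exact Set.Icc_subset_Icc hy.le hx2.le
  · intro h
    apply hb
    cases h1 : D.aboveB s y x <;> cases h2 : D.aboveR s y r <;> simp [h1, h2] at h ⊢

/-- `x` right of `s`, `y` between `r` and `s`. -/
theorem meet_RM (hrs : D.xR r < D.xR s) (hx : D.xR s < D.xB x) (hy1 : D.xR r < D.xB y)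
    (hy2 : D.xB y < D.xR s) (hne : y ≠ x)
    (hb : D.aboveB r x y ≠ D.aboveR r x s) : D.Meet r x s y := by
  have i1 : Set.uIcc (D.xR r) (D.xB x) = Set.Icc (D.xR r) (D.xB x) := Set.uIcc_of_lt (hrs.trans hx)
  have i2 : Set.uIcc (D.xR s) (D.xB y) = Set.Icc (D.xB y) (D.xR s) := Set.uIcc_of_gt hy2
  refine meet_core D (p := D.xB y) (q := D.xR s) hy2.le ?_ ?_
    (cmp_e_blue D hne (by rw [i1]; exact ⟨hy1.le, (hy2.trans hx).le⟩))
    (cmp_e_red D (ne_of_x D hrs) (by rw [i1]; exact ⟨hrs.le, hx.le⟩)) hb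
  · rw [i1]; exact Set.Icc_subset_Icc hy1.le hx.le
  · rw [i2]

/-- Both blues between `r` and `s`, `y < x`. -/
theorem meet_MM (hy1 : D.xR r < D.xB y) (hx2 : D.xB x < D.xR s) (hyx : y < x)
    (hb : D.aboveB r x y = D.aboveB s y x) : D.Meet r x s y := by
  have hB : D.xB y < D.xB x := D.xB_mono hyx
  have i1 : Set.uIcc (D.xR r) (D.xB x) = Set.Icc (D.xR r) (D.xB x) := Set.uIcc_of_lt (hy1.trans hB)
  have i2 : Set.uIcc (D.xR s) (D.xB y) = Set.Icc (D.xB y) (D.xR s) := Set.uIcc_of_gt (hB.trans hx2)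
  refine meet_core D (p := D.xB y) (q := D.xB x) hB.le ?_ ?_
    (cmp_e_blue D (ne_of_lt hyx) (by rw [i1]; exact ⟨hy1.le, hB.le⟩))
    (cmp_f_blue D (ne_of_gt hyx) (by rw [i2]; exact ⟨hB.le, hx2.le⟩)) ?_
  · rw [i1]; exact Set.Icc_subset_Icc_left hy1.le
  · rw [i2]; exact Set.Icc_subset_Icc_right hx2.le
  · rw [hb]; cases D.aboveB s y x <;> simp

end MonoDrawing'

end Vale.Agent.Lib.P040Z
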