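import Vale.Agent.Lib.P040Z.Defs
import Vale.Agent.Lib.P040Z.Geom

/-!
From the stars of a drawing to forced meetings: if each star records the drawing at its red vertex,
then every pair of edges forced by the star data, with the spins read off the drawing, has a common
point.
-/

namespace Vale.Agent.Lib.P040Z

open Vale.Agent.Lib.P040M

variable {m k : ℕ}

/-- The star `T` records the drawing `D` at the red vertex `t`. -/
structure IsStarAt (D : MonoDrawing m (2 * k + 1)) (t : Fin m) (T : Star k) : Prop where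
  left_iff : ∀ b : Fin (2 * k + 1), (b : ℕ) < T.J ↔ D.xB b < D.xR t
  above_right : ∀ x y : Fin (2 * k + 1), T.J ≤ (y : ℕ) → y < x → T.above x y = D.aboveB t x y
  above_left : ∀ x y : Fin (2 * k + 1), x < y → (y : ℕ) < T.J → T.above x y = D.aboveB t x y

variable {D : MonoDrawing m (2 * k + 1)} {t : Fin m} {T : Star k}

theorem IsStarAt.right_of (h : IsStarAt D t T) {b : Fin (2 * k + 1)} (hb : T.J ≤ (b : ℕ)) :
    D.xR t < D.xB b := by
  have h1 : ¬ D.xB b < D.xR t := fun e => absurd ((h.left_iff b).2 e) (not_lt.2 hb)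
  exact lt_of_le_of_ne (not_lt.1 h1) (D.x_ne t b)

theorem IsStarAt.left_of (h : IsStarAt D t T) {b : Fin (2 * k + 1)} (hb : (b : ℕ) < T.J) :
    D.xB b < D.xR t := (h.left_iff b).1 hb

theorem IsStarAt.J_le {r s : Fin m} {Tr Ts : Star k} (hr : IsStarAt D r Tr) (hs : IsStarAt D s Ts)
    (hrs : D.xR r < D.xR s) : Tr.J ≤ Ts.J := by
  by_contra hc
  have hlt : Ts.J < Tr.J := not_le.1 hc
  have hb : Ts.J < 2 * k + 1 := lt_of_lt_of_le hlt Tr.hJ
  have h1 := (hr.left_iff ⟨Ts.J, hb⟩).1 hlt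
  have h2 := (hs.left_iff ⟨Ts.J, hb⟩).2 (h1.trans hrs)
  exact lt_irrefl _ h2

/-- The spins of a pair of reds, read off the drawing. -/
noncomputable def spinOf (D : MonoDrawing m (2 * k + 1)) (r s : Fin m) (Ts : Star k)
    (b : Fin (2 * k + 1)) : Bool :=
  if Ts.J ≤ (b : ℕ) then D.aboveR r b s else D.aboveR s b r

/-- Every forced pair meets. -/
theorem meet_of_forced {r s : Fin m} {Tr Ts : Star k} (hr : IsStarAt D r Tr) (hs : IsStarAt D s Ts)
    (hrs : D.xR r < D.xR s) {x y : Fin (2 * k + 1)} (hne : x ≠ y)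
    (hf : forced Tr Ts (spinOf D r s Ts) x y) : D.Meet r x s y := by
  have hJ : Tr.J ≤ Ts.J := hr.J_le hs hrs
  have sr : ∀ {b : Fin (2 * k + 1)}, Ts.J ≤ (b : ℕ) → spinOf D r s Ts b = D.aboveR r b s := by
    intro b hb
    simp only [spinOf, hb, if_true]
  have sl : ∀ {b : Fin (2 * k + 1)}, (b : ℕ) < Ts.J → spinOf D r s Ts b = D.aboveR s b r := by
    intro b hb
    simp only [spinOf, not_le.2 hb, if_false]
  rcases hf with ⟨h1, h2, h3, h4⟩ | ⟨h1, h2, h3, h4⟩ | ⟨h1, h2, h4⟩ | ⟨h1, h2, h3, h3', h5, h4⟩ |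
    ⟨h1, h2, h3, h4⟩ | ⟨h1, h2, h3, h4⟩
  · -- `x` right of `s`, `y` right of `r`, `y < x`
    rw [sr h1, hr.above_right x y h2 h3] at h4
    by_cases hy : Ts.J ≤ (y : ℕ)
    · exact MonoDrawing'.meet_RR2 D hrs (hs.right_of hy) h3 h4
    · exact MonoDrawing'.meet_RM D hrs (hs.right_of h1) (hr.right_of h2)
        (hs.left_of (not_le.1 hy)) (Ne.symm hne) (Ne.symm h4)
  · -- both right of `s`, `x < y`
    rw [sr h1, hs.above_right y x h1 h3] at h4
    exact MonoDrawing'.meet_RR1 D hrs (hs.right_of h1) h3 h4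
  · -- `x` right of `s`, `y` left of `r`
    rw [sr h1, sl (lt_of_lt_of_le h2 hJ)] at h4
    exact MonoDrawing'.meet_RL D hrs (hs.right_of h1) (hr.left_of h2) h4
  · -- both between
    rw [hr.above_right x y h3 h5, hs.above_left y x h5 h2] at h4
    exact MonoDrawing'.meet_MM D (hr.right_of h3) (hs.left_of h2) h5 h4
  · -- `y` left of `r`, `x` left of `s`, `y < x`
    rw [sl (lt_of_lt_of_le h2 hJ), hs.above_left y x h3 h1] at h4
    by_cases hx : (x : ℕ) < Tr.J
    · exact MonoDrawing'.meet_LL2 D hrs (hr.left_of hx) h3 h4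
    · exact MonoDrawing'.meet_ML D hrs (hr.right_of (not_lt.1 hx)) (hs.left_of h1) (hr.left_of h2)
        hne h4
  · -- both left of `r`, `x < y`
    rw [sl (lt_of_lt_of_le h2 hJ), hr.above_left x y h3 h2] at h4
    exact MonoDrawing'.meet_LL1 D hrs (hr.left_of h2) h3 h4

/-- The hypothesis `hmodel` of the final assembly, from stars recording the drawing. -/
theorem hmodel_of_stars (D : MonoDrawing m (2 * k + 1)) (star : Fin m → Star k)
    (h : ∀ t, IsStarAt D t (star t)) (r s : Fin m) (hrs : D.xR r < D.xR s) :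
    (star r).J ≤ (star s).J ∧ ∃ A : Fin (2 * k + 1) → Bool, ∀ x y, x ≠ y →
      forced (star r) (star s) A x y → D.Meet r x s y :=
  ⟨(h r).J_le (h s) hrs, spinOf D r s (star s), fun _ _ hne hf =>
    meet_of_forced (h r) (h s) hrs hne hf⟩

end Vale.Agent.Lib.P040Z
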