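import Vale.Agent.Lib.P040Z.Defs

/-!
The vector of window counts of a rotation is `1`-Lipschitz for adjacent transpositions.
-/

namespace Vale.Agent.Lib.P040Z

open Finset

variable {k : ℕ}

theorem inW_iff (k : ℕ) (P Q : Fin (2 * k + 1)) :
    inW k P Q ↔ ((Q : ℕ) < P ∧ (P : ℕ) ≤ Q + k) ∨ ((P : ℕ) < Q ∧ (P : ℕ) + (2 * k + 1) ≤ Q + k) := by
  unfold inW
  have hP := P.2
  have hQ := Q.2
  by_cases h : (Q : ℕ) ≤ P
  · have : ((P : ℕ) + (2 * k + 1) - Q) % (2 * k + 1) = P - Q := by
      rw [show (P : ℕ) + (2 * k + 1) - Q = (P - Q) + (2 * k + 1) by omega, Nat.add_mod_right,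
        Nat.mod_eq_of_lt (by omega)]
    rw [this]
    omega
  · have : ((P : ℕ) + (2 * k + 1) - Q) % (2 * k + 1) = P + (2 * k + 1) - Q :=
      Nat.mod_eq_of_lt (by omega)
    rw [this]
    omega

/-- Integer indicator. -/
def chi (σ : Fin (2 * k + 1) → Fin (2 * k + 1)) (l y : Fin (2 * k + 1)) : ℤ :=
  if y < l ∧ inW k (σ y) (σ l) then 1 else 0

theorem fval_cast (σ : Fin (2 * k + 1) → Fin (2 * k + 1)) (l : Fin (2 * k + 1)) :
    (fval σ l : ℤ) = ∑ y, chi σ l y := by
  unfold fval chi
  rw [Finset.card_filter]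
  push_cast
  rfl

/-- Data of an adjacent transposition. -/
structure Adj (σ σ' : Fin (2 * k + 1) → Fin (2 * k + 1)) (a b w : Fin (2 * k + 1)) : Prop where
  inj : Function.Injective σ
  hab : (σ b : ℕ) = σ a + 1
  h1 : ∀ y, y ≠ a → y ≠ b → σ' y = σ y
  h2 : σ' a = σ b
  h3 : σ' b = σ a
  hw : (σ w : ℕ) = (σ a + k + 1) % (2 * k + 1)

section
variable {σ σ' : Fin (2 * k + 1) → Fin (2 * k + 1)} {a b w : Fin (2 * k + 1)}

theorem Adj.hw' (H : Adj σ σ' a b w) :
    ((σ w : ℕ) = σ a + k + 1 ∧ (σ a : ℕ) + k + 1 < 2 * k + 1) ∨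
      ((σ w : ℕ) + k = σ a ∧ 2 * k + 1 ≤ (σ a : ℕ) + k + 1) := by
  have := H.hw
  have ha := (σ a).2
  by_cases h : (σ a : ℕ) + k + 1 < 2 * k + 1
  · left
    rw [Nat.mod_eq_of_lt h] at this
    exact ⟨this, h⟩
  · right
    have e : (σ a : ℕ) + k + 1 = ((σ a : ℕ) + k + 1 - (2 * k + 1)) + (2 * k + 1) := by omega
    rw [e, Nat.add_mod_right, Nat.mod_eq_of_lt (by omega)] at this
    omega

theorem Adj.ne_ab (H : Adj σ σ' a b w) : a ≠ b := by
  intro h
  have := H.hab
  rw [h] at this
  omega

theorem Adj.kpos (H : Adj σ σ' a b w) : 1 ≤ k := by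
  have := H.hab
  have h2 := (σ b).2
  omega

theorem Adj.ne_wa (H : Adj σ σ' a b w) : w ≠ a := by
  intro h
  have h1 := H.hw'
  have := H.kpos
  rw [h] at h1
  omega

theorem Adj.ne_wb (H : Adj σ σ' a b w) : w ≠ b := by
  intro h
  have h1 := H.hw'
  have := H.kpos
  have h2 := H.hab
  rw [h] at h1
  omega

/-- Away from the three elements nothing changes. -/
theorem Adj.eq_other (H : Adj σ σ' a b w) {l : Fin (2 * k + 1)} (ha : l ≠ a) (hb : l ≠ b)
    (hw : l ≠ w) : (fval σ' l : ℤ) = fval σ l := by
  have hl : σ' l = σ l := H.h1 l ha hb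
  have la : (σ l : ℕ) ≠ σ a := fun h => ha (H.inj (Fin.ext h))
  have lb : (σ l : ℕ) ≠ σ b := fun h => hb (H.inj (Fin.ext h))
  have lw : (σ l : ℕ) ≠ σ w := fun h => hw (H.inj (Fin.ext h))
  have hab := H.hab
  have hw' := H.hw'
  have hQ := (σ l).2
  have key : inW k (σ b) (σ l) ↔ inW k (σ a) (σ l) := by
    rw [inW_iff, inW_iff]
    omega
  rw [fval_cast, fval_cast]
  refine Finset.sum_congr rfl fun y _ => ?_
  unfold chi
  rw [hl]
  by_cases hya : y = a
  · subst hya
    rw [H.h2]
    simp only [key]
  · by_cases hyb : y = b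
    · subst hyb
      rw [H.h3]
      simp only [key]
    · rw [H.h1 y hya hyb]

theorem Adj.eq_a (H : Adj σ σ' a b w) :
    (fval σ' a : ℤ) - fval σ a = (if w < a then 1 else 0) - (if b < a then 1 else 0) := by
  have hab := H.hab
  have hw' := H.hw'
  have hk := H.kpos
  have hA := (σ a).2
  have hB := (σ b).2
  rw [fval_cast, fval_cast, ← Finset.sum_sub_distrib,
    Fintype.sum_eq_add w b H.ne_wb ?_]
  · have e1 : σ' w = σ w := H.h1 w H.ne_wa H.ne_wb
    have i1 : inW k (σ w) (σ b) := by rw [inW_iff]; omega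
    have i2 : ¬ inW k (σ w) (σ a) := by rw [inW_iff]; omega
    have i3 : ¬ inW k (σ a) (σ b) := by rw [inW_iff]; omega
    have i4 : inW k (σ b) (σ a) := by rw [inW_iff]; omega
    unfold chi
    rw [H.h2, e1, H.h3]
    simp only [i1, i2, i3, i4, and_true, and_false, if_false]
    ring
  · intro y hy
    obtain ⟨hyw, hyb⟩ := hy
    unfold chi
    rw [H.h2]
    by_cases hya : y = a
    · subst hya
      simp
    · rw [H.h1 y hya hyb]
      have la : (σ y : ℕ) ≠ σ a := fun h => hya (H.inj (Fin.ext h))
      have lb : (σ y : ℕ) ≠ σ b := fun h => hyb (H.inj (Fin.ext h))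
      have lw : (σ y : ℕ) ≠ σ w := fun h => hyw (H.inj (Fin.ext h))
      have hQ := (σ y).2
      have key : inW k (σ y) (σ b) ↔ inW k (σ y) (σ a) := by
        rw [inW_iff, inW_iff]
        omega
      simp only [key, sub_self]

theorem Adj.eq_b (H : Adj σ σ' a b w) :
    (fval σ' b : ℤ) - fval σ b = (if a < b then 1 else 0) - (if w < b then 1 else 0) := by
  have hab := H.hab
  have hw' := H.hw'
  have hk := H.kpos
  have hA := (σ a).2
  have hB := (σ b).2
  rw [fval_cast, fval_cast, ← Finset.sum_sub_distrib,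
    Fintype.sum_eq_add a w H.ne_wa.symm ?_]
  · have e1 : σ' w = σ w := H.h1 w H.ne_wa H.ne_wb
    have i1 : inW k (σ b) (σ a) := by rw [inW_iff]; omega
    have i2 : ¬ inW k (σ a) (σ b) := by rw [inW_iff]; omega
    have i3 : ¬ inW k (σ w) (σ a) := by rw [inW_iff]; omega
    have i4 : inW k (σ w) (σ b) := by rw [inW_iff]; omega
    unfold chi
    rw [H.h2, e1, H.h3]
    simp only [i1, i2, i3, i4, and_true, and_false, if_false]
    ring
  · intro y hy
    obtain ⟨hya, hyw⟩ := hy
    unfold chi
    rw [H.h3]
    by_cases hyb : y = b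
    · subst hyb
      simp
    · rw [H.h1 y hya hyb]
      have la : (σ y : ℕ) ≠ σ a := fun h => hya (H.inj (Fin.ext h))
      have lb : (σ y : ℕ) ≠ σ b := fun h => hyb (H.inj (Fin.ext h))
      have lw : (σ y : ℕ) ≠ σ w := fun h => hyw (H.inj (Fin.ext h))
      have hQ := (σ y).2
      have key : inW k (σ y) (σ a) ↔ inW k (σ y) (σ b) := by
        rw [inW_iff, inW_iff]
        omega
      simp only [key, sub_self]

theorem Adj.eq_w (H : Adj σ σ' a b w) :
    (fval σ' w : ℤ) - fval σ w = (if b < w then 1 else 0) - (if a < w then 1 else 0) := by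
  have hab := H.hab
  have hw' := H.hw'
  have hk := H.kpos
  have hA := (σ a).2
  have hB := (σ b).2
  have e1 : σ' w = σ w := H.h1 w H.ne_wa H.ne_wb
  rw [fval_cast, fval_cast, ← Finset.sum_sub_distrib,
    Fintype.sum_eq_add b a H.ne_ab.symm ?_]
  · have i1 : inW k (σ a) (σ w) := by rw [inW_iff]; omega
    have i2 : ¬ inW k (σ b) (σ w) := by rw [inW_iff]; omega
    unfold chi
    rw [H.h2, e1, H.h3]
    simp only [i1, i2, and_true, and_false, if_false]
    ring
  · intro y hy
    obtain ⟨hyb, hya⟩ := hy
    unfold chi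
    rw [e1, H.h1 y hya hyb]
    simp only [sub_self]

/-- One adjacent transposition moves the vector of counts by at most one in total. -/
theorem Adj.step (H : Adj σ σ' a b w) :
    ∑ l, |(fval σ l : ℤ) - fval σ' l| ≤ 1 := by
  classical
  have hsub : ∑ l, |(fval σ l : ℤ) - fval σ' l| =
      ∑ l ∈ ({a, b, w} : Finset (Fin (2 * k + 1))), |(fval σ l : ℤ) - fval σ' l| := by
    symm
    refine Finset.sum_subset (subset_univ _) fun l _ hl => ?_
    simp only [mem_insert, mem_singleton, not_or] at hl
    rw [H.eq_other hl.1 hl.2.1 hl.2.2]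
    simp
  rw [hsub, Finset.sum_insert (by
      simp only [mem_insert, mem_singleton, not_or]
      exact ⟨H.ne_ab, H.ne_wa.symm⟩),
    Finset.sum_insert (by
      simp only [mem_singleton]
      exact H.ne_wb.symm), Finset.sum_singleton]
  have e1 := H.eq_a
  have e2 := H.eq_b
  have e3 := H.eq_w
  rw [abs_sub_comm (fval σ a : ℤ), abs_sub_comm (fval σ b : ℤ), abs_sub_comm (fval σ w : ℤ), e1, e2, e3]
  rcases lt_trichotomy a b with hab | hab | hab
  · rcases lt_trichotomy w a with hwa | hwa | hwa
    · have : w < b := hwa.trans hab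
      simp [hab, hwa, this, not_lt.mpr hab.le, not_lt.mpr hwa.le, not_lt.mpr this.le]
    · exact absurd hwa H.ne_wa
    · rcases lt_trichotomy w b with hwb | hwb | hwb
      · simp [hab, hwa, hwb, not_lt.mpr hab.le, not_lt.mpr hwa.le, not_lt.mpr hwb.le]
      · exact absurd hwb H.ne_wb
      · simp [hab, hwa, hwb, not_lt.mpr hab.le, not_lt.mpr hwa.le, not_lt.mpr hwb.le]
  · exact absurd hab H.ne_ab
  · rcases lt_trichotomy w b with hwb | hwb | hwb
    · have : w < a := hwb.trans hab
      simp [hab, hwb, this, not_lt.mpr hab.le, not_lt.mpr hwb.le, not_lt.mpr this.le]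
    · exact absurd hwb H.ne_wb
    · rcases lt_trichotomy w a with hwa | hwa | hwa
      · simp [hab, hwa, hwb, not_lt.mpr hab.le, not_lt.mpr hwa.le, not_lt.mpr hwb.le]
      · exact absurd hwa H.ne_wa
      · simp [hab, hwa, hwb, not_lt.mpr hab.le, not_lt.mpr hwa.le, not_lt.mpr hwb.le]

end

/-- Kendall distance of two position functions: pairs in opposite order. -/
def kend (σ τ : Fin (2 * k + 1) → Fin (2 * k + 1)) : ℕ :=
  ((univ : Finset (Fin (2 * k + 1) × Fin (2 * k + 1))).filter fun q =>
    σ q.1 < σ q.2 ∧ τ q.2 < τ q.1).card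

/-- The counts are `1`-Lipschitz for the Kendall distance. -/
theorem lip (N : ℕ) : ∀ (σ τ : Fin (2 * k + 1) ≃ Fin (2 * k + 1)), kend σ τ ≤ N →
    ∑ l, |(fval σ l : ℤ) - fval τ l| ≤ kend σ τ := by
  induction N with
  | zero =>
    intro σ τ hN
    have hz : kend σ τ = 0 := by omega
    have hne : ∀ q : Fin (2 * k + 1) × Fin (2 * k + 1), ¬ (σ q.1 < σ q.2 ∧ τ q.2 < τ q.1) := by
      intro q hq
      have : q ∈ ((univ : Finset (Fin (2 * k + 1) × Fin (2 * k + 1))).filter fun q =>
          σ q.1 < σ q.2 ∧ τ q.2 < τ q.1) := by simp [hq]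
      unfold kend at hz
      rw [Finset.card_eq_zero] at hz
      rw [hz] at this
      simp at this
    have hmono : StrictMono (fun i => τ (σ.symm i)) := by
      intro i j hij
      by_contra hc
      have h1 : τ (σ.symm j) < τ (σ.symm i) := by
        refine lt_of_le_of_ne (not_lt.mp hc) ?_
        intro h
        have := σ.symm.injective (τ.injective h)
        exact absurd this (ne_of_gt hij)
      exact hne (σ.symm i, σ.symm j) ⟨by simpa using hij, h1⟩
    have hid : (fun i => τ (σ.symm i)) = id := by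
      refine (StrictMono.range_inj hmono strictMono_id).mp ?_
      ext x
      simp only [Set.mem_range, id]
      exact ⟨fun _ => ⟨x, rfl⟩, fun _ => ⟨σ (τ.symm x), by simp⟩⟩
    have hst : (τ : Fin (2 * k + 1) → Fin (2 * k + 1)) = σ := by
      funext x
      have := congrFun hid (σ x)
      simpa using this
    rw [hst]
    simp
  | succ N ih =>
    intro σ τ hN
    by_cases hex : ∃ a b : Fin (2 * k + 1), (σ b : ℕ) = σ a + 1 ∧ τ b < τ a
    · obtain ⟨a, b, hab, hτ⟩ := hex
      have hlt : (σ a : ℕ) + k + 1 ≤ 2 * k + 1 + (σ a + k + 1) := by omega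
      let w : Fin (2 * k + 1) := σ.symm ⟨(σ a + k + 1) % (2 * k + 1), Nat.mod_lt _ (by omega)⟩
      let σ' : Fin (2 * k + 1) ≃ Fin (2 * k + 1) := (Equiv.swap a b).trans σ
      have hab' : a ≠ b := by
        intro h
        rw [h] at hab
        omega
      have H : Adj (σ : Fin (2 * k + 1) → Fin (2 * k + 1)) (σ' : Fin (2 * k + 1) → Fin (2 * k + 1))
          a b w := by
        refine ⟨σ.injective, hab, ?_, ?_, ?_, ?_⟩
        · intro y h1 h2
          simp [σ', Equiv.swap_apply_of_ne_of_ne h1 h2]
        · simp [σ']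
        · simp [σ']
        · simp [w]
      have hstep := H.step
      have hsubset : ((univ : Finset (Fin (2 * k + 1) × Fin (2 * k + 1))).filter fun q =>
            σ' q.1 < σ' q.2 ∧ τ q.2 < τ q.1) ⊂
          ((univ : Finset (Fin (2 * k + 1) × Fin (2 * k + 1))).filter fun q =>
            σ q.1 < σ q.2 ∧ τ q.2 < τ q.1) := by
        rw [Finset.ssubset_iff_of_subset]
        · refine ⟨(a, b), ?_, ?_⟩
          · simp only [mem_filter, mem_univ, true_and]
            refine ⟨?_, hτ⟩
            rw [Fin.lt_def]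
            omega
          · simp only [mem_filter, mem_univ, true_and, not_and]
            intro h
            exfalso
            have e1 : σ' a = σ b := H.h2
            have e2 : σ' b = σ a := H.h3
            rw [e1, e2, Fin.lt_def] at h
            omega
        · intro q hq
          simp only [mem_filter, mem_univ, true_and] at hq ⊢
          obtain ⟨h1, h2⟩ := hq
          refine ⟨?_, h2⟩
          rw [Fin.lt_def] at h1 ⊢
          have e1 : σ' a = σ b := H.h2
          have e2 : σ' b = σ a := H.h3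
          have e3 : ∀ y, y ≠ a → y ≠ b → σ' y = σ y := H.h1
          by_cases h1a : q.1 = a
          · by_cases h2b : q.2 = b
            · rw [h1a, h2b]; omega
            · by_cases h2a : q.2 = a
              · rw [h1a, h2a] at h1; omega
              · rw [h1a, e1, e3 _ h2a h2b] at h1
                rw [h1a]
                omega
          · by_cases h1b : q.1 = b
            · by_cases h2a : q.2 = a
              · rw [h1b, h2a] at h2
                exact absurd h2 (not_lt.mpr hτ.le)
              · by_cases h2b : q.2 = b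
                · rw [h1b, h2b] at h1; omega
                · rw [h1b, e2, e3 _ h2a h2b] at h1
                  rw [h1b]
                  have : (σ q.2 : ℕ) ≠ σ b := fun h => h2b (σ.injective (Fin.ext h))
                  omega
            · rw [e3 _ h1a h1b] at h1
              by_cases h2a : q.2 = a
              · rw [h2a, e1] at h1
                rw [h2a]
                have : (σ q.1 : ℕ) ≠ σ a := fun h => h1a (σ.injective (Fin.ext h))
                omega
              · by_cases h2b : q.2 = b
                · rw [h2b, e2] at h1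
                  rw [h2b]
                  omega
                · rw [e3 _ h2a h2b] at h1
                  exact h1
      have hcard := Finset.card_lt_card hsubset
      have hk : kend σ' τ + 1 ≤ kend σ τ := hcard
      have hih := ih σ' τ (by omega)
      have htri : ∑ l, |(fval σ l : ℤ) - fval τ l| ≤
          ∑ l, |(fval σ l : ℤ) - fval σ' l| + ∑ l, |(fval σ' l : ℤ) - fval τ l| := by
        rw [← Finset.sum_add_distrib]
        refine Finset.sum_le_sum fun l _ => ?_
        exact abs_sub_le _ _ _
      have hk' : ((kend σ' τ : ℤ)) + 1 ≤ kend σ τ := by exact_mod_cast hk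
      linarith
    · -- no adjacent discordant pair, so equal
      have hmono : StrictMono (fun i => τ (σ.symm i)) := by
        rw [Fin.strictMono_iff_lt_succ]
        intro i
        by_contra hc
        have hne : τ (σ.symm i.succ) ≠ τ (σ.symm i.castSucc) := by
          intro h
          have := σ.symm.injective (τ.injective h)
          have h2 : i.succ ≠ i.castSucc := (Fin.castSucc_lt_succ).ne'
          exact h2 this
        exact hex ⟨σ.symm i.castSucc, σ.symm i.succ, by simp,
          lt_of_le_of_ne (not_lt.mp hc) hne⟩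
      have hid : (fun i => τ (σ.symm i)) = id := by
        refine (StrictMono.range_inj hmono strictMono_id).mp ?_
        ext x
        simp only [Set.mem_range, id]
        exact ⟨fun _ => ⟨x, rfl⟩, fun _ => ⟨σ (τ.symm x), by simp⟩⟩
      have hst : (τ : Fin (2 * k + 1) → Fin (2 * k + 1)) = σ := by
        funext x
        have := congrFun hid (σ x)
        simpa using this
      rw [hst]
      simp

end Vale.Agent.Lib.P040Z
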