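import Vale.Agent.Lib.P040Z.Decomp
import Vale.Agent.Lib.P040Z.Lip

/-!
The canonical pair of stars of two stars and spins: rotations given by integer keys.
-/

namespace Vale.Agent.Lib.P040Z

open Finset

variable {k : ℕ}

/-- Rank of `x` for a key. -/
def rankOf (key : Fin (2 * k + 1) → ℤ) (x : Fin (2 * k + 1)) : ℕ :=
  (univ.filter fun z => key z < key x).card

theorem rankOf_lt_of_lt {key : Fin (2 * k + 1) → ℤ} {a b : Fin (2 * k + 1)} (h : key a < key b) :
    rankOf key a < rankOf key b := by
  unfold rankOf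
  refine Finset.card_lt_card ?_
  refine ⟨fun z hz => ?_, fun hsub => ?_⟩
  · simp only [mem_filter, mem_univ, true_and] at hz ⊢
    omega
  · have : a ∈ univ.filter fun z => key z < key a := hsub (by simp [h])
    simp at this

theorem rankOf_lt_card (key : Fin (2 * k + 1) → ℤ) (x : Fin (2 * k + 1)) :
    rankOf key x < 2 * k + 1 := by
  unfold rankOf
  have : (univ.filter fun z => key z < key x).card < (univ : Finset (Fin (2 * k + 1))).card := by
    refine Finset.card_lt_card ⟨Finset.subset_univ _, fun hsub => ?_⟩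
    have : x ∈ univ.filter fun z => key z < key x := hsub (mem_univ x)
    simp at this
  simpa using this

/-- The position equivalence of an injective key. -/
noncomputable def posOf (key : Fin (2 * k + 1) → ℤ) (hk : Function.Injective key) :
    Fin (2 * k + 1) ≃ Fin (2 * k + 1) :=
  Equiv.ofBijective (fun x => ⟨rankOf key x, rankOf_lt_card key x⟩) (by
    rw [Fintype.bijective_iff_injective_and_card]
    refine ⟨fun a b hab => ?_, rfl⟩
    have hab' : rankOf key a = rankOf key b := congrArg Fin.val hab
    by_contra hne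
    have := hk.ne hne
    rcases lt_or_gt_of_ne this with h | h
    · have := rankOf_lt_of_lt h
      omega
    · have := rankOf_lt_of_lt h
      omega)

theorem posOf_val (key : Fin (2 * k + 1) → ℤ) (hk : Function.Injective key)
    (x : Fin (2 * k + 1)) : (posOf key hk x : ℕ) = rankOf key x := rfl

theorem posOf_lt_iff (key : Fin (2 * k + 1) → ℤ) (hk : Function.Injective key)
    (a b : Fin (2 * k + 1)) : ((posOf key hk a : ℕ) < posOf key hk b) ↔ key a < key b := by
  rw [posOf_val, posOf_val]
  constructor
  · intro h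
    by_contra hn
    rcases lt_or_eq_of_le (not_lt.mp hn) with h' | h'
    · have := rankOf_lt_of_lt h'
      omega
    · have : b = a := hk h'
      subst this
      omega
  · exact rankOf_lt_of_lt

theorem card_ge (J : ℕ) (hJ : J ≤ 2 * k + 1) :
    (univ.filter fun z : Fin (2 * k + 1) => J ≤ (z : ℕ)).card = 2 * k + 1 - J := by
  have : (univ.filter fun z : Fin (2 * k + 1) => J ≤ (z : ℕ)).image Fin.val
      = Finset.Ico J (2 * k + 1) := by
    ext i
    simp only [mem_image, mem_filter, mem_univ, true_and, mem_Ico]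
    constructor
    · rintro ⟨z, hz, rfl⟩
      exact ⟨hz, z.2⟩
    · rintro ⟨h1, h2⟩
      exact ⟨⟨i, h2⟩, h1, rfl⟩
  rw [← Nat.card_Ico, ← this, Finset.card_image_of_injective _ Fin.val_injective]

/-- A star from an injective key in which the blues `≥ J` come first. -/
noncomputable def starOf (J : ℕ) (hJ : J ≤ 2 * k + 1) (key : Fin (2 * k + 1) → ℤ)
    (hk : Function.Injective key)
    (hb : ∀ a b : Fin (2 * k + 1), (a : ℕ) < J → J ≤ (b : ℕ) → key b < key a) : Star k where
  J := J
  hJ := hJ
  pos := posOf key hk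
  block := by
    intro x
    rw [posOf_val]
    constructor
    · intro hx
      have h1 : (univ.filter fun z => key z < key x) ⊂ univ.filter fun z : Fin (2 * k + 1) => J ≤ (z : ℕ) := by
        refine ⟨fun z hz => ?_, fun hsub => ?_⟩
        · simp only [mem_filter, mem_univ, true_and] at hz ⊢
          by_contra hz'
          have := hb z x (by omega) hx
          omega
        · have : x ∈ univ.filter fun z => key z < key x := hsub (by simp [hx])
          simp at this
      have h2 := Finset.card_lt_card h1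
      rw [card_ge J hJ] at h2
      exact h2
    · intro h
      by_contra hx
      have h1 : (univ.filter fun z : Fin (2 * k + 1) => J ≤ (z : ℕ)) ⊆ univ.filter fun z => key z < key x := by
        intro z hz
        simp only [mem_filter, mem_univ, true_and] at hz ⊢
        exact hb x z (by omega) hz
      have h2 := Finset.card_le_card h1
      rw [card_ge J hJ] at h2
      unfold rankOf at h
      omega

section
variable (r s : Star k) (A : Fin (2 * k + 1) → Bool)

/-- Key of the canonical star at `r`: `R1` decreasing, the middle in the order of `r`, `R0`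
increasing, `L0` decreasing, `L1` increasing. -/
def keyC (y : Fin (2 * k + 1)) : ℤ :=
  let N : ℤ := 2 * k + 1
  if s.J ≤ (y : ℕ) then (if A y = true then -(y : ℤ) - 20 * N else (y : ℤ))
  else if r.J ≤ (y : ℕ) then -10 * N + (r.pos y : ℕ)
  else (if A y = true then 20 * N + (y : ℤ) else 10 * N - (y : ℤ))

/-- Key of the canonical star at `s`: `R1` increasing, `R0` decreasing, `L0` increasing, the middle
reversed, `L1` decreasing. -/
def keyD (y : Fin (2 * k + 1)) : ℤ :=
  let N : ℤ := 2 * k + 1
  if s.J ≤ (y : ℕ) then (if A y = true then (y : ℤ) - 20 * N else -10 * N - (y : ℤ))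
  else if r.J ≤ (y : ℕ) then 10 * N - ((r.pos y : ℕ) : ℤ)
  else (if A y = true then 20 * N - (y : ℤ) else (y : ℤ))

theorem keyC_inj (hJ : r.J ≤ s.J) : Function.Injective (keyC r s A) := by
  intro a b hab
  have ha := a.2
  have hb := b.2
  have hpa := (r.pos a).2
  have hpb := (r.pos b).2
  by_contra hne
  have hval : (a : ℕ) ≠ b := fun e => hne (Fin.ext e)
  have hpos : (r.pos a : ℕ) ≠ r.pos b := fun e => hne (r.pos.injective (Fin.ext e))
  simp only [keyC] at hab
  split_ifs at hab <;> omega

theorem keyD_inj (hJ : r.J ≤ s.J) : Function.Injective (keyD r s A) := by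
  intro a b hab
  have ha := a.2
  have hb := b.2
  have hpa := (r.pos a).2
  have hpb := (r.pos b).2
  by_contra hne
  have hval : (a : ℕ) ≠ b := fun e => hne (Fin.ext e)
  have hpos : (r.pos a : ℕ) ≠ r.pos b := fun e => hne (r.pos.injective (Fin.ext e))
  simp only [keyD] at hab
  split_ifs at hab <;> omega

/-- The canonical star at `r`. -/
noncomputable def canonC (hJ : r.J ≤ s.J) : Star k :=
  starOf r.J r.hJ (keyC r s A) (keyC_inj r s A hJ) (by
    intro a b ha hb
    have h1 := a.2
    have h2 := b.2
    have hpa := (r.pos a).2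
    have hpb := (r.pos b).2
    simp only [keyC]
    split_ifs <;> omega)

/-- The canonical star at `s`. -/
noncomputable def canonD (hJ : r.J ≤ s.J) : Star k :=
  starOf s.J s.hJ (keyD r s A) (keyD_inj r s A hJ) (by
    intro a b ha hb
    have h1 := a.2
    have h2 := b.2
    have hpa := (r.pos a).2
    have hpb := (r.pos b).2
    simp only [keyD]
    split_ifs <;> omega)

theorem canonC_J (hJ : r.J ≤ s.J) : (canonC r s A hJ).J = r.J := rfl
theorem canonD_J (hJ : r.J ≤ s.J) : (canonD r s A hJ).J = s.J := rfl

theorem canonC_lt (hJ : r.J ≤ s.J) (a b : Fin (2 * k + 1)) :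
    (((canonC r s A hJ).pos a : ℕ) < (canonC r s A hJ).pos b) ↔ keyC r s A a < keyC r s A b :=
  posOf_lt_iff (keyC r s A) (keyC_inj r s A hJ) a b

theorem canonD_lt (hJ : r.J ≤ s.J) (a b : Fin (2 * k + 1)) :
    (((canonD r s A hJ).pos a : ℕ) < (canonD r s A hJ).pos b) ↔ keyD r s A a < keyD r s A b :=
  posOf_lt_iff (keyD r s A) (keyD_inj r s A hJ) a b

end

theorem canon_kend_le_kd (σ τ : Fin (2 * k + 1) ≃ Fin (2 * k + 1)) : kend σ τ ≤ kd σ τ := by
  unfold kend kd
  refine Finset.card_le_card_of_injOn (fun q => if q.1 < q.2 then q else (q.2, q.1)) ?_ ?_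
  · intro q hq
    simp only [coe_filter, mem_univ, true_and, Set.mem_ofPred_eq] at hq ⊢
    obtain ⟨h1, h2⟩ := hq
    have h1' : (σ q.1 : ℕ) < σ q.2 := h1
    have h2' : (τ q.2 : ℕ) < τ q.1 := h2
    have hne : q.1 ≠ q.2 := fun e => by
      rw [e] at h1'
      omega
    by_cases hq : q.1 < q.2
    · rw [if_pos hq]
      refine ⟨hq, ?_⟩
      constructor
      · intro _
        omega
      · intro _
        exact h1'
    · rw [if_neg hq]
      show q.2 < q.1 ∧ (((σ q.2 : ℕ) < σ q.1) ↔ ¬ ((τ q.2 : ℕ) < τ q.1))
      refine ⟨lt_of_le_of_ne (not_lt.mp hq) (Ne.symm hne), ?_⟩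
      constructor
      · intro h
        omega
      · intro h
        exact absurd h2' h
  · intro p hp q hq hpq
    simp only [coe_filter, mem_univ, true_and, Set.mem_ofPred_eq] at hp hq
    have h1 : (σ p.1 : ℕ) < σ p.2 := hp.1
    have h2 : (σ q.1 : ℕ) < σ q.2 := hq.1
    simp only at hpq
    by_cases hs : p.1 < p.2 <;> by_cases hs' : q.1 < q.2
    · rw [if_pos hs, if_pos hs'] at hpq
      exact hpq
    · rw [if_pos hs, if_neg hs'] at hpq
      exfalso
      have e1 := (Prod.ext_iff.mp hpq).1
      have e2 := (Prod.ext_iff.mp hpq).2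
      simp only at e1 e2
      rw [e1, e2] at h1
      omega
    · rw [if_neg hs, if_pos hs'] at hpq
      exfalso
      have e1 := (Prod.ext_iff.mp hpq).1
      have e2 := (Prod.ext_iff.mp hpq).2
      simp only at e1 e2
      rw [← e1, ← e2] at h2
      omega
    · rw [if_neg hs, if_neg hs'] at hpq
      exact Prod.ext (Prod.ext_iff.mp hpq).2 (Prod.ext_iff.mp hpq).1

/-- Forced pairs dominate the Kendall distances to the canonical stars plus the Ising term. -/
theorem canon_decomp (r s : Star k) (A : Fin (2 * k + 1) → Bool) (hJ : r.J ≤ s.J) :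
    kend r.pos (canonC r s A hJ).pos + kend s.pos (canonD r s A hJ).pos +
        ((univ : Finset (Fin (2 * k + 1) × Fin (2 * k + 1))).filter
          fun p => s.J ≤ (p.1 : ℕ) ∧ (p.2 : ℕ) < r.J ∧ A p.1 = A p.2).card
      ≤ ((univ : Finset (Fin (2 * k + 1) × Fin (2 * k + 1))).filter
          fun p => forced r s A p.1 p.2).card := by
  have h1 := canon_kend_le_kd r.pos (canonC r s A hJ).pos
  have h2 := canon_kend_le_kd s.pos (canonD r s A hJ).pos
  have h := decomp r s (canonC r s A hJ) (canonD r s A hJ) A hJ rfl rfl ?_ ?_ ?_ ?_ ?_ ?_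
  · omega
  · -- hC1
    intro x y hx hy hyx
    rw [canonC_lt]
    have hxy : (y : ℕ) < x := hyx
    have h3 := (r.pos y).2
    simp only [keyC]
    have hnx : ¬ (x : ℕ) < s.J := by omega
    by_cases hAx : A x = true <;> by_cases hsy : s.J ≤ (y : ℕ) <;> by_cases hAy : A y = true <;>
      simp only [hx, hAx, hsy, hAy, hy, if_true, if_false] <;> simp <;> omega
  · -- hC2
    intro x y hx hx' hy hy'
    rw [canonC_lt]
    simp only [keyC]
    have a1 : ¬ s.J ≤ (x : ℕ) := by omega
    have a2 : ¬ s.J ≤ (y : ℕ) := by omega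
    simp only [a1, a2, hx, hy, if_true, if_false]
    omega
  · -- hC3
    intro x y hxy hy
    rw [canonC_lt]
    have hxy' : (x : ℕ) < y := hxy
    simp only [keyC]
    have a1 : ¬ s.J ≤ (x : ℕ) := by omega
    have a2 : ¬ s.J ≤ (y : ℕ) := by omega
    have a3 : ¬ r.J ≤ (x : ℕ) := by omega
    have a4 : ¬ r.J ≤ (y : ℕ) := by omega
    have hy2 := y.2
    by_cases hAx : A x = true <;> by_cases hAy : A y = true <;>
      simp only [a1, a2, a3, a4, hAx, hAy, if_true, if_false] <;> simp <;> omega
  · -- hD1
    intro x y hx hxy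
    rw [canonD_lt]
    have hxy' : (x : ℕ) < y := hxy
    simp only [keyD]
    have a2 : s.J ≤ (y : ℕ) := by omega
    have hy2 := y.2
    by_cases hAx : A x = true <;> by_cases hAy : A y = true <;>
      simp only [hx, a2, hAx, hAy, if_true, if_false] <;> simp <;> omega
  · -- hD2
    intro x y hyx hx hy
    rw [canonD_lt]
    have hyx' : (y : ℕ) < x := hyx
    simp only [keyD]
    have a1 : ¬ s.J ≤ (x : ℕ) := by omega
    have a2 : ¬ s.J ≤ (y : ℕ) := by omega
    have a3 : ¬ r.J ≤ (y : ℕ) := by omega
    have hx2 := x.2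
    have hp := (r.pos x).2
    by_cases hrx : r.J ≤ (x : ℕ) <;> by_cases hAx : A x = true <;> by_cases hAy : A y = true <;>
      simp only [a1, a2, a3, hrx, hAx, hAy, if_true, if_false] <;> simp <;> omega
  · -- hD3
    intro x y hy hyx hx
    rw [canonD_lt]
    have hyx' : (y : ℕ) < x := hyx
    simp only [keyD]
    have a1 : ¬ s.J ≤ (x : ℕ) := by omega
    have a2 : ¬ s.J ≤ (y : ℕ) := by omega
    have a3 : r.J ≤ (x : ℕ) := by omega
    simp only [a1, a2, a3, hy, if_true, if_false]
    omega

end Vale.Agent.Lib.P040Z
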