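import Vale.Agent.Lib.P040Z.FvalFacts

/-!
Extreme values of `fval` at a canonical star: without clause 2 (resp. clause 6) of `forced`, the pivots on the
right of `s` (resp. on the left of `r`) have extreme `fval`.
-/

namespace Vale.Agent.Lib.P040Z.CanonExtreme

open Finset

variable {k : ℕ}

theorem pos_ne (T : Star k) {x y : Fin (2 * k + 1)} (h : x ≠ y) : (T.pos x : ℕ) ≠ T.pos y := by
  intro e
  exact h (T.pos.injective (Fin.ext e))

theorem above_right (T : Star k) {x y : Fin (2 * k + 1)} (h : T.J ≤ (x : ℕ)) :
    T.above x y = decide ((T.pos x : ℕ) < T.pos y) := by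
  simp [Star.above, h]

theorem above_left (T : Star k) {x y : Fin (2 * k + 1)} (h : (x : ℕ) < T.J) :
    T.above x y = decide ((T.pos y : ℕ) < T.pos x) := by
  simp [Star.above, not_le.mpr h]

/-- Right side: without clause 2 every pivot on the right of `s` has extreme `fval`. -/
theorem extreme_right (s : Star k) (A : Fin (2 * k + 1) → Bool)
    (h2 : ∀ x y : Fin (2 * k + 1), s.J ≤ (x : ℕ) → s.J ≤ (y : ℕ) → x < y → A x ≠ s.above y x)
    (l : Fin (2 * k + 1)) (hl : s.J ≤ (l : ℕ)) :
    fval s.pos l = (l : ℕ) - k ∨ fval s.pos l = min (l : ℕ) k := by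
  have hn := fun z : Fin (2 * k + 1) => (s.pos z).2
  have hb := s.block
  have key : ∀ x y : Fin (2 * k + 1), s.J ≤ (x : ℕ) → x < y →
      (A x = true ↔ (s.pos x : ℕ) < s.pos y) := by
    intro x y hx hxy
    have hy : s.J ≤ (y : ℕ) := by
      have : (x : ℕ) < y := hxy
      omega
    have h := h2 x y hx hy hxy
    rw [above_right s hy] at h
    have hne := pos_ne s (ne_of_lt hxy)
    by_cases hA : A x = true
    · rw [hA] at h
      have : ¬ ((s.pos y : ℕ) < s.pos x) := by simpa using h
      constructor
      · intro _; omega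
      · intro _; exact hA
    · have hA' : A x = false := by simpa using hA
      rw [hA'] at h
      have : (s.pos y : ℕ) < s.pos x := by simpa using h
      constructor
      · intro h'; exact absurd h' hA
      · intro h'; omega
  by_cases hAl : A l = true
  · left
    apply fval_large_first
    intro y x hyl hlx
    rw [off_eq, off_eq]
    have h1 : (s.pos l : ℕ) < s.pos x := (key l x hl hlx).1 hAl
    have hlb : (s.pos l : ℕ) < 2 * k + 1 - s.J := (hb l).1 hl
    have hxb : (s.pos x : ℕ) < 2 * k + 1 - s.J := (hb x).1 (by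
      have : (l : ℕ) < x := hlx
      omega)
    by_cases hyJ : s.J ≤ (y : ℕ)
    · have hne := pos_ne s (ne_of_lt hyl)
      by_cases hpy : (s.pos y : ℕ) < s.pos l
      · have := hn x
        have := hn y
        rw [if_pos h1.le, if_neg (by omega)]
        omega
      · have hA : ¬ A y = true := by
          intro h'
          have := (key y l hyJ hyl).1 h'
          omega
        have h3 : ¬ (s.pos y : ℕ) < s.pos x := fun h' => hA ((key y x hyJ (hyl.trans hlx)).2 h')
        have hne2 := pos_ne s (ne_of_lt (hyl.trans hlx))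
        rw [if_pos h1.le, if_pos (by omega)]
        omega
    · have : (2 * k + 1 - s.J) ≤ (s.pos y : ℕ) := by
        by_contra hc
        exact hyJ ((hb y).2 (by omega))
      rw [if_pos h1.le, if_pos (by omega)]
      omega
  · right
    apply fval_small_first
    intro y x hyl hlx
    rw [off_eq, off_eq]
    have hAl' : ¬ (s.pos l : ℕ) < s.pos x := fun h' => hAl ((key l x hl hlx).2 h')
    have hnelx := pos_ne s (ne_of_lt hlx)
    have hlb : (s.pos l : ℕ) < 2 * k + 1 - s.J := (hb l).1 hl
    rw [if_neg (by omega : ¬ (s.pos l : ℕ) ≤ s.pos x)]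
    by_cases hpy : (s.pos y : ℕ) < s.pos l
    · have hyJ : s.J ≤ (y : ℕ) := (hb y).2 (by omega)
      have hne := pos_ne s (ne_of_lt hyl)
      have hA : A y = true := (key y l hyJ hyl).2 hpy
      have h3 : (s.pos y : ℕ) < s.pos x := (key y x hyJ (hyl.trans hlx)).1 hA
      rw [if_neg (by omega : ¬ (s.pos l : ℕ) ≤ s.pos y)]
      omega
    · have := hn y
      have := hn x
      rw [if_pos (by omega : (s.pos l : ℕ) ≤ s.pos y)]
      omega

/-- Left side: without clause 6 every pivot on the left of `r` has extreme `fval`. -/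
theorem extreme_left (r : Star k) (A : Fin (2 * k + 1) → Bool)
    (h6 : ∀ x y : Fin (2 * k + 1), (x : ℕ) < r.J → (y : ℕ) < r.J → x < y → A y ≠ r.above x y)
    (l : Fin (2 * k + 1)) (hl : (l : ℕ) < r.J) :
    fval r.pos l = (l : ℕ) - k ∨ fval r.pos l = min (l : ℕ) k := by
  have hn := fun z : Fin (2 * k + 1) => (r.pos z).2
  have hb := r.block
  have key : ∀ x y : Fin (2 * k + 1), (y : ℕ) < r.J → x < y →
      (A y = true ↔ (r.pos x : ℕ) < r.pos y) := by
    intro x y hy hxy
    have hx : (x : ℕ) < r.J := by
      have : (x : ℕ) < y := hxy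
      omega
    have h := h6 x y hx hy hxy
    rw [above_left r hx] at h
    have hne := pos_ne r (ne_of_lt hxy)
    by_cases hA : A y = true
    · rw [hA] at h
      have : ¬ ((r.pos y : ℕ) < r.pos x) := by simpa using h
      constructor
      · intro _; omega
      · intro _; exact hA
    · have hA' : A y = false := by simpa using hA
      rw [hA'] at h
      have : (r.pos y : ℕ) < r.pos x := by simpa using h
      constructor
      · intro h'; exact absurd h' hA
      · intro h'; omega
  have hlb : 2 * k + 1 - r.J ≤ (r.pos l : ℕ) := by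
    by_contra hc
    have := (hb l).2 (by omega)
    omega
  by_cases hAl : A l = true
  · left
    apply fval_large_first
    intro y x hyl hlx
    rw [off_eq, off_eq]
    have h1 : (r.pos y : ℕ) < r.pos l := (key y l hl hyl).1 hAl
    rw [if_neg (by omega : ¬ (r.pos l : ℕ) ≤ r.pos y)]
    have hybl : (y : ℕ) < r.J := by
      have : (y : ℕ) < l := hyl
      omega
    have hyb : 2 * k + 1 - r.J ≤ (r.pos y : ℕ) := by
      by_contra hc
      have := (hb y).2 (by omega)
      omega
    have hne := pos_ne r (ne_of_lt hlx)
    by_cases hpx : (r.pos l : ℕ) < r.pos x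
    · have := hn x
      have := hn y
      rw [if_pos (by omega : (r.pos l : ℕ) ≤ r.pos x)]
      omega
    · rw [if_neg (by omega : ¬ (r.pos l : ℕ) ≤ r.pos x)]
      by_cases hxJ : (x : ℕ) < r.J
      · have hA : ¬ A x = true := by
          intro h'
          have := (key l x hxJ hlx).1 h'
          omega
        have h3 : ¬ (r.pos y : ℕ) < r.pos x := fun h' => hA ((key y x hxJ (hyl.trans hlx)).2 h')
        have hne2 := pos_ne r (ne_of_lt (hyl.trans hlx))
        have := hn x
        omega
      · have hxb : (r.pos x : ℕ) < 2 * k + 1 - r.J := (hb x).1 (by omega)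
        omega
  · right
    apply fval_small_first
    intro y x hyl hlx
    rw [off_eq, off_eq]
    have h1 : ¬ (r.pos y : ℕ) < r.pos l := fun h' => hAl ((key y l hl hyl).2 h')
    have hne := pos_ne r (ne_of_lt hyl)
    rw [if_pos (by omega)]
    by_cases hpx : (r.pos l : ℕ) < r.pos x
    · have hxJ : (x : ℕ) < r.J := by
        by_contra hc
        have hxb : (r.pos x : ℕ) < 2 * k + 1 - r.J := (hb x).1 (by omega)
        omega
      have hA : A x = true := (key l x hxJ hlx).2 hpx
      have h3 : (r.pos y : ℕ) < r.pos x := (key y x hxJ (hyl.trans hlx)).1 hA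
      rw [if_pos (by omega)]
      omega
    · have hne2 := pos_ne r (ne_of_lt hlx)
      have := hn y
      have := hn x
      rw [if_neg (by omega)]
      omega

end Vale.Agent.Lib.P040Z.CanonExtreme
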