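import Vale.Agent.Lib.P040Z.Canon

/-!
The canonical pair of stars has no forced pair other than the pairs with equal spins.
-/

namespace Vale.Agent.Lib.P040Z

open Finset

variable {k : ℕ}

section
variable (r s : Star k) (A : Fin (2 * k + 1) → Bool) (hJ : r.J ≤ s.J)

theorem canon_hC1 {x y : Fin (2 * k + 1)} (hx : s.J ≤ (x : ℕ)) (hy : r.J ≤ (y : ℕ)) (hyx : y < x) :
    (((canonC r s A hJ).pos x : ℕ) < (canonC r s A hJ).pos y) ↔ A x = true := by
  rw [canonC_lt]
  have hxy : (y : ℕ) < x := hyx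
  have h3 := (r.pos y).2
  simp only [keyC]
  by_cases hAx : A x = true <;> by_cases hsy : s.J ≤ (y : ℕ) <;> by_cases hAy : A y = true <;>
    simp only [hx, hAx, hsy, hAy, hy, if_true, if_false] <;> simp <;> omega

theorem canon_hC2 {x y : Fin (2 * k + 1)} (hx : r.J ≤ (x : ℕ)) (hx' : (x : ℕ) < s.J)
    (hy : r.J ≤ (y : ℕ)) (hy' : (y : ℕ) < s.J) :
    (((canonC r s A hJ).pos x : ℕ) < (canonC r s A hJ).pos y) ↔ ((r.pos x : ℕ) < r.pos y) := by
  rw [canonC_lt]
  simp only [keyC]
  have a1 : ¬ s.J ≤ (x : ℕ) := by omega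
  have a2 : ¬ s.J ≤ (y : ℕ) := by omega
  simp only [a1, a2, hx, hy, if_true, if_false]
  omega

theorem canon_hC3 {x y : Fin (2 * k + 1)} (hxy : x < y) (hy : (y : ℕ) < r.J) :
    (((canonC r s A hJ).pos x : ℕ) < (canonC r s A hJ).pos y) ↔ A y = true := by
  rw [canonC_lt]
  have hxy' : (x : ℕ) < y := hxy
  simp only [keyC]
  have a1 : ¬ s.J ≤ (x : ℕ) := by omega
  have a2 : ¬ s.J ≤ (y : ℕ) := by omega
  have a3 : ¬ r.J ≤ (x : ℕ) := by omega
  have a4 : ¬ r.J ≤ (y : ℕ) := by omega
  have hy2 := y.2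
  by_cases hAx : A x = true <;> by_cases hAy : A y = true <;>
    simp only [a1, a2, a3, a4, hAx, hAy, if_true, if_false] <;> simp <;> omega

theorem canon_hD1 {x y : Fin (2 * k + 1)} (hx : s.J ≤ (x : ℕ)) (hxy : x < y) :
    (((canonD r s A hJ).pos y : ℕ) < (canonD r s A hJ).pos x) ↔ A x = false := by
  rw [canonD_lt]
  have hxy' : (x : ℕ) < y := hxy
  simp only [keyD]
  have a2 : s.J ≤ (y : ℕ) := by omega
  have hy2 := y.2
  by_cases hAx : A x = true <;> by_cases hAy : A y = true <;>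
    simp only [hx, a2, hAx, hAy, if_true, if_false] <;> simp <;> omega

theorem canon_hD2 {x y : Fin (2 * k + 1)} (hyx : y < x) (hx : (x : ℕ) < s.J) (hy : (y : ℕ) < r.J) :
    (((canonD r s A hJ).pos x : ℕ) < (canonD r s A hJ).pos y) ↔ A y = true := by
  rw [canonD_lt]
  have hyx' : (y : ℕ) < x := hyx
  simp only [keyD]
  have a1 : ¬ s.J ≤ (x : ℕ) := by omega
  have a2 : ¬ s.J ≤ (y : ℕ) := by omega
  have a3 : ¬ r.J ≤ (y : ℕ) := by omega
  have hx2 := x.2
  have hp := (r.pos x).2
  by_cases hrx : r.J ≤ (x : ℕ) <;> by_cases hAx : A x = true <;> by_cases hAy : A y = true <;>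
    simp only [a1, a2, a3, hrx, hAx, hAy, if_true, if_false] <;> simp <;> omega

theorem canon_hD3 {x y : Fin (2 * k + 1)} (hy : r.J ≤ (y : ℕ)) (hyx : y < x) (hx : (x : ℕ) < s.J) :
    (((canonD r s A hJ).pos y : ℕ) < (canonD r s A hJ).pos x) ↔ ((r.pos x : ℕ) < r.pos y) := by
  rw [canonD_lt]
  have hyx' : (y : ℕ) < x := hyx
  simp only [keyD]
  have a1 : ¬ s.J ≤ (x : ℕ) := by omega
  have a2 : ¬ s.J ≤ (y : ℕ) := by omega
  have a3 : r.J ≤ (x : ℕ) := by omega
  simp only [a1, a2, a3, hy, if_true, if_false]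
  omega

/-- The only forced pairs of the canonical pair are those with equal spins on opposite sides. -/
theorem canon_forced (x y : Fin (2 * k + 1))
    (h : forced (canonC r s A hJ) (canonD r s A hJ) A x y) :
    s.J ≤ (x : ℕ) ∧ (y : ℕ) < r.J ∧ A x = A y := by
  have hCJ : (canonC r s A hJ).J = r.J := rfl
  have hDJ : (canonD r s A hJ).J = s.J := rfl
  rcases h with ⟨h1, h2, h3, h4⟩ | ⟨h1, h2, h3, h4⟩ | h | ⟨h1, h2, h3, h5, h6, h4⟩ | ⟨h1, h2, h3, h4⟩ |
    ⟨h1, h2, h3, h4⟩
  · exfalso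
    rw [hDJ] at h1
    rw [hCJ] at h2
    apply h4
    rw [Star.above_right _ y (by rw [hCJ]; omega)]
    have := canon_hC1 r s A hJ h1 h2 h3
    cases hA : A x
    · have h' : ¬ (((canonC r s A hJ).pos x : ℕ) < (canonC r s A hJ).pos y) := by
        rw [this, hA]; simp
      simp [h']
    · have h' : (((canonC r s A hJ).pos x : ℕ) < (canonC r s A hJ).pos y) := by
        rw [this, hA]
      simp [h']
  · exfalso
    rw [hDJ] at h1 h2
    have := canon_hD1 r s A hJ h1 h3
    rw [Star.above_right _ x (by rw [hDJ]; exact h2)] at h4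
    cases hA : A x
    · have h' : (((canonD r s A hJ).pos y : ℕ) < (canonD r s A hJ).pos x) := by
        rw [this, hA]
      rw [hA] at h4
      simp [h'] at h4
    · have h' : ¬ (((canonD r s A hJ).pos y : ℕ) < (canonD r s A hJ).pos x) := by
        rw [this, hA]; simp
      rw [hA] at h4
      simp [h'] at h4
  · exact h
  · exfalso
    rw [hCJ] at h1 h3
    rw [hDJ] at h2 h5
    rw [Star.above_right _ y (by rw [hCJ]; exact h1),
      Star.above_left _ x (by rw [hDJ]; exact h5)] at h4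
    have e1 := canon_hC2 r s A hJ h1 h2 h3 h5
    have e2 := canon_hD3 r s A hJ h3 h6 h2
    have hne : x ≠ y := ne_of_gt h6
    have hp : (((canonD r s A hJ).pos x : ℕ) ≠ (canonD r s A hJ).pos y) :=
      fun e => hne ((canonD r s A hJ).pos.injective (Fin.ext e))
    by_cases hc : ((r.pos x : ℕ) < r.pos y)
    · have a1 := e1.mpr hc
      have a2 := e2.mpr hc
      have a3 : ¬ (((canonD r s A hJ).pos x : ℕ) < (canonD r s A hJ).pos y) := by omega
      simp [a1, a3] at h4
    · have a1 : ¬ _ := fun h' => hc (e1.mp h')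
      have a2 : ¬ _ := fun h' => hc (e2.mp h')
      have a3 : (((canonD r s A hJ).pos x : ℕ) < (canonD r s A hJ).pos y) := by omega
      simp [a1, a3] at h4
  · exfalso
    rw [hDJ] at h1
    rw [hCJ] at h2
    apply h4
    rw [Star.above_left _ x (by rw [hDJ]; omega)]
    have := canon_hD2 r s A hJ h3 h1 h2
    cases hA : A y
    · have h' : ¬ (((canonD r s A hJ).pos x : ℕ) < (canonD r s A hJ).pos y) := by
        rw [this, hA]; simp
      simp [h']
    · have h' : (((canonD r s A hJ).pos x : ℕ) < (canonD r s A hJ).pos y) := by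
        rw [this, hA]
      simp [h']
  · exfalso
    rw [hCJ] at h1 h2
    rw [Star.above_left _ y (by rw [hCJ]; exact h1)] at h4
    have := canon_hC3 r s A hJ h3 h2
    have hne : x ≠ y := ne_of_lt h3
    have hp : (((canonC r s A hJ).pos x : ℕ) ≠ (canonC r s A hJ).pos y) :=
      fun e => hne ((canonC r s A hJ).pos.injective (Fin.ext e))
    cases hA : A y
    · have h' : ¬ (((canonC r s A hJ).pos x : ℕ) < (canonC r s A hJ).pos y) := by
        rw [this, hA]; simp
      have h'' : (((canonC r s A hJ).pos y : ℕ) < (canonC r s A hJ).pos x) := by omega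
      rw [hA] at h4
      simp [h''] at h4
    · have h' : (((canonC r s A hJ).pos x : ℕ) < (canonC r s A hJ).pos y) := by
        rw [this, hA]
      have h'' : ¬ (((canonC r s A hJ).pos y : ℕ) < (canonC r s A hJ).pos x) := by omega
      rw [hA] at h4
      simp [h''] at h4

end

end Vale.Agent.Lib.P040Z
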