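import Vale.Agent.Lib.P040Z.Defs

/-!
Triangle inequality in the cube of bits: `agree` moves at most by the distance of the `fval`s.
-/

namespace Vale.Agent.Lib.P040Z.Cube

open Finset

variable {k : ℕ}

/-- Two thermometer codes with the same `J` differ in at most `|f - f'|` bits. -/
theorem bit_diff_card (T C : Star k) (hJ : T.J = C.J) (l : Fin (2 * k + 1)) :
    ((range (wid k l)).filter fun i => T.bit l i ≠ C.bit l i).card
      ≤ ((fval T.pos l : ℤ) - fval C.pos l).natAbs := by
  set u := uval T.pos l with hu
  set v := uval C.pos l with hv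
  have huv : ((u : ℤ) - v).natAbs ≤ ((fval T.pos l : ℤ) - fval C.pos l).natAbs := by
    have h1 : u = fval T.pos l - ((l : ℕ) - k) := rfl
    have h2 : v = fval C.pos l - ((l : ℕ) - k) := rfl
    omega
  refine le_trans ?_ huv
  by_cases hl : T.J ≤ (l : ℕ)
  · have hl' : C.J ≤ (l : ℕ) := hJ ▸ hl
    have hsub : ((range (wid k l)).filter fun i => T.bit l i ≠ C.bit l i)
        ⊆ Finset.Ico (min u v) (max u v) := by
      intro i hi
      have hne := (Finset.mem_filter.mp hi).2
      simp only [Star.bit, if_pos hl, if_pos hl', ne_eq, decide_eq_decide] at hne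
      rw [Finset.mem_Ico]
      omega
    refine (Finset.card_le_card hsub).trans ?_
    rw [Nat.card_Ico]
    omega
  · have hl' : ¬ C.J ≤ (l : ℕ) := hJ ▸ hl
    have hsub : ((range (wid k l)).filter fun i => T.bit l i ≠ C.bit l i)
        ⊆ ((Finset.Ioc (min u v) (max u v)).image fun j => wid k l - j) := by
      intro i hi
      have hmem := (Finset.mem_filter.mp hi)
      have hne := hmem.2
      have hi' : i < wid k l := Finset.mem_range.mp hmem.1
      simp only [Star.bit, if_neg hl, if_neg hl', ne_eq, decide_eq_decide] at hne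
      refine Finset.mem_image.mpr ⟨wid k l - i, ?_, by omega⟩
      rw [Finset.mem_Ioc]
      omega
    refine (Finset.card_le_card hsub).trans (Finset.card_image_le.trans ?_)
    rw [Nat.card_Ioc]
    omega

/-- One pivot of the triangle inequality. -/
theorem agree_pivot_le (T T' C C' : Star k) (hJ : T.J = C.J) (hJ' : T'.J = C'.J)
    (l : Fin (2 * k + 1)) :
    ((range (wid k l)).filter fun i => T.bit l i = T'.bit l i).card
      ≤ ((range (wid k l)).filter fun i => C.bit l i = C'.bit l i).card
        + ((fval T.pos l : ℤ) - fval C.pos l).natAbs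
        + ((fval T'.pos l : ℤ) - fval C'.pos l).natAbs := by
  have h1 := bit_diff_card T C hJ l
  have h2 := bit_diff_card T' C' hJ' l
  refine le_trans ?_ (Nat.add_le_add (Nat.add_le_add_left h1 _) h2)
  have hsub : ((range (wid k l)).filter fun i => T.bit l i = T'.bit l i)
      ⊆ (((range (wid k l)).filter fun i => C.bit l i = C'.bit l i)
          ∪ ((range (wid k l)).filter fun i => T.bit l i ≠ C.bit l i))
        ∪ ((range (wid k l)).filter fun i => T'.bit l i ≠ C'.bit l i) := by
    intro i hi
    have hmem := Finset.mem_filter.mp hi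
    simp only [Finset.mem_union, Finset.mem_filter]
    by_cases h3 : T.bit l i = C.bit l i
    · by_cases h4 : T'.bit l i = C'.bit l i
      · exact Or.inl (Or.inl ⟨hmem.1, by rw [← h3, ← h4]; exact hmem.2⟩)
      · exact Or.inr ⟨hmem.1, h4⟩
    · exact Or.inl (Or.inr ⟨hmem.1, h3⟩)
  refine (Finset.card_le_card hsub).trans ((Finset.card_union_le _ _).trans ?_)
  exact Nat.add_le_add_right (Finset.card_union_le _ _) _

/-- **Triangle inequality in the cube of bits.** -/
theorem agree_triangle (T T' C C' : Star k) (hJ : T.J = C.J) (hJ' : T'.J = C'.J) :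
    agree T T' ≤ agree C C'
      + ∑ l : Fin (2 * k + 1), ((fval T.pos l : ℤ) - fval C.pos l).natAbs
      + ∑ l : Fin (2 * k + 1), ((fval T'.pos l : ℤ) - fval C'.pos l).natAbs := by
  unfold agree
  rw [← Finset.sum_add_distrib, ← Finset.sum_add_distrib]
  exact Finset.sum_le_sum fun l _ => agree_pivot_le T T' C C' hJ hJ' l

end Vale.Agent.Lib.P040Z.Cube
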