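import Vale.Agent.Lib.P040Z.Defs

/-!
For fixed spins, the forced pairs of two stars split into the inversions of each star against an
explicit canonical star, plus the pairs with equal spins on opposite sides.
-/

namespace Vale.Agent.Lib.P040Z

open Finset

variable {k : ℕ}

/-- Kendall distance between two rotations (as positions of elements). -/
def kd (s t : Fin (2 * k + 1) ≃ Fin (2 * k + 1)) : ℕ :=
  ((univ : Finset (Fin (2 * k + 1) × Fin (2 * k + 1))).filter fun p =>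
    p.1 < p.2 ∧ (((s p.1 : ℕ) < s p.2) ↔ ¬ ((t p.1 : ℕ) < t p.2))).card

theorem pos_lt_flip (s : Fin (2 * k + 1) ≃ Fin (2 * k + 1)) {a b : Fin (2 * k + 1)} (hab : a ≠ b) :
    ((s a : ℕ) < s b) ↔ ¬ ((s b : ℕ) < s a) := by
  have h : (s a : ℕ) ≠ s b := fun e => hab (s.injective (Fin.ext e))
  omega

theorem Star.above_right (T : Star k) {x : Fin (2 * k + 1)} (y : Fin (2 * k + 1))
    (h : T.J ≤ (x : ℕ)) : T.above x y = decide ((T.pos x : ℕ) < T.pos y) := by
  simp [Star.above, h]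

theorem Star.above_left (T : Star k) {x : Fin (2 * k + 1)} (y : Fin (2 * k + 1))
    (h : (x : ℕ) < T.J) : T.above x y = decide ((T.pos y : ℕ) < T.pos x) := by
  have : ¬ T.J ≤ (x : ℕ) := by omega
  simp [Star.above, this]

theorem Star.cross (T : Star k) {a b : Fin (2 * k + 1)} (ha : (a : ℕ) < T.J) (hb : T.J ≤ (b : ℕ)) :
    (T.pos b : ℕ) < T.pos a := by
  have h1 := (T.block b).mp hb
  have h2 : ¬ (T.pos a : ℕ) < 2 * k + 1 - T.J := fun h => by
    have := (T.block a).mpr h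
    omega
  omega

section
variable (r s C C' : Star k) (A : Fin (2 * k + 1) → Bool)

/-- The forced pairs of `r` charged to inversions of `r`. -/
def P1 (p : Fin (2 * k + 1) × Fin (2 * k + 1)) : Prop :=
  (s.J ≤ (p.1 : ℕ) ∧ r.J ≤ (p.2 : ℕ) ∧ p.2 < p.1 ∧ A p.1 ≠ r.above p.1 p.2) ∨
  ((p.1 : ℕ) < r.J ∧ (p.2 : ℕ) < r.J ∧ p.1 < p.2 ∧ A p.2 = r.above p.1 p.2)

/-- The forced pairs charged to inversions of `s`. -/
def P2 (p : Fin (2 * k + 1) × Fin (2 * k + 1)) : Prop :=
  (s.J ≤ (p.1 : ℕ) ∧ s.J ≤ (p.2 : ℕ) ∧ p.1 < p.2 ∧ A p.1 = s.above p.2 p.1) ∨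
  ((p.1 : ℕ) < s.J ∧ (p.2 : ℕ) < r.J ∧ p.2 < p.1 ∧ A p.2 ≠ s.above p.2 p.1) ∨
  (r.J ≤ (p.1 : ℕ) ∧ (p.1 : ℕ) < s.J ∧ r.J ≤ (p.2 : ℕ) ∧ (p.2 : ℕ) < s.J ∧ p.2 < p.1 ∧
    r.above p.1 p.2 = s.above p.2 p.1)

/-- The pairs with equal spins on opposite sides. -/
def P3 (p : Fin (2 * k + 1) × Fin (2 * k + 1)) : Prop :=
  s.J ≤ (p.1 : ℕ) ∧ (p.2 : ℕ) < r.J ∧ A p.1 = A p.2

end

open Classical in
theorem sum_P_le (r s : Star k) (A : Fin (2 * k + 1) → Bool) (hJ : r.J ≤ s.J) :
    ((univ : Finset (Fin (2 * k + 1) × Fin (2 * k + 1))).filter (P1 r s A)).card +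
      ((univ : Finset (Fin (2 * k + 1) × Fin (2 * k + 1))).filter (P2 r s A)).card +
      ((univ : Finset (Fin (2 * k + 1) × Fin (2 * k + 1))).filter (P3 r s A)).card
      ≤ ((univ : Finset (Fin (2 * k + 1) × Fin (2 * k + 1))).filter
          fun p => forced r s A p.1 p.2).card := by
  simp only [Finset.card_filter]
  rw [← Finset.sum_add_distrib, ← Finset.sum_add_distrib]
  refine Finset.sum_le_sum fun p _ => ?_
  by_cases h1 : P1 r s A p
  · have h2 : ¬ P2 r s A p := by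
      intro h2
      rcases h1 with ⟨a1, a2, a3, _⟩ | ⟨a1, a2, a3, _⟩ <;>
        rcases h2 with ⟨b1, b2, b3, _⟩ | ⟨b1, b2, b3, _⟩ | ⟨b1, b2, b3, b4, b5, _⟩ <;>
        simp only [Fin.lt_def] at * <;> omega
    have h3 : ¬ P3 r s A p := by
      intro h3
      rcases h1 with ⟨a1, a2, a3, _⟩ | ⟨a1, a2, a3, _⟩ <;> rcases h3 with ⟨b1, b2, _⟩ <;>
        simp only [Fin.lt_def] at * <;> omega
    have hf : forced r s A p.1 p.2 := by
      rcases h1 with ⟨a1, a2, a3, a4⟩ | ⟨a1, a2, a3, a4⟩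
      · exact Or.inl ⟨a1, a2, a3, a4⟩
      · exact Or.inr (Or.inr (Or.inr (Or.inr (Or.inr ⟨a1, a2, a3, a4⟩))))
    simp [h1, h2, h3, hf]
  · by_cases h2 : P2 r s A p
    · have h3 : ¬ P3 r s A p := by
        intro h3
        rcases h2 with ⟨a1, a2, a3, _⟩ | ⟨a1, a2, a3, _⟩ | ⟨a1, a2, a3, a4, a5, _⟩ <;>
          rcases h3 with ⟨b1, b2, _⟩ <;> simp only [Fin.lt_def] at * <;> omega
      have hf : forced r s A p.1 p.2 := by
        rcases h2 with ⟨a1, a2, a3, a4⟩ | ⟨a1, a2, a3, a4⟩ | ⟨a1, a2, a3, a4, a5, a6⟩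
        · exact Or.inr (Or.inl ⟨a1, a2, a3, a4⟩)
        · exact Or.inr (Or.inr (Or.inr (Or.inr (Or.inl ⟨a1, a2, a3, a4⟩))))
        · exact Or.inr (Or.inr (Or.inr (Or.inl ⟨a1, a2, a3, a4, a5, a6⟩)))
      simp [h1, h2, h3, hf]
    · by_cases h3 : P3 r s A p
      · have hf : forced r s A p.1 p.2 := by
          rcases h3 with ⟨a1, a2, a3⟩
          exact Or.inr (Or.inr (Or.inl ⟨a1, a2, a3⟩))
        simp [h1, h2, h3, hf]
      · simp [h1, h2, h3]

open Classical in
/-- Inversions of `r` against the canonical `C`. -/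
theorem kd_r_le (r s C : Star k) (A : Fin (2 * k + 1) → Bool) (hJ : r.J ≤ s.J) (hCJ : C.J = r.J)
    (hC1 : ∀ x y : Fin (2 * k + 1), s.J ≤ (x : ℕ) → r.J ≤ (y : ℕ) → y < x →
      (((C.pos x : ℕ) < C.pos y) ↔ A x = true))
    (hC2 : ∀ x y : Fin (2 * k + 1), r.J ≤ (x : ℕ) → (x : ℕ) < s.J → r.J ≤ (y : ℕ) → (y : ℕ) < s.J →
      (((C.pos x : ℕ) < C.pos y) ↔ ((r.pos x : ℕ) < r.pos y)))
    (hC3 : ∀ x y : Fin (2 * k + 1), x < y → (y : ℕ) < r.J →
      (((C.pos x : ℕ) < C.pos y) ↔ A y = true)) :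
    kd r.pos C.pos ≤ ((univ : Finset (Fin (2 * k + 1) × Fin (2 * k + 1))).filter (P1 r s A)).card := by
  unfold kd
  refine Finset.card_le_card_of_injOn
    (fun p => if s.J ≤ (p.2 : ℕ) then (p.2, p.1) else p) ?_ ?_
  · intro p hp
    simp only [coe_filter, mem_univ, true_and, Set.mem_ofPred_eq] at hp ⊢
    obtain ⟨hlt, hdis⟩ := hp
    have hne : p.1 ≠ p.2 := ne_of_lt hlt
    have hltN : (p.1 : ℕ) < p.2 := hlt
    by_cases hb : (p.2 : ℕ) < r.J
    · -- both on the left of `r`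
      have hnot : ¬ s.J ≤ (p.2 : ℕ) ∨ s.J ≤ (p.2 : ℕ) := by omega
      by_cases hs : s.J ≤ (p.2 : ℕ)
      · -- impossible unless `s.J < r.J`: then still a pair of the first kind fails; handle below
        simp only [hs, if_true]
        -- `s.J ≤ p.2 < r.J`
        exfalso
        omega
      · simp only [hs, if_false]
        refine Or.inr ⟨by omega, hb, hlt, ?_⟩
        have h3 := hC3 p.1 p.2 hlt hb
        rw [Star.above_left r p.2 (by omega : (p.1 : ℕ) < r.J)]
        have hf := pos_lt_flip r.pos hne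
        cases hA : A p.2
        · have : ¬ ((C.pos p.1 : ℕ) < C.pos p.2) := by rw [h3, hA]; simp
          have h4 : ((r.pos p.1 : ℕ) < r.pos p.2) := hdis.mpr this
          have h5 : ¬ ((r.pos p.2 : ℕ) < r.pos p.1) := by omega
          simp [h5]
        · have : ((C.pos p.1 : ℕ) < C.pos p.2) := by rw [h3, hA]
          have h4 : ¬ ((r.pos p.1 : ℕ) < r.pos p.2) := fun h => (hdis.mp h) this
          have h5 : ((r.pos p.2 : ℕ) < r.pos p.1) := by
            have : (r.pos p.1 : ℕ) ≠ r.pos p.2 := fun e => hne (r.pos.injective (Fin.ext e))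
            omega
          simp [h5]
    · by_cases ha : (p.1 : ℕ) < r.J
      · exfalso
        have h1 := r.cross ha (by omega : r.J ≤ (p.2 : ℕ))
        have h2 := C.cross (by omega : (p.1 : ℕ) < C.J) (by omega : C.J ≤ (p.2 : ℕ))
        have h3 : ¬ ((r.pos p.1 : ℕ) < r.pos p.2) := by omega
        have h4 : ¬ ((C.pos p.1 : ℕ) < C.pos p.2) := by omega
        exact h3 (hdis.mpr h4)
      · by_cases hs : s.J ≤ (p.2 : ℕ)
        · simp only [hs, if_true]
          refine Or.inl ⟨hs, (by omega : r.J ≤ (p.1 : ℕ)), hlt, ?_⟩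
          show A p.2 ≠ r.above p.2 p.1
          have h1 := hC1 p.2 p.1 hs (by omega) hlt
          rw [Star.above_right r p.1 (by omega : r.J ≤ (p.2 : ℕ))]
          have hC' : (C.pos p.1 : ℕ) ≠ C.pos p.2 := fun e => hne (C.pos.injective (Fin.ext e))
          have hr' : (r.pos p.1 : ℕ) ≠ r.pos p.2 := fun e => hne (r.pos.injective (Fin.ext e))
          cases hA : A p.2
          · have h2 : ¬ ((C.pos p.2 : ℕ) < C.pos p.1) := by rw [h1, hA]; simp
            have h3 : ((C.pos p.1 : ℕ) < C.pos p.2) := by omega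
            have h4 : ¬ ((r.pos p.1 : ℕ) < r.pos p.2) := fun h => (hdis.mp h) h3
            have h5 : ((r.pos p.2 : ℕ) < r.pos p.1) := by omega
            simp [h5]
          · have h2 : ((C.pos p.2 : ℕ) < C.pos p.1) := by rw [h1, hA]
            have h3 : ¬ ((C.pos p.1 : ℕ) < C.pos p.2) := by omega
            have h4 : ((r.pos p.1 : ℕ) < r.pos p.2) := hdis.mpr h3
            have h5 : ¬ ((r.pos p.2 : ℕ) < r.pos p.1) := by omega
            simp [h5]
        · exfalso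
          have h2 := hC2 p.1 p.2 (by omega) (by omega) (by omega) (by omega)
          by_cases h : ((r.pos p.1 : ℕ) < r.pos p.2)
          · exact (hdis.mp h) (h2.mpr h)
          · exact h (hdis.mpr (fun h' => h (h2.mp h')))
  · intro p hp q hq hpq
    simp only [coe_filter, mem_univ, true_and, Set.mem_ofPred_eq] at hp hq
    have h1 : p.1 < p.2 := hp.1
    have h2 : q.1 < q.2 := hq.1
    simp only at hpq
    by_cases hs : s.J ≤ (p.2 : ℕ) <;> by_cases hs' : s.J ≤ (q.2 : ℕ) <;>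
      simp only [hs, hs', if_true, if_false] at hpq
    · exact Prod.ext (Prod.ext_iff.mp hpq).2 (Prod.ext_iff.mp hpq).1
    · exfalso
      have e1 := (Prod.ext_iff.mp hpq).1
      have e2 := (Prod.ext_iff.mp hpq).2
      simp only at e1 e2
      rw [e1, e2] at h1
      exact lt_asymm h1 h2
    · exfalso
      have e1 := (Prod.ext_iff.mp hpq).1
      have e2 := (Prod.ext_iff.mp hpq).2
      simp only at e1 e2
      rw [← e1, ← e2] at h2
      exact lt_asymm h1 h2
    · exact hpq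

open Classical in
/-- Inversions of `s` against the canonical `C'`. -/
theorem kd_s_le (r s C' : Star k) (A : Fin (2 * k + 1) → Bool) (hJ : r.J ≤ s.J) (hCJ : C'.J = s.J)
    (hD1 : ∀ x y : Fin (2 * k + 1), s.J ≤ (x : ℕ) → x < y →
      (((C'.pos y : ℕ) < C'.pos x) ↔ A x = false))
    (hD2 : ∀ x y : Fin (2 * k + 1), y < x → (x : ℕ) < s.J → (y : ℕ) < r.J →
      (((C'.pos x : ℕ) < C'.pos y) ↔ A y = true))
    (hD3 : ∀ x y : Fin (2 * k + 1), r.J ≤ (y : ℕ) → y < x → (x : ℕ) < s.J →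
      (((C'.pos y : ℕ) < C'.pos x) ↔ ((r.pos x : ℕ) < r.pos y))) :
    kd s.pos C'.pos ≤ ((univ : Finset (Fin (2 * k + 1) × Fin (2 * k + 1))).filter (P2 r s A)).card := by
  unfold kd
  refine Finset.card_le_card_of_injOn
    (fun p => if s.J ≤ (p.1 : ℕ) then p else (p.2, p.1)) ?_ ?_
  · intro p hp
    simp only [coe_filter, mem_univ, true_and, Set.mem_ofPred_eq] at hp ⊢
    obtain ⟨hlt, hdis⟩ := hp
    have hne : p.1 ≠ p.2 := ne_of_lt hlt
    have hltN : (p.1 : ℕ) < p.2 := hlt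
    have hC' : (C'.pos p.1 : ℕ) ≠ C'.pos p.2 := fun e => hne (C'.pos.injective (Fin.ext e))
    have hs' : (s.pos p.1 : ℕ) ≠ s.pos p.2 := fun e => hne (s.pos.injective (Fin.ext e))
    by_cases ha : s.J ≤ (p.1 : ℕ)
    · simp only [ha, if_true]
      refine Or.inl ⟨ha, by omega, hlt, ?_⟩
      rw [Star.above_right s p.1 (by omega : s.J ≤ (p.2 : ℕ))]
      have h1 := hD1 p.1 p.2 ha hlt
      cases hA : A p.1
      · have h2 : ((C'.pos p.2 : ℕ) < C'.pos p.1) := by rw [h1, hA]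
        have h3 : ¬ ((C'.pos p.1 : ℕ) < C'.pos p.2) := by omega
        have h4 : ((s.pos p.1 : ℕ) < s.pos p.2) := hdis.mpr h3
        have h5 : ¬ ((s.pos p.2 : ℕ) < s.pos p.1) := by omega
        simp [h5]
      · have h2 : ¬ ((C'.pos p.2 : ℕ) < C'.pos p.1) := by rw [h1, hA]; simp
        have h3 : ((C'.pos p.1 : ℕ) < C'.pos p.2) := by omega
        have h4 : ¬ ((s.pos p.1 : ℕ) < s.pos p.2) := fun h => (hdis.mp h) h3
        have h5 : ((s.pos p.2 : ℕ) < s.pos p.1) := by omega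
        simp [h5]
    · simp only [ha, if_false]
      by_cases hb : s.J ≤ (p.2 : ℕ)
      · exfalso
        have h1 := s.cross (by omega : (p.1 : ℕ) < s.J) hb
        have h2 := C'.cross (by omega : (p.1 : ℕ) < C'.J) (by omega : C'.J ≤ (p.2 : ℕ))
        have h3 : ¬ ((s.pos p.1 : ℕ) < s.pos p.2) := by omega
        have h4 : ¬ ((C'.pos p.1 : ℕ) < C'.pos p.2) := by omega
        exact h3 (hdis.mpr h4)
      · by_cases hr : (p.1 : ℕ) < r.J
        · refine Or.inr (Or.inl ⟨(by omega : (p.2 : ℕ) < s.J), hr, hlt, ?_⟩)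
          show A p.1 ≠ s.above p.1 p.2
          rw [Star.above_left s p.2 (by omega : (p.1 : ℕ) < s.J)]
          have h1 := hD2 p.2 p.1 hlt (by omega) hr
          cases hA : A p.1
          · have h2 : ¬ ((C'.pos p.2 : ℕ) < C'.pos p.1) := by rw [h1, hA]; simp
            have h3 : ((C'.pos p.1 : ℕ) < C'.pos p.2) := by omega
            have h4 : ¬ ((s.pos p.1 : ℕ) < s.pos p.2) := fun h => (hdis.mp h) h3
            have h5 : ((s.pos p.2 : ℕ) < s.pos p.1) := by omega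
            simp [h5]
          · have h2 : ((C'.pos p.2 : ℕ) < C'.pos p.1) := by rw [h1, hA]
            have h3 : ¬ ((C'.pos p.1 : ℕ) < C'.pos p.2) := by omega
            have h4 : ((s.pos p.1 : ℕ) < s.pos p.2) := hdis.mpr h3
            have h5 : ¬ ((s.pos p.2 : ℕ) < s.pos p.1) := by omega
            simp [h5]
        · refine Or.inr (Or.inr ⟨(by omega : r.J ≤ (p.2 : ℕ)), (by omega : (p.2 : ℕ) < s.J),
            (by omega : r.J ≤ (p.1 : ℕ)), (by omega : (p.1 : ℕ) < s.J), hlt, ?_⟩)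
          show r.above p.2 p.1 = s.above p.1 p.2
          rw [Star.above_right r p.1 (by omega : r.J ≤ (p.2 : ℕ)),
            Star.above_left s p.2 (by omega : (p.1 : ℕ) < s.J)]
          have h1 := hD3 p.2 p.1 (by omega) hlt (by omega)
          by_cases h : ((r.pos p.2 : ℕ) < r.pos p.1)
          · have h2 : ((C'.pos p.1 : ℕ) < C'.pos p.2) := h1.mpr h
            have h3 : ¬ ((s.pos p.1 : ℕ) < s.pos p.2) := fun h' => (hdis.mp h') h2
            have h4 : ((s.pos p.2 : ℕ) < s.pos p.1) := by omega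
            simp [h, h4]
          · have h2 : ¬ ((C'.pos p.1 : ℕ) < C'.pos p.2) := fun h' => h (h1.mp h')
            have h3 : ((s.pos p.1 : ℕ) < s.pos p.2) := hdis.mpr h2
            have h4 : ¬ ((s.pos p.2 : ℕ) < s.pos p.1) := by omega
            simp [h, h4]
  · intro p hp q hq hpq
    simp only [coe_filter, mem_univ, true_and, Set.mem_ofPred_eq] at hp hq
    have h1 : p.1 < p.2 := hp.1
    have h2 : q.1 < q.2 := hq.1
    simp only at hpq
    by_cases hs : s.J ≤ (p.1 : ℕ) <;> by_cases hs' : s.J ≤ (q.1 : ℕ) <;>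
      simp only [hs, hs', if_true, if_false] at hpq
    · exact hpq
    · exfalso
      have e1 := (Prod.ext_iff.mp hpq).1
      have e2 := (Prod.ext_iff.mp hpq).2
      simp only at e1 e2
      rw [e1, e2] at h1
      exact lt_asymm h1 h2
    · exfalso
      have e1 := (Prod.ext_iff.mp hpq).1
      have e2 := (Prod.ext_iff.mp hpq).2
      simp only at e1 e2
      rw [← e1, ← e2] at h2
      exact lt_asymm h1 h2
    · exact Prod.ext (Prod.ext_iff.mp hpq).2 (Prod.ext_iff.mp hpq).1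

open Classical in
/-- **Decomposition.** For any spins, the forced pairs are at least the two Kendall distances to the
canonical stars plus the pairs with equal spins on opposite sides. -/
theorem decomp (r s C C' : Star k) (A : Fin (2 * k + 1) → Bool) (hJ : r.J ≤ s.J)
    (hCJ : C.J = r.J) (hC'J : C'.J = s.J)
    (hC1 : ∀ x y : Fin (2 * k + 1), s.J ≤ (x : ℕ) → r.J ≤ (y : ℕ) → y < x →
      (((C.pos x : ℕ) < C.pos y) ↔ A x = true))
    (hC2 : ∀ x y : Fin (2 * k + 1), r.J ≤ (x : ℕ) → (x : ℕ) < s.J → r.J ≤ (y : ℕ) → (y : ℕ) < s.J →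
      (((C.pos x : ℕ) < C.pos y) ↔ ((r.pos x : ℕ) < r.pos y)))
    (hC3 : ∀ x y : Fin (2 * k + 1), x < y → (y : ℕ) < r.J →
      (((C.pos x : ℕ) < C.pos y) ↔ A y = true))
    (hD1 : ∀ x y : Fin (2 * k + 1), s.J ≤ (x : ℕ) → x < y →
      (((C'.pos y : ℕ) < C'.pos x) ↔ A x = false))
    (hD2 : ∀ x y : Fin (2 * k + 1), y < x → (x : ℕ) < s.J → (y : ℕ) < r.J →
      (((C'.pos x : ℕ) < C'.pos y) ↔ A y = true))
    (hD3 : ∀ x y : Fin (2 * k + 1), r.J ≤ (y : ℕ) → y < x → (x : ℕ) < s.J →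
      (((C'.pos y : ℕ) < C'.pos x) ↔ ((r.pos x : ℕ) < r.pos y))) :
    kd r.pos C.pos + kd s.pos C'.pos +
        ((univ : Finset (Fin (2 * k + 1) × Fin (2 * k + 1))).filter
          fun p => s.J ≤ (p.1 : ℕ) ∧ (p.2 : ℕ) < r.J ∧ A p.1 = A p.2).card
      ≤ ((univ : Finset (Fin (2 * k + 1) × Fin (2 * k + 1))).filter
          fun p => forced r s A p.1 p.2).card := by
  have h1 := kd_r_le r s C A hJ hCJ hC1 hC2 hC3
  have h2 := kd_s_le r s C' A hJ hC'J hD1 hD2 hD3
  have h3 := sum_P_le r s A hJ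
  have h4 : ((univ : Finset (Fin (2 * k + 1) × Fin (2 * k + 1))).filter
        fun p => s.J ≤ (p.1 : ℕ) ∧ (p.2 : ℕ) < r.J ∧ A p.1 = A p.2).card
      = ((univ : Finset (Fin (2 * k + 1) × Fin (2 * k + 1))).filter (P3 r s A)).card := by
    congr 1
    ext p
    simp [P3]
  omega

end Vale.Agent.Lib.P040Z
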