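import Vale.Agent.Lib.P040Z.Lip
import Vale.Agent.Lib.P040Z.Decomp
import Vale.Agent.Lib.P040Z.Cube

/-!
Assembly of the key inequality: the number of agreeing bits of two stars is at most the number of
forced pairs, from a canonical pair of stars, the decomposition of the forced pairs and the bound at
the canonical pair.
-/

namespace Vale.Agent.Lib.P040Z

open Finset

variable {k : ℕ}

/-- The ordered count of discordant pairs is at most the count by labels. -/
theorem kend_le_kd (s t : Fin (2 * k + 1) ≃ Fin (2 * k + 1)) : kend s t ≤ kd s t := by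
  classical
  unfold kend kd
  refine Finset.card_le_card_of_injOn (fun q => if q.1 < q.2 then q else (q.2, q.1)) ?_ ?_
  · intro q hq
    simp only [coe_filter, mem_univ, true_and, Set.mem_ofPred_eq] at hq ⊢
    obtain ⟨h1, h2⟩ := hq
    have h1' : (s q.1 : ℕ) < s q.2 := h1
    have h2' : (t q.2 : ℕ) < t q.1 := h2
    have hne : q.1 ≠ q.2 := by
      intro e
      rw [e] at h1'
      exact lt_irrefl _ h1'
    by_cases hlt : q.1 < q.2
    · rw [if_pos hlt]
      refine ⟨hlt, ?_⟩
      constructor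
      · intro _
        omega
      · intro _
        exact h1'
    · rw [if_neg hlt]
      have hlt' : q.2 < q.1 := lt_of_le_of_ne (not_lt.mp hlt) (Ne.symm hne)
      dsimp only
      refine ⟨hlt', ?_⟩
      constructor
      · intro h
        omega
      · intro _
        omega
  · intro q hq q' hq' e
    simp only [coe_filter, mem_univ, true_and, Set.mem_ofPred_eq] at hq hq'
    have h1 : (s q.1 : ℕ) < s q.2 := hq.1
    have h1' : (s q'.1 : ℕ) < s q'.2 := hq'.1
    by_cases hlt : q.1 < q.2 <;> by_cases hlt' : q'.1 < q'.2 <;>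
      simp only [hlt, hlt', if_true, if_false] at e
    · exact e
    · have e1 : q.1 = q'.2 := congrArg Prod.fst e
      have e2 : q.2 = q'.1 := congrArg Prod.snd e
      rw [e1, e2] at h1
      omega
    · have e1 : q.2 = q'.1 := congrArg Prod.fst e
      have e2 : q.1 = q'.2 := congrArg Prod.snd e
      rw [e1, e2] at h1
      omega
    · have e1 : q.2 = q'.2 := congrArg Prod.fst e
      have e2 : q.1 = q'.1 := congrArg Prod.snd e
      exact Prod.ext e2 e1

/-- The distance of the `fval` vectors is at most `kd`, with `natAbs`. -/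
theorem sum_natAbs_le_kd (s t : Fin (2 * k + 1) ≃ Fin (2 * k + 1)) :
    ∑ l : Fin (2 * k + 1), ((fval s l : ℤ) - fval t l).natAbs ≤ kd s t := by
  have h := lip (kend s t) s t le_rfl
  have h2 : ((∑ l : Fin (2 * k + 1), ((fval s l : ℤ) - fval t l).natAbs : ℕ) : ℤ)
      ≤ (kend s t : ℤ) := by
    push_cast
    refine le_trans (le_of_eq ?_) h
    apply Finset.sum_congr rfl
    intro l _
    rfl
  have h3 := kend_le_kd s t
  have h4 : (∑ l : Fin (2 * k + 1), ((fval s l : ℤ) - fval t l).natAbs : ℕ) ≤ kend s t := by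
    exact_mod_cast h2
  omega

/-- A forced pair has two different blue ends. -/
theorem forced_ne {r s : Star k} (hrs : r.J ≤ s.J) {A : Fin (2 * k + 1) → Bool}
    {x y : Fin (2 * k + 1)} (h : forced r s A x y) : x ≠ y := by
  intro e
  subst e
  unfold forced at h
  rcases h with h | h | h | h | h | h
  · exact lt_irrefl _ h.2.2.1
  · exact lt_irrefl _ h.2.2.1
  · have h1 := h.1
    have h2 := h.2.1
    omega
  · exact lt_irrefl _ h.2.2.2.2.1
  · exact lt_irrefl _ h.2.2.1
  · exact lt_irrefl _ h.2.2.1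

/-- The key inequality from a canonical pair of stars: the five hypotheses on `C`, `C'` are the ones
of `decomp`, and `hbase` is the bound at the canonical pair. -/
theorem agree_le_forced_of_canon (r s C C' : Star k) (A : Fin (2 * k + 1) → Bool) (hJ : r.J ≤ s.J)
    (hCJ : C.J = r.J) (hC'J : C'.J = s.J)
    (hC1 : ∀ x y : Fin (2 * k + 1), s.J ≤ (x : ℕ) → r.J ≤ (y : ℕ) → y < x →
      (((C.pos x : ℕ) < C.pos y) ↔ A x = true))
    (hC2 : ∀ x y : Fin (2 * k + 1), r.J ≤ (x : ℕ) → (x : ℕ) < s.J → r.J ≤ (y : ℕ) → (y : ℕ) < s.J →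
      (((C.pos x : ℕ) < C.pos y) ↔ ((r.pos x : ℕ) < r.pos y)))
    (hC3 : ∀ x y : Fin (2 * k + 1), x < y → (y : ℕ) < r.J →
      (((C.pos x : ℕ) < C.pos y) ↔ A y = true))
    (hD1 : ∀ x y : Fin (2 * k + 1), s.J ≤ (x : ℕ) → x < y →
      (((C'.pos y : ℕ) < C'.pos x) ↔ A x = false))
    (hD2 : ∀ x y : Fin (2 * k + 1), y < x → (x : ℕ) < s.J → (y : ℕ) < r.J →
      (((C'.pos x : ℕ) < C'.pos y) ↔ A y = true))
    (hD3 : ∀ x y : Fin (2 * k + 1), r.J ≤ (y : ℕ) → y < x → (x : ℕ) < s.J →
      (((C'.pos y : ℕ) < C'.pos x) ↔ ((r.pos x : ℕ) < r.pos y)))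
    (hbase : agree C C' ≤ ((univ : Finset (Fin (2 * k + 1) × Fin (2 * k + 1))).filter
          fun p => s.J ≤ (p.1 : ℕ) ∧ (p.2 : ℕ) < r.J ∧ A p.1 = A p.2).card) :
    agree r s ≤ ((univ : Finset (Fin (2 * k + 1) × Fin (2 * k + 1))).filter
      fun p => p.1 ≠ p.2 ∧ forced r s A p.1 p.2).card := by
  classical
  have h1 := Vale.Agent.Lib.P040Z.Cube.agree_triangle r s C C' hCJ.symm hC'J.symm
  have h2 := sum_natAbs_le_kd r.pos C.pos
  have h3 := sum_natAbs_le_kd s.pos C'.pos
  have h4 := decomp r s C C' A hJ hCJ hC'J hC1 hC2 hC3 hD1 hD2 hD3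
  have h5 : ((univ : Finset (Fin (2 * k + 1) × Fin (2 * k + 1))).filter
        fun p => forced r s A p.1 p.2).card
      = ((univ : Finset (Fin (2 * k + 1) × Fin (2 * k + 1))).filter
        fun p => p.1 ≠ p.2 ∧ forced r s A p.1 p.2).card := by
    congr 1
    ext p
    simp only [mem_filter, mem_univ, true_and]
    exact ⟨fun h => ⟨forced_ne hJ h, h⟩, fun h => h.2⟩
  omega

end Vale.Agent.Lib.P040Z
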