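import Vale.Agent.Lib.P040Z.Base72
import Vale.Agent.Lib.P040Z.CanonFacts
import Vale.Agent.Lib.P040Z.OffOrder
import Vale.Agent.Lib.P040Z.BasePivot
import Vale.Agent.Lib.P040Z.CoreAsm

/-!
The core inequality: the number of agreeing bits of two stars is at most the number of forced
pairs, for all spins.
-/

namespace Vale.Agent.Lib.P040Z.Core72

open Finset

variable {k : ℕ}

/-- Base case at the canonical pair. -/
theorem base_canon (r s : Star k) (A : Fin (2 * k + 1) → Bool) (hJ : r.J ≤ s.J) :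
    agree (canonC r s A hJ) (canonD r s A hJ) ≤
      ((univ : Finset (Fin (2 * k + 1) × Fin (2 * k + 1))).filter
        fun p => s.J ≤ (p.1 : ℕ) ∧ (p.2 : ℕ) < r.J ∧ A p.1 = A p.2).card := by
  have h2 : ∀ x y : Fin (2 * k + 1), (canonD r s A hJ).J ≤ (x : ℕ) → (canonD r s A hJ).J ≤ (y : ℕ) →
      x < y → A x ≠ (canonD r s A hJ).above y x := by
    intro x y hx hy hxy he
    have hf : forced (canonC r s A hJ) (canonD r s A hJ) A x y :=
      Or.inr (Or.inl ⟨hx, hy, hxy, he⟩)
    have := canon_forced r s A hJ x y hf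
    have hy' : s.J ≤ (y : ℕ) := hy
    omega
  have h6 : ∀ x y : Fin (2 * k + 1), (x : ℕ) < (canonC r s A hJ).J → (y : ℕ) < (canonC r s A hJ).J →
      x < y → A y ≠ (canonC r s A hJ).above x y := by
    intro x y hx hy hxy he
    have hf : forced (canonC r s A hJ) (canonD r s A hJ) A x y :=
      Or.inr (Or.inr (Or.inr (Or.inr (Or.inr ⟨hx, hy, hxy, he⟩))))
    have := canon_forced r s A hJ x y hf
    have hx' : (x : ℕ) < r.J := hx
    omega
  have he := BasePivot.agree_eq_sum (canonC r s A hJ) (canonD r s A hJ) hJ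
    (OffOrder.s_extreme (canonD r s A hJ) A h2) (OffOrder.r_extreme (canonC r s A hJ) A h6)
  have hs := Base72.canon_sum r s A hJ
  rw [← he] at hs
  exact_mod_cast hs

/-- The core inequality. -/
theorem agree_le_forced (r s : Star k) (hJ : r.J ≤ s.J) (A : Fin (2 * k + 1) → Bool) :
    agree r s ≤ ((univ : Finset (Fin (2 * k + 1) × Fin (2 * k + 1))).filter
      fun p => p.1 ≠ p.2 ∧ forced r s A p.1 p.2).card :=
  agree_le_forced_of_canon r s (canonC r s A hJ) (canonD r s A hJ) A hJ rfl rfl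
    (fun _ _ hx hy hyx => canon_hC1 r s A hJ hx hy hyx)
    (fun _ _ hx hx' hy hy' => canon_hC2 r s A hJ hx hx' hy hy')
    (fun _ _ hxy hy => canon_hC3 r s A hJ hxy hy)
    (fun _ _ hx hxy => canon_hD1 r s A hJ hx hxy)
    (fun _ _ hyx hx hy => canon_hD2 r s A hJ hyx hx hy)
    (fun _ _ hy hyx hx => canon_hD3 r s A hJ hy hyx hx)
    (base_canon r s A hJ)

end Vale.Agent.Lib.P040Z.Core72
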