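import Vale.Agent.Lib.P040Z.CanonFacts
import Vale.Agent.Lib.P040Z.CoreAsm
import Vale.Agent.Lib.P040Z.OffOrder
import Vale.Agent.Lib.P040Z.BasePivot

/-!
The key inequality `agree ≤ forced`, given the sum bound at the canonical pair.
-/

namespace Vale.Agent.Lib.P040Z

open Finset

variable {k : ℕ}

/-- The number of agreeing bits at the canonical pair is the sum of the middle formula. -/
theorem canon_agree_eq (r s : Star k) (A : Fin (2 * k + 1) → Bool) (hJ : r.J ≤ s.J) :
    (agree (canonC r s A hJ) (canonD r s A hJ) : ℤ) =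
      ∑ l : Fin (2 * k + 1), |(fval (canonC r s A hJ).pos l : ℤ) + fval (canonD r s A hJ).pos l - (l : ℕ)| := by
  refine BasePivot.agree_eq_sum _ _ hJ ?_ ?_
  · refine OffOrder.s_extreme _ A ?_
    intro x y hx hy hxy e
    have h := canon_forced r s A hJ x y (Or.inr (Or.inl ⟨hx, hy, hxy, e⟩))
    have h1 : (canonD r s A hJ).J = s.J := rfl
    rw [h1] at hy
    omega
  · refine OffOrder.r_extreme _ A ?_
    intro x y hx hy hxy e
    have h := canon_forced r s A hJ x y
      (Or.inr (Or.inr (Or.inr (Or.inr (Or.inr ⟨hx, hy, hxy, e⟩)))))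
    have h1 : (canonC r s A hJ).J = r.J := rfl
    rw [h1] at hx
    omega

/-- The key inequality, from the sum bound at the canonical pair. -/
theorem core_of_sum
    (hsum : ∀ (r s : Star k) (A : Fin (2 * k + 1) → Bool) (hJ : r.J ≤ s.J),
      ∑ l : Fin (2 * k + 1), |(fval (canonC r s A hJ).pos l : ℤ) + fval (canonD r s A hJ).pos l - (l : ℕ)|
        ≤ (((univ : Finset (Fin (2 * k + 1) × Fin (2 * k + 1))).filter
          fun p => s.J ≤ (p.1 : ℕ) ∧ (p.2 : ℕ) < r.J ∧ A p.1 = A p.2).card : ℤ))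
    (T T' : Star k) (hJ : T.J ≤ T'.J) (A : Fin (2 * k + 1) → Bool) :
    agree T T' ≤ ((univ : Finset (Fin (2 * k + 1) × Fin (2 * k + 1))).filter fun p =>
        p.1 ≠ p.2 ∧ forced T T' A p.1 p.2).card := by
  refine agree_le_forced_of_canon T T' (canonC T T' A hJ) (canonD T T' A hJ) A hJ rfl rfl
    (fun x y hx hy hyx => canon_hC1 T T' A hJ hx hy hyx)
    (fun x y hx hx' hy hy' => canon_hC2 T T' A hJ hx hx' hy hy')
    (fun x y hxy hy => canon_hC3 T T' A hJ hxy hy)
    (fun x y hx hxy => canon_hD1 T T' A hJ hx hxy)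
    (fun x y hyx hx hy => canon_hD2 T T' A hJ hyx hx hy)
    (fun x y hy hyx hx => canon_hD3 T T' A hJ hy hyx hx) ?_
  have h1 := canon_agree_eq T T' A hJ
  have h2 := hsum T T' A hJ
  rw [← h1] at h2
  exact_mod_cast h2

end Vale.Agent.Lib.P040Z
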