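import Vale.Agent.Lib.P040Z.Defs
import Vale.Agent.Lib.P040M.Model

/-!
Counting agreeing bits over all pairs of stars.
-/

namespace Vale.Agent.Lib.P040Z

open Finset Vale.Agent.Lib.P040 Vale.Agent.Lib.P040M

/-- The widths add up to `k ^ 2`. -/
theorem sum_wid (k : ℕ) : ∑ l : Fin (2 * k + 1), wid k l = k ^ 2 := by
  unfold wid
  rw [Fin.sum_univ_eq_sum_range (fun l => min l (2 * k - l)) (2 * k + 1)]
  induction k with
  | zero => simp
  | succ k ih =>
    have e : 2 * (k + 1) + 1 = (2 * k + 1) + 1 + 1 := by ring
    rw [e, Finset.sum_range_succ', Finset.sum_range_succ]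
    have h1 : ∑ x ∈ range (2 * k + 1), min (x + 1) (2 * (k + 1) - (x + 1))
        = ∑ x ∈ range (2 * k + 1), (min x (2 * k - x) + 1) := by
      refine Finset.sum_congr rfl fun x hx => ?_
      have := Finset.mem_range.mp hx
      omega
    rw [h1, Finset.sum_add_distrib, ih]
    simp only [sum_const, card_range, smul_eq_mul, mul_one]
    have h2 : min (2 * k + 1 + 1) (2 * (k + 1) - (2 * k + 1 + 1)) = 0 := by omega
    have h3 : min 0 (2 * (k + 1) - 0) = 0 := by omega
    rw [h2, h3]
    ring

/-- Ordered pairs inside a set. -/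
theorem choose_le_card_lt_pairs {m : ℕ} (S : Finset (Fin m)) :
    S.card.choose 2 ≤ ((S ×ˢ S).filter fun q => q.1 < q.2).card := by
  induction S using Finset.induction_on_max with
  | empty => simp
  | insert M S hM ih =>
    have hnot : M ∉ S := fun h => lt_irrefl _ (hM M h)
    rw [Finset.card_insert_of_notMem hnot]
    have h5 : (S.card + 1).choose 2 = S.card + S.card.choose 2 := by
      rw [Nat.choose_succ_succ' S.card 1, Nat.choose_one_right]
    rw [h5]
    have hd : Disjoint (S.image fun y => (y, M)) ((S ×ˢ S).filter fun q => q.1 < q.2) := by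
      rw [Finset.disjoint_left]
      intro q hq hq'
      simp only [mem_image] at hq
      obtain ⟨y, hy, rfl⟩ := hq
      simp only [mem_filter, mem_product] at hq'
      exact hnot hq'.1.2
    have hc : (S.image fun y => (y, M)).card = S.card :=
      Finset.card_image_of_injective _ (fun a b h => by simpa using h)
    have hsub : (S.image fun y => (y, M)) ∪ ((S ×ˢ S).filter fun q => q.1 < q.2) ⊆
        ((insert M S ×ˢ insert M S).filter fun q => q.1 < q.2) := by
      intro q hq
      simp only [mem_union, mem_image, mem_filter, mem_product, mem_insert] at hq ⊢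
      rcases hq with ⟨y, hy, rfl⟩ | ⟨⟨h1, h2⟩, h3⟩
      · exact ⟨⟨Or.inr hy, Or.inl rfl⟩, hM y hy⟩
      · exact ⟨⟨Or.inr h1, Or.inr h2⟩, h3⟩
    have := Finset.card_le_card hsub
    rw [Finset.card_union_of_disjoint hd, hc] at this
    omega

/-- Pairs of the same colour. -/
theorem zar_le_same_colour {m : ℕ} (c : Fin m → Bool) :
    zar m ≤ ((univ : Finset (Fin m × Fin m)).filter fun q => q.1 < q.2 ∧ c q.1 = c q.2).card := by
  set F : Finset (Fin m) := univ.filter fun z => c z = true with hF
  set G : Finset (Fin m) := univ.filter fun z => c z = false with hG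
  have hcard : F.card + G.card = m := by
    have := Finset.card_filter_add_card_filter_not (s := (univ : Finset (Fin m)))
      (fun z => c z = true)
    simp only [Bool.not_eq_true, card_univ, Fintype.card_fin] at this
    exact this
  refine le_trans (zar_le_choose_add m F.card G.card hcard) ?_
  refine le_trans (Nat.add_le_add (choose_le_card_lt_pairs F) (choose_le_card_lt_pairs G)) ?_
  rw [← Finset.card_union_of_disjoint]
  · refine Finset.card_le_card ?_
    intro q hq
    simp only [mem_union, mem_filter, mem_product, mem_univ, true_and, hF, hG] at hq ⊢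
    rcases hq with ⟨⟨h1, h2⟩, h3⟩ | ⟨⟨h1, h2⟩, h3⟩
    · exact ⟨h3, by rw [h1, h2]⟩
    · exact ⟨h3, by rw [h1, h2]⟩
  · rw [Finset.disjoint_left]
    intro q hq hq'
    simp only [mem_filter, mem_product, mem_univ, true_and, hF, hG] at hq hq'
    simp [hq.1.1] at hq'

/-- Summing over all pairs of stars: the bits are shared. -/
theorem zar_mul_le_sum_agree {m k : ℕ} (t : Fin m → Star k) :
    zar m * k ^ 2 ≤
      ∑ q ∈ (univ : Finset (Fin m × Fin m)).filter (fun q => q.1 < q.2),
        agree (t q.1) (t q.2) := by
  classical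
  unfold agree
  rw [Finset.sum_comm, ← sum_wid k, Finset.mul_sum]
  refine Finset.sum_le_sum fun l _ => ?_
  -- each pivot
  have hcard : ∀ q : Fin m × Fin m,
      ((range (wid k l)).filter fun i => (t q.1).bit l i = (t q.2).bit l i).card =
        ∑ i ∈ range (wid k l), if (t q.1).bit l i = (t q.2).bit l i then 1 else 0 := by
    intro q
    rw [Finset.card_filter]
  simp only [hcard]
  rw [Finset.sum_comm]
  have hc : zar m * wid k l = ∑ _i ∈ range (wid k l), zar m := by
    simp [mul_comm]
  rw [hc]
  refine Finset.sum_le_sum fun i _ => ?_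
  refine le_trans (zar_le_same_colour (fun r => (t r).bit l i)) ?_
  rw [← Finset.card_filter, Finset.filter_filter]

end Vale.Agent.Lib.P040Z
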