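import Mathlib

/-!
Combinatorial data of a star in an `x`-monotone drawing of `K_{m,2k+1}`: the split and the rotation.
-/

namespace Vale.Agent.Lib.P040Z

open Finset

/-- A star at a red vertex with `2k+1` blue vertices named left to right: `J` blue vertices lie on
its left. `pos` is the position in the clockwise rotation read from the top right: first the
blue vertices on the right, top to bottom, then those on the left, bottom to top. -/
structure Star (k : ℕ) where
  J : ℕ
  hJ : J ≤ 2 * k + 1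
  pos : Fin (2 * k + 1) ≃ Fin (2 * k + 1)
  block : ∀ x : Fin (2 * k + 1), J ≤ (x : ℕ) ↔ (pos x : ℕ) < 2 * k + 1 - J

variable {k : ℕ}

/-- For `x, y` on the same side of the star: the edge to `x` lies above the edge to `y`. -/
def Star.above (T : Star k) (x y : Fin (2 * k + 1)) : Bool :=
  if T.J ≤ (x : ℕ) then decide ((T.pos x : ℕ) < T.pos y) else decide ((T.pos y : ℕ) < T.pos x)

/-- Spins `A` on the blues right of `s` and left of `r`: the pair of edges `(r,x)`, `(s,y)` must meet
for parity reasons. -/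
def forced (r s : Star k) (A : Fin (2 * k + 1) → Bool) (x y : Fin (2 * k + 1)) : Prop :=
  (s.J ≤ (x : ℕ) ∧ r.J ≤ (y : ℕ) ∧ y < x ∧ A x ≠ r.above x y) ∨
  (s.J ≤ (x : ℕ) ∧ s.J ≤ (y : ℕ) ∧ x < y ∧ A x = s.above y x) ∨
  (s.J ≤ (x : ℕ) ∧ (y : ℕ) < r.J ∧ A x = A y) ∨
  (r.J ≤ (x : ℕ) ∧ (x : ℕ) < s.J ∧ r.J ≤ (y : ℕ) ∧ (y : ℕ) < s.J ∧ y < x ∧
    r.above x y = s.above y x) ∨
  ((x : ℕ) < s.J ∧ (y : ℕ) < r.J ∧ y < x ∧ A y ≠ s.above y x) ∨
  ((x : ℕ) < r.J ∧ (y : ℕ) < r.J ∧ x < y ∧ A y = r.above x y)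

instance (r s : Star k) (A : Fin (2 * k + 1) → Bool) (x y : Fin (2 * k + 1)) :
    Decidable (forced r s A x y) := by
  unfold forced; infer_instance

/-- Cyclic window: position `p` is among the `k` positions after position `q`. -/
def inW (k : ℕ) (p q : Fin (2 * k + 1)) : Prop :=
  1 ≤ ((p : ℕ) + (2 * k + 1) - q) % (2 * k + 1) ∧ ((p : ℕ) + (2 * k + 1) - q) % (2 * k + 1) ≤ k

instance (k : ℕ) (p q : Fin (2 * k + 1)) : Decidable (inW k p q) := by
  unfold inW; infer_instance

/-- The number of labels below `l` among the `k` elements following `l` in the rotation `σ`. -/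
def fval (σ : Fin (2 * k + 1) → Fin (2 * k + 1)) (l : Fin (2 * k + 1)) : ℕ :=
  (univ.filter fun y : Fin (2 * k + 1) => y < l ∧ inW k (σ y) (σ l)).card

/-- Width of pivot `l`. -/
def wid (k : ℕ) (l : Fin (2 * k + 1)) : ℕ := min (l : ℕ) (2 * k - l)

/-- The `u`-coordinate of pivot `l`. -/
def uval (σ : Fin (2 * k + 1) → Fin (2 * k + 1)) (l : Fin (2 * k + 1)) : ℕ :=
  fval σ l - ((l : ℕ) - k)

/-- The bits of a star at pivot `l`: a thermometer code of `u`, reflected when `l` is on the left. -/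
def Star.bit (T : Star k) (l : Fin (2 * k + 1)) (i : ℕ) : Bool :=
  if T.J ≤ (l : ℕ) then decide (i < uval T.pos l) else decide (wid k l - i ≤ uval T.pos l)

/-- Number of agreeing bits of two stars. -/
def agree (T T' : Star k) : ℕ :=
  ∑ l : Fin (2 * k + 1), ((range (wid k l)).filter fun i => T.bit l i = T'.bit l i).card

end Vale.Agent.Lib.P040Z
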