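import Vale.Agent.Lib.P040M.BothSides

/-!
Deleting a blue vertex from an `x`-monotone drawing: the even case from the odd case.
-/

namespace Vale.Agent.Lib.P040Z

open Finset Vale.Agent.Lib.P040 Vale.Agent.Lib.P040M

variable {m : ℕ}

/-- The drawing without the blue vertex `b`. -/
def delete {n : ℕ} (D : MonoDrawing m (n + 1)) (b : Fin (n + 1)) : MonoDrawing m n where
  xR := D.xR
  xB := fun c => D.xB (b.succAbove c)
  yR := D.yR
  yB := fun c => D.yB (b.succAbove c)
  xR_inj := D.xR_inj
  xB_mono := D.xB_mono.comp (Fin.strictMono_succAbove b)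
  x_ne := fun r c => D.x_ne r _
  edge := fun r c => D.edge r (b.succAbove c)
  cont := fun r c => D.cont r _
  at_red := fun r c => D.at_red r _
  at_blue := fun r c => D.at_blue r _
  avoid_red := fun r c s h1 h2 => D.avoid_red r _ s h1 h2
  avoid_blue := fun r c e hne hin =>
    D.avoid_blue r _ _ (fun h => hne (Fin.succAbove_right_injective h)) hin

open Classical in
/-- Each meeting pair survives the deletion of all blue vertices but two. -/
theorem sum_delete_le {n : ℕ} (D : MonoDrawing m (n + 2)) :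
    ∑ b : Fin (n + 2), (delete D b).meetingPairs ≤ n * D.meetingPairs := by
  classical
  set F := (univ : Finset (Fin m × Fin m × Fin (n + 2) × Fin (n + 2))).filter fun q =>
    q.1 < q.2.1 ∧ q.2.2.1 ≠ q.2.2.2 ∧ D.Meet q.1 q.2.2.1 q.2.1 q.2.2.2 with hF
  have hD : D.meetingPairs = F.card := by
    unfold MonoDrawing.meetingPairs
    rw [hF]
  have hone : ∀ b : Fin (n + 2), (delete D b).meetingPairs ≤
      (F.filter fun q => q.2.2.1 ≠ b ∧ q.2.2.2 ≠ b).card := by
    intro b
    unfold MonoDrawing.meetingPairs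
    refine Finset.card_le_card_of_injOn
      (fun q => (q.1, q.2.1, b.succAbove q.2.2.1, b.succAbove q.2.2.2)) ?_ ?_
    · intro q hq
      have hq' := (Finset.mem_filter.1 (Finset.mem_coe.1 hq)).2
      apply Finset.mem_coe.2
      refine Finset.mem_filter.2 ⟨Finset.mem_filter.2 ⟨Finset.mem_univ _, hq'.1, ?_, hq'.2.2⟩, ?_, ?_⟩
      · exact fun h => hq'.2.1 (Fin.succAbove_right_injective h)
      · exact Fin.succAbove_ne b _
      · exact Fin.succAbove_ne b _
    · intro q _ q' _ h
      simp only [Prod.mk.injEq] at h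
      obtain ⟨h1, h2, h3, h4⟩ := h
      have h3' := Fin.succAbove_right_injective h3
      have h4' := Fin.succAbove_right_injective h4
      ext <;> simp [h1, h2, h3', h4']
  have hswap : ∑ b : Fin (n + 2), (F.filter fun q => q.2.2.1 ≠ b ∧ q.2.2.2 ≠ b).card =
      ∑ q ∈ F, (univ.filter fun b : Fin (n + 2) => q.2.2.1 ≠ b ∧ q.2.2.2 ≠ b).card := by
    simp only [Finset.card_filter]
    rw [Finset.sum_comm]
  have hcount : ∀ q ∈ F, (univ.filter fun b : Fin (n + 2) => q.2.2.1 ≠ b ∧ q.2.2.2 ≠ b).card = n := by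
    intro q hq
    have hne := (Finset.mem_filter.1 hq).2.2.1
    have h1 : (univ.filter fun b : Fin (n + 2) => q.2.2.1 ≠ b ∧ q.2.2.2 ≠ b) =
        univ \ {q.2.2.1, q.2.2.2} := by
      ext b
      simp only [Finset.mem_filter, Finset.mem_univ, true_and, Finset.mem_sdiff, Finset.mem_insert,
        Finset.mem_singleton, not_or]
      constructor
      · rintro ⟨h2, h3⟩
        exact ⟨fun h => h2 h.symm, fun h => h3 h.symm⟩
      · rintro ⟨h2, h3⟩
        exact ⟨fun h => h2 h.symm, fun h => h3 h.symm⟩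
    rw [h1, Finset.card_sdiff_of_subset (Finset.subset_univ _), Finset.card_univ, Fintype.card_fin,
      Finset.card_pair hne]
    omega
  calc ∑ b : Fin (n + 2), (delete D b).meetingPairs
      ≤ ∑ b : Fin (n + 2), (F.filter fun q => q.2.2.1 ≠ b ∧ q.2.2.2 ≠ b).card :=
        Finset.sum_le_sum fun b _ => hone b
    _ = ∑ q ∈ F, (univ.filter fun b : Fin (n + 2) => q.2.2.1 ≠ b ∧ q.2.2.2 ≠ b).card := hswap
    _ = ∑ _q ∈ F, n := Finset.sum_congr rfl hcount
    _ = n * D.meetingPairs := by
        rw [Finset.sum_const, smul_eq_mul, hD, mul_comm]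

/-- The even case from the odd case. `P` is any property of drawings kept by deletions. -/
theorem even_of_odd (P : ∀ {n : ℕ}, MonoDrawing m n → Prop) (k : ℕ)
    (hodd : ∀ D' : MonoDrawing m (2 * k + 1), P D' → zar m * k ^ 2 ≤ D'.meetingPairs)
    (D : MonoDrawing m (2 * k + 2)) (hP : ∀ b, P (delete D b)) :
    zar m * zar (2 * k + 2) ≤ D.meetingPairs := by
  rcases Nat.eq_zero_or_pos k with h0 | hk
  · subst h0
    simp [zar]
  have h1 := sum_delete_le (n := 2 * k) D
  have h2 : ∑ _b : Fin (2 * k + 2), zar m * k ^ 2 ≤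
      ∑ b : Fin (2 * k + 2), (delete D b).meetingPairs :=
    Finset.sum_le_sum fun b _ => hodd _ (hP b)
  rw [Finset.sum_const, Finset.card_univ, Fintype.card_fin, smul_eq_mul] at h2
  have h3 : (2 * k + 2) * (zar m * k ^ 2) ≤ 2 * k * D.meetingPairs := h2.trans h1
  have hz : zar (2 * k + 2) = (k + 1) * k := by
    unfold zar
    have e1 : (2 * k + 2) / 2 = k + 1 := by omega
    have e2 : (2 * k + 2 - 1) / 2 = k := by omega
    rw [e1, e2]
  rw [hz]
  have h4 : (2 * k) * (zar m * ((k + 1) * k)) ≤ (2 * k) * D.meetingPairs := by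
    calc (2 * k) * (zar m * ((k + 1) * k))
        = (2 * k + 2) * (zar m * k ^ 2) := by ring
      _ ≤ _ := h3
  exact Nat.le_of_mul_le_mul_left h4 (by omega)

/-- All `n` from odd `n`. `P` is any property of drawings kept by deletions. -/
theorem all_of_odd (P : ∀ {n : ℕ}, MonoDrawing m n → Prop)
    (hdel : ∀ {n : ℕ} (D : MonoDrawing m (n + 1)) (b : Fin (n + 1)), P D → P (delete D b))
    (hodd : ∀ (k : ℕ) (D' : MonoDrawing m (2 * k + 1)), P D' → zar m * k ^ 2 ≤ D'.meetingPairs)
    {n : ℕ} (D : MonoDrawing m n) (hD : P D) : zar m * zar n ≤ D.meetingPairs := by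
  rcases n.even_or_odd' with ⟨c, rfl | rfl⟩
  · rcases Nat.eq_zero_or_pos c with h0 | hc
    · subst h0
      simp [zar]
    · obtain ⟨k, rfl⟩ : ∃ k, c = k + 1 := ⟨c - 1, by omega⟩
      exact even_of_odd P k (hodd k) D (fun b => hdel D b hD)
  · have h1 := hodd c D hD
    have hz : zar (2 * c + 1) = c ^ 2 := by
      unfold zar
      have e1 : (2 * c + 1) / 2 = c := by omega
      have e2 : (2 * c + 1 - 1) / 2 = c := by omega
      rw [e1, e2]
      ring
    rw [hz]
    exact h1

end Vale.Agent.Lib.P040Z
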