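import Vale.Agent.Lib.P040Z.Defs

/-!
Reduction of the key inequality to pairs of stars with only the coupled forced pairs: swap a violated
adjacent pair of a fan; when no adjacent pair is violated, no pair at all is.
-/

namespace Vale.Agent.Lib.P040Z

open Finset

variable {k : ℕ}

/-- Exchange the elements at the adjacent positions `P`, `P + 1` of the rotation, inside one fan. -/
def Star.swapAt (T : Star k) (P : ℕ) (hP : P + 1 < 2 * k + 1)
    (hf : P + 1 < 2 * k + 1 - T.J ∨ 2 * k + 1 - T.J ≤ P) : Star k where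
  J := T.J
  hJ := T.hJ
  pos := T.pos.trans (Equiv.swap ⟨P, by omega⟩ ⟨P + 1, hP⟩)
  block := by
    intro x
    have h := T.block x
    have hx := (T.pos x).2
    rw [h]
    simp only [Equiv.trans_apply]
    rw [Equiv.swap_apply_def]
    split_ifs with h1 h2
    · have h1' : (T.pos x : ℕ) = P := by rw [h1]
      simp only
      omega
    · have h2' : (T.pos x : ℕ) = P + 1 := by rw [h2]
      simp only
      omega
    · rfl

theorem Star.swapAt_val (T : Star k) (P : ℕ) (hP : P + 1 < 2 * k + 1)
    (hf : P + 1 < 2 * k + 1 - T.J ∨ 2 * k + 1 - T.J ≤ P) (z : Fin (2 * k + 1)) :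
    (((T.swapAt P hP hf).pos z : Fin (2 * k + 1)) : ℕ) =
      if (T.pos z : ℕ) = P then P + 1 else if (T.pos z : ℕ) = P + 1 then P else T.pos z := by
  show (((T.pos.trans (Equiv.swap ⟨P, by omega⟩ ⟨P + 1, hP⟩)) z : Fin (2 * k + 1)) : ℕ) = _
  simp only [Equiv.trans_apply]
  by_cases h1 : (T.pos z : ℕ) = P
  · have e : T.pos z = ⟨P, by omega⟩ := Fin.ext h1
    rw [e, Equiv.swap_apply_left]
    simp
  · by_cases h2 : (T.pos z : ℕ) = P + 1
    · have e : T.pos z = ⟨P + 1, hP⟩ := Fin.ext h2
      rw [e, Equiv.swap_apply_right]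
      simp
    · rw [Equiv.swap_apply_of_ne_of_ne (fun e => h1 (by rw [e])) (fun e => h2 (by rw [e]))]
      simp [h1, h2]

/-- Surjectivity of positions. -/
theorem Star.exists_pos (T : Star k) (q : ℕ) (hq : q < 2 * k + 1) :
    ∃ c : Fin (2 * k + 1), (T.pos c : ℕ) = q :=
  ⟨T.pos.symm ⟨q, hq⟩, by simp⟩

theorem Star.pos_ne (T : Star k) {a b : Fin (2 * k + 1)} (h : a ≠ b) :
    (T.pos a : ℕ) ≠ T.pos b := fun e => h (T.pos.injective (Fin.ext e))

/-- A key that increases along adjacent positions increases along all positions. -/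
theorem Star.chain (T : Star k) (S : Fin (2 * k + 1) → Prop)
    (hS : ∀ a b c, S a → S b → (T.pos a : ℕ) ≤ T.pos c → (T.pos c : ℕ) ≤ T.pos b → S c)
    (key : Fin (2 * k + 1) → ℤ)
    (hadj : ∀ a b, S a → S b → (T.pos b : ℕ) = T.pos a + 1 → key a < key b) :
    ∀ a b, S a → S b → (T.pos a : ℕ) < T.pos b → key a < key b := by
  have main : ∀ d a b, S a → S b → (T.pos b : ℕ) = T.pos a + d + 1 → key a < key b := by
    intro d
    induction d with
    | zero =>
      intro a b ha hb h
      exact hadj a b ha hb (by omega)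
    | succ d ih =>
      intro a b ha hb h
      have hb' := (T.pos b).2
      obtain ⟨c, hc⟩ := T.exists_pos (T.pos a + d + 1) (by omega)
      have hSc : S c := hS a b c ha hb (by omega) (by omega)
      have h1 := ih a c ha hSc (by omega)
      have h2 := hadj c b hSc hb (by omega)
      exact lt_trans h1 h2
  intro a b ha hb h
  exact main ((T.pos b : ℕ) - T.pos a - 1) a b ha hb (by omega)

/-! ### How `above` moves under a swap -/

theorem Star.above_swapAt (T : Star k) (P : ℕ) (hP : P + 1 < 2 * k + 1)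
    (hf : P + 1 < 2 * k + 1 - T.J ∨ 2 * k + 1 - T.J ≤ P) (x y : Fin (2 * k + 1))
    (hxy : ¬ ((T.pos x : ℕ) = P ∧ (T.pos y : ℕ) = P + 1) ∧
      ¬ ((T.pos x : ℕ) = P + 1 ∧ (T.pos y : ℕ) = P)) :
    (T.swapAt P hP hf).above x y = T.above x y := by
  unfold Star.above
  have hJ : (T.swapAt P hP hf).J = T.J := rfl
  rw [hJ]
  have hx := T.swapAt_val P hP hf x
  have hy := T.swapAt_val P hP hf y
  by_cases hne : x = y
  · subst hne
    simp
  have hv := T.pos_ne hne
  by_cases h : T.J ≤ (x : ℕ)
  · simp only [h, if_true]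
    apply decide_eq_decide.mpr
    rw [hx, hy]
    split_ifs <;> omega
  · simp only [h, if_false]
    apply decide_eq_decide.mpr
    rw [hx, hy]
    split_ifs <;> omega

theorem Star.above_swapAt_flip (T : Star k) (P : ℕ) (hP : P + 1 < 2 * k + 1)
    (hf : P + 1 < 2 * k + 1 - T.J ∨ 2 * k + 1 - T.J ≤ P) (x y : Fin (2 * k + 1))
    (hxy : ((T.pos x : ℕ) = P ∧ (T.pos y : ℕ) = P + 1) ∨
      ((T.pos x : ℕ) = P + 1 ∧ (T.pos y : ℕ) = P)) :
    (T.swapAt P hP hf).above x y = !T.above x y := by
  unfold Star.above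
  have hJ : (T.swapAt P hP hf).J = T.J := rfl
  rw [hJ]
  have hx := T.swapAt_val P hP hf x
  have hy := T.swapAt_val P hP hf y
  by_cases h : T.J ≤ (x : ℕ)
  · simp only [h, if_true]
    rcases hxy with ⟨h1, h2⟩ | ⟨h1, h2⟩
    · have e1 : (T.pos x : ℕ) < T.pos y := by omega
      have e2 : ¬ (((T.swapAt P hP hf).pos x : Fin (2 * k + 1)) : ℕ) < (T.swapAt P hP hf).pos y := by
        rw [hx, hy]
        split_ifs <;> omega
      simp [e1, e2]
    · have e1 : ¬ (T.pos x : ℕ) < T.pos y := by omega
      have e2 : (((T.swapAt P hP hf).pos x : Fin (2 * k + 1)) : ℕ) < (T.swapAt P hP hf).pos y := by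
        rw [hx, hy]
        split_ifs <;> omega
      simp [e1, e2]
  · simp only [h, if_false]
    rcases hxy with ⟨h1, h2⟩ | ⟨h1, h2⟩
    · have e1 : ¬ (T.pos y : ℕ) < T.pos x := by omega
      have e2 : (((T.swapAt P hP hf).pos y : Fin (2 * k + 1)) : ℕ) < (T.swapAt P hP hf).pos x := by
        rw [hx, hy]
        split_ifs <;> omega
      simp [e1, e2]
    · have e1 : (T.pos y : ℕ) < T.pos x := by omega
      have e2 : ¬ (((T.swapAt P hP hf).pos y : Fin (2 * k + 1)) : ℕ) < (T.swapAt P hP hf).pos x := by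
        rw [hx, hy]
        split_ifs <;> omega
      simp [e1, e2]

/-- The forced set. -/
def forcedSet (r s : Star k) (A : Fin (2 * k + 1) → Bool) : Finset (Fin (2 * k + 1) × Fin (2 * k + 1)) :=
  univ.filter fun q => q.1 ≠ q.2 ∧ forced r s A q.1 q.2

/-- The coupled pairs. -/
def isingSet (r s : Star k) (A : Fin (2 * k + 1) → Bool) : Finset (Fin (2 * k + 1) × Fin (2 * k + 1)) :=
  univ.filter fun q => s.J ≤ (q.1 : ℕ) ∧ (q.2 : ℕ) < r.J ∧ A q.1 = A q.2

/-- Removing one forced element. -/
theorem card_lt_of_sub {S S' : Finset (Fin (2 * k + 1) × Fin (2 * k + 1))}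
    {q : Fin (2 * k + 1) × Fin (2 * k + 1)} (hq : q ∈ S) (hq' : q ∉ S')
    (h : ∀ p, p ≠ q → p ∈ S' → p ∈ S) : S'.card + 1 ≤ S.card := by
  have hsub : S' ⊆ S.erase q := by
    intro p hp
    have hne : p ≠ q := fun e => hq' (e ▸ hp)
    exact Finset.mem_erase.mpr ⟨hne, h p hne hp⟩
  have := Finset.card_le_card hsub
  rw [Finset.card_erase_of_mem hq] at this
  have hpos : 0 < S.card := Finset.card_pos.mpr ⟨q, hq⟩
  omega

/-- Only `r.above x y` depends on `r`. -/
theorem forced_congr_r {r r' s : Star k} {A : Fin (2 * k + 1) → Bool} {x y : Fin (2 * k + 1)}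
    (hJ : r'.J = r.J) (h : r'.above x y = r.above x y) :
    forced r' s A x y ↔ forced r s A x y := by
  unfold forced
  rw [hJ, h]

/-- Only `s.above y x` depends on `s`. -/
theorem forced_congr_s {r s s' : Star k} {A : Fin (2 * k + 1) → Bool} {x y : Fin (2 * k + 1)}
    (hJ : s'.J = s.J) (h : s'.above y x = s.above y x) :
    forced r s' A x y ↔ forced r s A x y := by
  unfold forced
  rw [hJ, h]

theorem Star.eq_of_pos (T : Star k) {a b : Fin (2 * k + 1)} (h : (T.pos a : ℕ) = T.pos b) : a = b :=
  T.pos.injective (Fin.ext h)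

/-! ### The clauses of `forced` by cases -/

theorem forced_RR {r s : Star k} {A : Fin (2 * k + 1) → Bool} {G g : Fin (2 * k + 1)}
    (hg : r.J ≤ (g : ℕ)) (hgG : g < G) :
    forced r s A G g ↔ (s.J ≤ (G : ℕ) ∧ A G ≠ r.above G g) ∨
      ((G : ℕ) < s.J ∧ r.above G g = s.above g G) := by
  have h0 : (g : ℕ) < G := hgG
  unfold forced
  constructor
  · rintro (⟨h1, h2, h3, h4⟩ | ⟨h1, h2, h3, h4⟩ | ⟨h1, h2, h3⟩ | ⟨h1, h2, h3, h4, h5, h6⟩ |
      ⟨h1, h2, h3, h4⟩ | ⟨h1, h2, h3, h4⟩)
    · exact Or.inl ⟨h1, h4⟩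
    · exact absurd h3 (lt_asymm hgG)
    · omega
    · exact Or.inr ⟨h2, h6⟩
    · omega
    · exact absurd h3 (lt_asymm hgG)
  · rintro (⟨h1, h2⟩ | ⟨h1, h2⟩)
    · exact Or.inl ⟨h1, hg, hgG, h2⟩
    · exact Or.inr (Or.inr (Or.inr (Or.inl ⟨by omega, h1, hg, by omega, hgG, h2⟩)))

theorem forced_RS {r s : Star k} {A : Fin (2 * k + 1) → Bool} {G g : Fin (2 * k + 1)}
    (hg : r.J ≤ (g : ℕ)) (hgG : g < G) :
    forced r s A g G ↔ (s.J ≤ (g : ℕ) ∧ A g = s.above G g) := by
  have h0 : (g : ℕ) < G := hgG
  unfold forced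
  constructor
  · rintro (⟨h1, h2, h3, h4⟩ | ⟨h1, h2, h3, h4⟩ | ⟨h1, h2, h3⟩ | ⟨h1, h2, h3, h4, h5, h6⟩ |
      ⟨h1, h2, h3, h4⟩ | ⟨h1, h2, h3, h4⟩)
    · exact absurd h3 (lt_asymm hgG)
    · exact ⟨h1, h4⟩
    · omega
    · exact absurd h5 (lt_asymm hgG)
    · exact absurd h3 (lt_asymm hgG)
    · omega
  · rintro ⟨h1, h2⟩
    exact Or.inr (Or.inl ⟨h1, by omega, hgG, h2⟩)

theorem forced_LL {r s : Star k} {A : Fin (2 * k + 1) → Bool} {G g : Fin (2 * k + 1)}
    (hrs : r.J ≤ s.J) (hG : (G : ℕ) < r.J) (hgG : g < G) :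
    forced r s A g G ↔ A G = r.above g G := by
  have h0 : (g : ℕ) < G := hgG
  unfold forced
  constructor
  · rintro (⟨h1, h2, h3, h4⟩ | ⟨h1, h2, h3, h4⟩ | ⟨h1, h2, h3⟩ | ⟨h1, h2, h3, h4, h5, h6⟩ |
      ⟨h1, h2, h3, h4⟩ | ⟨h1, h2, h3, h4⟩)
    · omega
    · omega
    · omega
    · exact absurd h5 (lt_asymm hgG)
    · exact absurd h3 (lt_asymm hgG)
    · exact h4
  · intro h
    exact Or.inr (Or.inr (Or.inr (Or.inr (Or.inr ⟨by omega, hG, hgG, h⟩))))

theorem forced_LS {r s : Star k} {A : Fin (2 * k + 1) → Bool} {G g : Fin (2 * k + 1)}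
    (hrs : r.J ≤ s.J) (hG : (G : ℕ) < r.J) (hgG : g < G) :
    forced r s A G g ↔ A g ≠ s.above g G := by
  have h0 : (g : ℕ) < G := hgG
  unfold forced
  constructor
  · rintro (⟨h1, h2, h3, h4⟩ | ⟨h1, h2, h3, h4⟩ | ⟨h1, h2, h3⟩ | ⟨h1, h2, h3, h4, h5, h6⟩ |
      ⟨h1, h2, h3, h4⟩ | ⟨h1, h2, h3, h4⟩)
    · omega
    · omega
    · omega
    · omega
    · exact h4
    · exact absurd h3 (lt_asymm hgG)
  · intro h
    exact Or.inr (Or.inr (Or.inr (Or.inr (Or.inl ⟨by omega, by omega, hgG, h⟩))))

theorem forced_SL {r s : Star k} {A : Fin (2 * k + 1) → Bool} {G g : Fin (2 * k + 1)}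
    (hG : (G : ℕ) < s.J) (hgG : g < G) :
    forced r s A G g ↔ ((g : ℕ) < r.J ∧ A g ≠ s.above g G) ∨
      (r.J ≤ (g : ℕ) ∧ r.above G g = s.above g G) := by
  have h0 : (g : ℕ) < G := hgG
  unfold forced
  constructor
  · rintro (⟨h1, h2, h3, h4⟩ | ⟨h1, h2, h3, h4⟩ | ⟨h1, h2, h3⟩ | ⟨h1, h2, h3, h4, h5, h6⟩ |
      ⟨h1, h2, h3, h4⟩ | ⟨h1, h2, h3, h4⟩)
    · omega
    · omega
    · omega
    · exact Or.inr ⟨h3, h6⟩
    · exact Or.inl ⟨h2, h4⟩
    · exact absurd h3 (lt_asymm hgG)
  · rintro (⟨h1, h2⟩ | ⟨h1, h2⟩)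
    · exact Or.inr (Or.inr (Or.inr (Or.inr (Or.inl ⟨hG, h1, hgG, h2⟩))))
    · exact Or.inr (Or.inr (Or.inr (Or.inl ⟨by omega, hG, h1, by omega, hgG, h2⟩)))

theorem forced_SS {r s : Star k} {A : Fin (2 * k + 1) → Bool} {G g : Fin (2 * k + 1)}
    (hG : (G : ℕ) < s.J) (hgG : g < G) :
    forced r s A g G ↔ ((G : ℕ) < r.J ∧ A G = r.above g G) := by
  have h0 : (g : ℕ) < G := hgG
  unfold forced
  constructor
  · rintro (⟨h1, h2, h3, h4⟩ | ⟨h1, h2, h3, h4⟩ | ⟨h1, h2, h3⟩ | ⟨h1, h2, h3, h4, h5, h6⟩ |
      ⟨h1, h2, h3, h4⟩ | ⟨h1, h2, h3, h4⟩)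
    · omega
    · omega
    · omega
    · exact absurd h5 (lt_asymm hgG)
    · exact absurd h3 (lt_asymm hgG)
    · exact ⟨h2, h4⟩
  · rintro ⟨h1, h2⟩
    exact Or.inr (Or.inr (Or.inr (Or.inr (Or.inr ⟨by omega, h1, hgG, h2⟩))))

theorem ne_true_of_flip {a b : Bool} : (a ≠ !b) ↔ a = b := by
  cases a <;> cases b <;> simp

/-- Positions of the swapped pair. -/
theorem pair_cases (T : Star k) {P : ℕ} {G g x y : Fin (2 * k + 1)} (hne : x ≠ y)
    (hpos : ((T.pos G : ℕ) = P ∧ (T.pos g : ℕ) = P + 1) ∨ ((T.pos G : ℕ) = P + 1 ∧ (T.pos g : ℕ) = P))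
    (h : ((T.pos x : ℕ) = P ∧ (T.pos y : ℕ) = P + 1) ∨ ((T.pos x : ℕ) = P + 1 ∧ (T.pos y : ℕ) = P)) :
    (x = G ∧ y = g) ∨ (x = g ∧ y = G) := by
  rcases hpos with ⟨a, b⟩ | ⟨a, b⟩ <;> rcases h with ⟨c, d⟩ | ⟨c, d⟩
  · exact Or.inl ⟨T.eq_of_pos (by omega), T.eq_of_pos (by omega)⟩
  · exact Or.inr ⟨T.eq_of_pos (by omega), T.eq_of_pos (by omega)⟩
  · exact Or.inr ⟨T.eq_of_pos (by omega), T.eq_of_pos (by omega)⟩
  · exact Or.inl ⟨T.eq_of_pos (by omega), T.eq_of_pos (by omega)⟩

/-- A swap at `r` in the right fan, the pair forced. -/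
theorem drop_r_right (r s : Star k) (A : Fin (2 * k + 1) → Bool) (P : ℕ)
    (hP : P + 1 < 2 * k + 1) (hf : P + 1 < 2 * k + 1 - r.J ∨ 2 * k + 1 - r.J ≤ P)
    (G g : Fin (2 * k + 1)) (hg : r.J ≤ (g : ℕ)) (hgG : g < G)
    (hpos : ((r.pos G : ℕ) = P ∧ (r.pos g : ℕ) = P + 1) ∨ ((r.pos G : ℕ) = P + 1 ∧ (r.pos g : ℕ) = P))
    (hforced : forced r s A G g) :
    (forcedSet (r.swapAt P hP hf) s A).card + 1 ≤ (forcedSet r s A).card := by
  have hJ : (r.swapAt P hP hf).J = r.J := rfl
  have hflip : (r.swapAt P hP hf).above G g = !r.above G g :=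
    r.above_swapAt_flip P hP hf G g hpos
  refine card_lt_of_sub (q := (G, g)) ?_ ?_ ?_
  · exact Finset.mem_filter.mpr ⟨mem_univ _, ne_of_gt hgG, hforced⟩
  · intro hmem
    have hf' : forced (r.swapAt P hP hf) s A G g := (Finset.mem_filter.mp hmem).2.2
    rw [forced_RR (by rw [hJ]; exact hg) hgG, hflip] at hf'
    rw [forced_RR hg hgG] at hforced
    rcases hf' with ⟨h1, h2⟩ | ⟨h1, h2⟩ <;> rcases hforced with ⟨h3, h4⟩ | ⟨h3, h4⟩
    · cases hc : r.above G g <;> cases hd : A G <;> simp_all
    · omega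
    · omega
    · rw [h4] at h2
      cases hc : s.above g G <;> simp [hc] at h2
  · rintro ⟨x, y⟩ hne hmem
    have hm : x ≠ y ∧ forced (r.swapAt P hP hf) s A x y := (Finset.mem_filter.mp hmem).2
    refine Finset.mem_filter.mpr ⟨mem_univ _, hm.1, ?_⟩
    have hf' : forced (r.swapAt P hP hf) s A x y := hm.2
    by_cases hin : ((r.pos x : ℕ) = P ∧ (r.pos y : ℕ) = P + 1) ∨ ((r.pos x : ℕ) = P + 1 ∧ (r.pos y : ℕ) = P)
    · rcases pair_cases r hm.1 hpos hin with ⟨h1, h2⟩ | ⟨h1, h2⟩
      · exact absurd (Prod.ext h1 h2) hne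
      · show forced r s A x y
        subst h1 h2
        rw [forced_RS (by rw [hJ]; exact hg) hgG] at hf'
        rw [forced_RS hg hgG]
        exact hf'
    · have := r.above_swapAt P hP hf x y ⟨fun h => hin (Or.inl h), fun h => hin (Or.inr h)⟩
      exact (forced_congr_r hJ this).mp hf'

/-- A swap at `r` in the left fan, the pair forced. -/
theorem drop_r_left (r s : Star k) (A : Fin (2 * k + 1) → Bool) (hrs : r.J ≤ s.J) (P : ℕ)
    (hP : P + 1 < 2 * k + 1) (hf : P + 1 < 2 * k + 1 - r.J ∨ 2 * k + 1 - r.J ≤ P)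
    (G g : Fin (2 * k + 1)) (hG : (G : ℕ) < r.J) (hgG : g < G)
    (hpos : ((r.pos G : ℕ) = P ∧ (r.pos g : ℕ) = P + 1) ∨ ((r.pos G : ℕ) = P + 1 ∧ (r.pos g : ℕ) = P))
    (hforced : forced r s A g G) :
    (forcedSet (r.swapAt P hP hf) s A).card + 1 ≤ (forcedSet r s A).card := by
  have hJ : (r.swapAt P hP hf).J = r.J := rfl
  have hpos' : ((r.pos g : ℕ) = P ∧ (r.pos G : ℕ) = P + 1) ∨ ((r.pos g : ℕ) = P + 1 ∧ (r.pos G : ℕ) = P) := by
    rcases hpos with ⟨a, b⟩ | ⟨a, b⟩
    · exact Or.inr ⟨b, a⟩
    · exact Or.inl ⟨b, a⟩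
  have hflip : (r.swapAt P hP hf).above g G = !r.above g G :=
    r.above_swapAt_flip P hP hf g G hpos'
  refine card_lt_of_sub (q := (g, G)) ?_ ?_ ?_
  · exact Finset.mem_filter.mpr ⟨mem_univ _, ne_of_lt hgG, hforced⟩
  · intro hmem
    have hf' : forced (r.swapAt P hP hf) s A g G := (Finset.mem_filter.mp hmem).2.2
    rw [forced_LL (by rw [hJ]; exact hrs) (by rw [hJ]; exact hG) hgG, hflip] at hf'
    rw [forced_LL hrs hG hgG] at hforced
    rw [hforced] at hf'
    cases hc : r.above g G <;> simp [hc] at hf'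
  · rintro ⟨x, y⟩ hne hmem
    have hm : x ≠ y ∧ forced (r.swapAt P hP hf) s A x y := (Finset.mem_filter.mp hmem).2
    refine Finset.mem_filter.mpr ⟨mem_univ _, hm.1, ?_⟩
    have hf' : forced (r.swapAt P hP hf) s A x y := hm.2
    by_cases hin : ((r.pos x : ℕ) = P ∧ (r.pos y : ℕ) = P + 1) ∨ ((r.pos x : ℕ) = P + 1 ∧ (r.pos y : ℕ) = P)
    · rcases pair_cases r hm.1 hpos hin with ⟨h1, h2⟩ | ⟨h1, h2⟩
      · show forced r s A x y
        subst h1 h2
        rw [forced_LS (by rw [hJ]; exact hrs) (by rw [hJ]; exact hG) hgG] at hf'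
        rw [forced_LS hrs hG hgG]
        exact hf'
      · exact absurd (Prod.ext h1 h2) hne
    · have := r.above_swapAt P hP hf x y ⟨fun h => hin (Or.inl h), fun h => hin (Or.inr h)⟩
      exact (forced_congr_r hJ this).mp hf'

/-- A swap at `s` in the right fan, the pair forced. -/
theorem drop_s_right (r s : Star k) (A : Fin (2 * k + 1) → Bool) (hrs : r.J ≤ s.J) (P : ℕ)
    (hP : P + 1 < 2 * k + 1) (hf : P + 1 < 2 * k + 1 - s.J ∨ 2 * k + 1 - s.J ≤ P)
    (G g : Fin (2 * k + 1)) (hg : s.J ≤ (g : ℕ)) (hgG : g < G)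
    (hpos : ((s.pos G : ℕ) = P ∧ (s.pos g : ℕ) = P + 1) ∨ ((s.pos G : ℕ) = P + 1 ∧ (s.pos g : ℕ) = P))
    (hforced : forced r s A g G) :
    (forcedSet r (s.swapAt P hP hf) A).card + 1 ≤ (forcedSet r s A).card := by
  have hJ : (s.swapAt P hP hf).J = s.J := rfl
  have hflip : (s.swapAt P hP hf).above G g = !s.above G g :=
    s.above_swapAt_flip P hP hf G g hpos
  have hgr : r.J ≤ (g : ℕ) := le_trans hrs hg
  refine card_lt_of_sub (q := (g, G)) ?_ ?_ ?_
  · exact Finset.mem_filter.mpr ⟨mem_univ _, ne_of_lt hgG, hforced⟩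
  · intro hmem
    have hf' : forced r (s.swapAt P hP hf) A g G := (Finset.mem_filter.mp hmem).2.2
    rw [forced_RS hgr hgG, hflip] at hf'
    rw [forced_RS hgr hgG] at hforced
    have h1 := hf'.2
    rw [hforced.2] at h1
    cases hc : s.above G g <;> simp [hc] at h1
  · rintro ⟨x, y⟩ hne hmem
    have hm : x ≠ y ∧ forced r (s.swapAt P hP hf) A x y := (Finset.mem_filter.mp hmem).2
    refine Finset.mem_filter.mpr ⟨mem_univ _, hm.1, ?_⟩
    have hf' : forced r (s.swapAt P hP hf) A x y := hm.2
    by_cases hin : ((s.pos y : ℕ) = P ∧ (s.pos x : ℕ) = P + 1) ∨ ((s.pos y : ℕ) = P + 1 ∧ (s.pos x : ℕ) = P)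
    · rcases pair_cases s (Ne.symm hm.1) hpos hin with ⟨h1, h2⟩ | ⟨h1, h2⟩
      · exact absurd (Prod.ext h2 h1) hne
      · show forced r s A x y
        rw [h2, h1] at hf' ⊢
        rw [forced_RR hgr hgG] at hf'
        rw [forced_RR hgr hgG]
        rcases hf' with ⟨a, b⟩ | ⟨a, _⟩
        · exact Or.inl ⟨a, b⟩
        · have : (g : ℕ) < G := hgG
          have hG' : s.J ≤ (G : ℕ) := by omega
          have hJ' : (s.swapAt P hP hf).J = s.J := rfl
          rw [hJ'] at a
          omega
    · have := s.above_swapAt P hP hf y x ⟨fun h => hin (Or.inl h), fun h => hin (Or.inr h)⟩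
      exact (forced_congr_s hJ this).mp hf'

/-- A swap at `s` in the left fan, the pair forced. -/
theorem drop_s_left (r s : Star k) (A : Fin (2 * k + 1) → Bool) (P : ℕ)
    (hP : P + 1 < 2 * k + 1) (hf : P + 1 < 2 * k + 1 - s.J ∨ 2 * k + 1 - s.J ≤ P)
    (G g : Fin (2 * k + 1)) (hG : (G : ℕ) < s.J) (hgG : g < G)
    (hpos : ((s.pos G : ℕ) = P ∧ (s.pos g : ℕ) = P + 1) ∨ ((s.pos G : ℕ) = P + 1 ∧ (s.pos g : ℕ) = P))
    (hforced : forced r s A G g) :
    (forcedSet r (s.swapAt P hP hf) A).card + 1 ≤ (forcedSet r s A).card := by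
  have hJ : (s.swapAt P hP hf).J = s.J := rfl
  have hpos' : ((s.pos g : ℕ) = P ∧ (s.pos G : ℕ) = P + 1) ∨ ((s.pos g : ℕ) = P + 1 ∧ (s.pos G : ℕ) = P) := by
    rcases hpos with ⟨a, b⟩ | ⟨a, b⟩
    · exact Or.inr ⟨b, a⟩
    · exact Or.inl ⟨b, a⟩
  have hflip : (s.swapAt P hP hf).above g G = !s.above g G :=
    s.above_swapAt_flip P hP hf g G hpos'
  refine card_lt_of_sub (q := (G, g)) ?_ ?_ ?_
  · exact Finset.mem_filter.mpr ⟨mem_univ _, ne_of_gt hgG, hforced⟩
  · intro hmem
    have hf' : forced r (s.swapAt P hP hf) A G g := (Finset.mem_filter.mp hmem).2.2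
    rw [forced_SL (by rw [hJ]; exact hG) hgG, hflip] at hf'
    rw [forced_SL hG hgG] at hforced
    rcases hf' with ⟨h1, h2⟩ | ⟨h1, h2⟩ <;> rcases hforced with ⟨h3, h4⟩ | ⟨h3, h4⟩
    · cases hc : s.above g G <;> cases hd : A g <;> simp_all
    · omega
    · omega
    · rw [h4] at h2
      cases hc : s.above g G <;> simp [hc] at h2
  · rintro ⟨x, y⟩ hne hmem
    have hm : x ≠ y ∧ forced r (s.swapAt P hP hf) A x y := (Finset.mem_filter.mp hmem).2
    refine Finset.mem_filter.mpr ⟨mem_univ _, hm.1, ?_⟩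
    have hf' : forced r (s.swapAt P hP hf) A x y := hm.2
    by_cases hin : ((s.pos y : ℕ) = P ∧ (s.pos x : ℕ) = P + 1) ∨ ((s.pos y : ℕ) = P + 1 ∧ (s.pos x : ℕ) = P)
    · rcases pair_cases s (Ne.symm hm.1) hpos hin with ⟨h1, h2⟩ | ⟨h1, h2⟩
      · show forced r s A x y
        rw [h2, h1] at hf' ⊢
        rw [forced_SS (by rw [hJ]; exact hG) hgG] at hf'
        rw [forced_SS hG hgG]
        exact hf'
      · exact absurd (Prod.ext h2 h1) hne
    · have := s.above_swapAt P hP hf y x ⟨fun h => hin (Or.inl h), fun h => hin (Or.inr h)⟩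
      exact (forced_congr_s hJ this).mp hf'

/-! ### No adjacent pair violated -/

/-- If no adjacent pair of any fan is violated, only coupled pairs are forced. -/
theorem only_coupled (r s : Star k) (A : Fin (2 * k + 1) → Bool) (hrs : r.J ≤ s.J)
    (hr1 : ∀ G g : Fin (2 * k + 1), r.J ≤ (g : ℕ) → g < G →
      ((r.pos G : ℕ) = r.pos g + 1 ∨ (r.pos g : ℕ) = r.pos G + 1) → ¬ forced r s A G g)
    (hr2 : ∀ G g : Fin (2 * k + 1), (G : ℕ) < r.J → g < G →
      ((r.pos G : ℕ) = r.pos g + 1 ∨ (r.pos g : ℕ) = r.pos G + 1) → ¬ forced r s A g G)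
    (hs1 : ∀ G g : Fin (2 * k + 1), s.J ≤ (g : ℕ) → g < G →
      ((s.pos G : ℕ) = s.pos g + 1 ∨ (s.pos g : ℕ) = s.pos G + 1) → ¬ forced r s A g G)
    (hs2 : ∀ G g : Fin (2 * k + 1), (G : ℕ) < s.J → g < G →
      ((s.pos G : ℕ) = s.pos g + 1 ∨ (s.pos g : ℕ) = s.pos G + 1) → ¬ forced r s A G g)
    (x y : Fin (2 * k + 1)) (hxy : x ≠ y) (hf : forced r s A x y) :
    s.J ≤ (x : ℕ) ∧ (y : ℕ) < r.J := by
  set n : ℤ := 2 * (k : ℤ) + 1 with hn
  have hlt : ∀ a : Fin (2 * k + 1), ((a : ℕ) : ℤ) < n := fun a => by have := a.2; omega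
  have hpos_r : ∀ a : Fin (2 * k + 1), (((r.pos a : Fin (2 * k + 1)) : ℕ) : ℤ) < n := fun a => by
    have := (r.pos a).2; omega
  have hpos_s : ∀ a : Fin (2 * k + 1), (((s.pos a : Fin (2 * k + 1)) : ℕ) : ℤ) < n := fun a => by
    have := (s.pos a).2; omega
  -- the four keys
  let key1 : Fin (2 * k + 1) → ℤ := fun a =>
    if s.J ≤ (a : ℕ) then (if A a = true then -(a : ℤ) - 4 * n else (a : ℤ) + 4 * n)
    else -(((s.pos a : Fin (2 * k + 1)) : ℕ) : ℤ)
  let key2 : Fin (2 * k + 1) → ℤ := fun a =>
    if A a = true then (a : ℤ) + 4 * n else -(a : ℤ) - 4 * n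
  let key3 : Fin (2 * k + 1) → ℤ := fun a =>
    if A a = true then (a : ℤ) - 4 * n else -(a : ℤ) + 4 * n
  let key4 : Fin (2 * k + 1) → ℤ := fun a =>
    if (a : ℕ) < r.J then (if A a = true then -(a : ℤ) + 4 * n else (a : ℤ) - 4 * n)
    else -(((r.pos a : Fin (2 * k + 1)) : ℕ) : ℤ)
  have hbR : ∀ a : Fin (2 * k + 1), r.J ≤ (a : ℕ) ↔ (r.pos a : ℕ) < 2 * k + 1 - r.J := r.block
  have hbS : ∀ a : Fin (2 * k + 1), s.J ≤ (a : ℕ) ↔ (s.pos a : ℕ) < 2 * k + 1 - s.J := s.block
  -- chain on the right fan of r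
  have c1 := r.chain (fun a => r.J ≤ (a : ℕ))
    (fun a b c ha hb h1 h2 => by
      have e1 := hbR b
      have e2 := hbR c
      have hb' : r.J ≤ (b : ℕ) := hb
      show r.J ≤ (c : ℕ)
      rw [e2]
      have := e1.mp hb'
      omega) key1 (by
      intro a b ha hb hab
      have hab' : a ≠ b := fun e => by subst e; omega
      have hsa := fun h => (s.pos_ne (a := a) (b := b) hab' h)
      rcases lt_or_gt_of_ne hab' with hl | hl
      · -- a < b : G = b, g = a
        have hl' : (a : ℕ) < b := hl
        have h0 := hr1 b a ha hl (Or.inl hab)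
        rw [forced_RR ha hl] at h0
        have ha1 : r.above b a = false := by
          unfold Star.above
          have : r.J ≤ (b : ℕ) := hb
          simp [this]
          omega
        simp only [key1]
        by_cases hsb : s.J ≤ (b : ℕ)
        · have hAb : A b = false := by
            by_contra hc
            apply h0
            left
            refine ⟨hsb, ?_⟩
            rw [ha1]
            simpa using hc
          simp only [hsb, if_true, hAb, Bool.false_eq_true, if_false]
          by_cases hsa' : s.J ≤ (a : ℕ)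
          · simp only [hsa', if_true]
            split_ifs <;> omega
          · simp only [hsa', if_false]
            have := hpos_s a
            have h5 : (0 : ℤ) ≤ (((s.pos a : Fin (2 * k + 1)) : ℕ) : ℤ) := by positivity
            omega
        · have hsa' : ¬ s.J ≤ (a : ℕ) := by omega
          simp only [hsb, hsa', if_false]
          have hb2 : s.above a b = true := by
            by_contra hc
            apply h0
            right
            refine ⟨by omega, ?_⟩
            rw [ha1]
            simpa using hc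
          unfold Star.above at hb2
          simp only [hsa', if_false, decide_eq_true_eq] at hb2
          have : ((s.pos b : Fin (2 * k + 1)) : ℕ) < (s.pos a : Fin (2 * k + 1)) := hb2
          omega
      · -- b < a : G = a, g = b
        have hl' : (b : ℕ) < a := hl
        have h0 := hr1 a b hb hl (Or.inr hab)
        rw [forced_RR hb hl] at h0
        have ha1 : r.above a b = true := by
          unfold Star.above
          have : r.J ≤ (a : ℕ) := ha
          simp [this]
          omega
        simp only [key1]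
        by_cases hsa' : s.J ≤ (a : ℕ)
        · have hAa : A a = true := by
            by_contra hc
            apply h0
            left
            refine ⟨hsa', ?_⟩
            rw [ha1]
            exact hc
          simp only [hsa', if_true, hAa]
          by_cases hsb : s.J ≤ (b : ℕ)
          · simp only [hsb, if_true]
            split_ifs <;> omega
          · simp only [hsb, if_false]
            have := hpos_s b
            have h5 : (0 : ℤ) ≤ (((s.pos b : Fin (2 * k + 1)) : ℕ) : ℤ) := by positivity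
            omega
        · have hsb : ¬ s.J ≤ (b : ℕ) := by omega
          simp only [hsa', hsb, if_false]
          have hb2 : s.above b a = false := by
            by_contra hc
            apply h0
            right
            refine ⟨by omega, ?_⟩
            rw [ha1]
            simpa using hc
          unfold Star.above at hb2
          simp only [hsb, if_false, decide_eq_false_iff_not] at hb2
          have h6 : ¬ ((s.pos a : Fin (2 * k + 1)) : ℕ) < (s.pos b : Fin (2 * k + 1)) := hb2
          have h7 : ((s.pos a : Fin (2 * k + 1)) : ℕ) ≠ (s.pos b : Fin (2 * k + 1)) := hsa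
          omega)
  have hRleft : ∀ a : Fin (2 * k + 1), (a : ℕ) < r.J ↔ 2 * k + 1 - r.J ≤ (r.pos a : ℕ) := fun a => by
    have := hbR a
    omega
  have hSleft : ∀ a : Fin (2 * k + 1), (a : ℕ) < s.J ↔ 2 * k + 1 - s.J ≤ (s.pos a : ℕ) := fun a => by
    have := hbS a
    omega
  -- chain on the left fan of r
  have c2 := r.chain (fun a => (a : ℕ) < r.J)
    (fun a b c ha hb h1 h2 => by
      have e1 := hRleft a
      have e2 := hRleft c
      have ha' : (a : ℕ) < r.J := ha
      show (c : ℕ) < r.J
      rw [e2]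
      have := e1.mp ha'
      omega) key2 (by
      intro a b ha hb hab
      have ha' : (a : ℕ) < r.J := ha
      have hb' : (b : ℕ) < r.J := hb
      have hab' : a ≠ b := fun e => by subst e; omega
      rcases lt_or_gt_of_ne hab' with hl | hl
      · have hl' : (a : ℕ) < b := hl
        have h0 := hr2 b a hb' hl (Or.inl hab)
        rw [forced_LL hrs hb' hl] at h0
        have ha1 : r.above a b = false := by
          unfold Star.above
          have : ¬ r.J ≤ (a : ℕ) := by omega
          simp [this]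
          omega
        rw [ha1] at h0
        have hAb : A b = true := by simpa using h0
        simp only [key2, hAb, if_true]
        split_ifs <;> omega
      · have hl' : (b : ℕ) < a := hl
        have h0 := hr2 a b ha' hl (Or.inr hab)
        rw [forced_LL hrs ha' hl] at h0
        have ha1 : r.above b a = true := by
          unfold Star.above
          have : ¬ r.J ≤ (b : ℕ) := by omega
          simp [this]
          omega
        rw [ha1] at h0
        have hAa : A a = false := by simpa using h0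
        simp only [key2, hAa, Bool.false_eq_true, if_false]
        split_ifs <;> omega)
  -- chain on the right fan of s
  have c3 := s.chain (fun a => s.J ≤ (a : ℕ))
    (fun a b c ha hb h1 h2 => by
      have e1 := hbS b
      have e2 := hbS c
      have hb' : s.J ≤ (b : ℕ) := hb
      show s.J ≤ (c : ℕ)
      rw [e2]
      have := e1.mp hb'
      omega) key3 (by
      intro a b ha hb hab
      have ha' : s.J ≤ (a : ℕ) := ha
      have hb' : s.J ≤ (b : ℕ) := hb
      have hab' : a ≠ b := fun e => by subst e; omega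
      rcases lt_or_gt_of_ne hab' with hl | hl
      · have hl' : (a : ℕ) < b := hl
        have h0 := hs1 b a ha' hl (Or.inl hab)
        rw [forced_RS (le_trans hrs ha') hl] at h0
        have ha1 : s.above b a = false := by
          unfold Star.above
          simp [hb']
          omega
        rw [ha1] at h0
        have hAa : A a = true := by
          by_contra hc
          exact h0 ⟨ha', by simpa using hc⟩
        simp only [key3, hAa, if_true]
        split_ifs <;> omega
      · have hl' : (b : ℕ) < a := hl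
        have h0 := hs1 a b hb' hl (Or.inr hab)
        rw [forced_RS (le_trans hrs hb') hl] at h0
        have ha1 : s.above a b = true := by
          unfold Star.above
          simp [ha']
          omega
        rw [ha1] at h0
        have hAb : A b = false := by
          by_contra hc
          exact h0 ⟨hb', by simpa using hc⟩
        simp only [key3, hAb, Bool.false_eq_true, if_false]
        split_ifs <;> omega)
  -- chain on the left fan of s
  have c4 := s.chain (fun a => (a : ℕ) < s.J)
    (fun a b c ha hb h1 h2 => by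
      have e1 := hSleft a
      have e2 := hSleft c
      have ha' : (a : ℕ) < s.J := ha
      show (c : ℕ) < s.J
      rw [e2]
      have := e1.mp ha'
      omega) key4 (by
      intro a b ha hb hab
      have ha' : (a : ℕ) < s.J := ha
      have hb' : (b : ℕ) < s.J := hb
      have hab' : a ≠ b := fun e => by subst e; omega
      have hra := fun h => (r.pos_ne (a := a) (b := b) hab' h)
      rcases lt_or_gt_of_ne hab' with hl | hl
      · have hl' : (a : ℕ) < b := hl
        have h0 := hs2 b a hb' hl (Or.inl hab)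
        rw [forced_SL hb' hl] at h0
        have ha1 : s.above a b = false := by
          unfold Star.above
          have : ¬ s.J ≤ (a : ℕ) := by omega
          simp [this]
          omega
        rw [ha1] at h0
        simp only [key4]
        by_cases hra' : (a : ℕ) < r.J
        · have hAa : A a = false := by
            by_contra hc
            exact h0 (Or.inl ⟨hra', hc⟩)
          simp only [hra', if_true, hAa, Bool.false_eq_true, if_false]
          by_cases hrb : (b : ℕ) < r.J
          · simp only [hrb, if_true]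
            split_ifs <;> omega
          · simp only [hrb, if_false]
            have := hpos_r b
            omega
        · have hrb : ¬ (b : ℕ) < r.J := by omega
          simp only [hra', hrb, if_false]
          have h6 : r.above b a = true := by
            by_contra hc
            exact h0 (Or.inr ⟨by omega, by simpa using hc⟩)
          unfold Star.above at h6
          have h7 : r.J ≤ (b : ℕ) := by omega
          simp only [h7, if_true, decide_eq_true_eq] at h6
          have : ((r.pos b : Fin (2 * k + 1)) : ℕ) < (r.pos a : Fin (2 * k + 1)) := h6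
          omega
      · have hl' : (b : ℕ) < a := hl
        have h0 := hs2 a b ha' hl (Or.inr hab)
        rw [forced_SL ha' hl] at h0
        have ha1 : s.above b a = true := by
          unfold Star.above
          have : ¬ s.J ≤ (b : ℕ) := by omega
          simp [this]
          omega
        rw [ha1] at h0
        simp only [key4]
        by_cases hrb : (b : ℕ) < r.J
        · have hAb : A b = true := by
            by_contra hc
            exact h0 (Or.inl ⟨hrb, hc⟩)
          simp only [hrb, if_true, hAb]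
          by_cases hra' : (a : ℕ) < r.J
          · simp only [hra', if_true]
            split_ifs <;> omega
          · simp only [hra', if_false]
            have h5 : (0 : ℤ) ≤ (((r.pos a : Fin (2 * k + 1)) : ℕ) : ℤ) := by positivity
            omega
        · have hra' : ¬ (a : ℕ) < r.J := by omega
          simp only [hra', hrb, if_false]
          have h6 : r.above a b = false := by
            by_contra hc
            exact h0 (Or.inr ⟨by omega, by simpa using hc⟩)
          unfold Star.above at h6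
          have h7 : r.J ≤ (a : ℕ) := by omega
          simp only [h7, if_true, decide_eq_false_iff_not] at h6
          have h8 : ¬ ((r.pos a : Fin (2 * k + 1)) : ℕ) < (r.pos b : Fin (2 * k + 1)) := h6
          have h9 : ((r.pos a : Fin (2 * k + 1)) : ℕ) ≠ (r.pos b : Fin (2 * k + 1)) := hra
          omega)
  -- the clauses
  rcases hf with ⟨h1, h2, h3, h4⟩ | ⟨h1, h2, h3, h4⟩ | ⟨h1, h2, h3⟩ | ⟨h1, h2, h3, h4, h5, h6⟩ |
      ⟨h1, h2, h3, h4⟩ | ⟨h1, h2, h3, h4⟩
  · exfalso
    have hv : (y : ℕ) < x := h3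
    have hxr : r.J ≤ (x : ℕ) := by omega
    have hne := r.pos_ne hxy
    have hab : r.above x y = decide ((r.pos x : ℕ) < r.pos y) := by
      unfold Star.above
      simp [hxr]
    rcases lt_or_gt_of_ne hne with hl | hl
    · have hk := c1 x y hxr h2 hl
      have hAx : A x = false := by
        rw [hab] at h4
        simpa [hl] using h4
      simp only [key1, h1, if_true, hAx, Bool.false_eq_true, if_false] at hk
      by_cases hsy : s.J ≤ (y : ℕ)
      · simp only [hsy, if_true] at hk
        split_ifs at hk <;> omega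
      · simp only [hsy, if_false] at hk
        have := hpos_s y
        have h5 : (0 : ℤ) ≤ (((s.pos y : Fin (2 * k + 1)) : ℕ) : ℤ) := by positivity
        omega
    · have hk := c1 y x h2 hxr hl
      have hAx : A x = true := by
        rw [hab] at h4
        have : ¬ ((r.pos x : ℕ) < r.pos y) := by omega
        simpa [this] using h4
      simp only [key1, h1, if_true, hAx] at hk
      by_cases hsy : s.J ≤ (y : ℕ)
      · simp only [hsy, if_true] at hk
        split_ifs at hk <;> omega
      · simp only [hsy, if_false] at hk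
        have := hpos_s y
        omega
  · exfalso
    have hv : (x : ℕ) < y := h3
    have hne := s.pos_ne hxy
    have hab : s.above y x = decide ((s.pos y : ℕ) < s.pos x) := by
      unfold Star.above
      simp [h2]
    rcases lt_or_gt_of_ne hne with hl | hl
    · have hk := c3 x y h1 h2 hl
      have hAx : A x = false := by
        rw [hab] at h4
        have : ¬ ((s.pos y : ℕ) < s.pos x) := by omega
        simpa [this] using h4
      simp only [key3, hAx, Bool.false_eq_true, if_false] at hk
      split_ifs at hk <;> omega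
    · have hk := c3 y x h2 h1 hl
      have hAx : A x = true := by
        rw [hab] at h4
        simpa [show (s.pos y : ℕ) < s.pos x from hl] using h4
      simp only [key3, hAx, if_true] at hk
      split_ifs at hk <;> omega
  · exact ⟨h1, h2⟩
  · exfalso
    have hne := r.pos_ne hxy
    have hab : r.above x y = decide ((r.pos x : ℕ) < r.pos y) := by
      unfold Star.above
      simp [h1]
    have hab2 : s.above y x = decide ((s.pos x : ℕ) < s.pos y) := by
      unfold Star.above
      have : ¬ s.J ≤ (y : ℕ) := by omega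
      simp [this]
    rw [hab, hab2] at h6
    have hnx : ¬ s.J ≤ (x : ℕ) := by omega
    have hny : ¬ s.J ≤ (y : ℕ) := by omega
    rcases lt_or_gt_of_ne hne with hl | hl
    · have hk := c1 x y h1 h3 hl
      simp only [key1, hnx, hny, if_false] at hk
      have : (s.pos x : ℕ) < s.pos y := by simpa [hl] using h6.symm
      omega
    · have hk := c1 y x h3 h1 hl
      simp only [key1, hnx, hny, if_false] at hk
      have h7 : ¬ ((r.pos x : ℕ) < r.pos y) := by omega
      have : ¬ (s.pos x : ℕ) < s.pos y := by simpa [h7] using h6.symm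
      omega
  · exfalso
    have hv : (y : ℕ) < x := h3
    have hne := s.pos_ne hxy
    have hys : (y : ℕ) < s.J := by omega
    have hab : s.above y x = decide ((s.pos x : ℕ) < s.pos y) := by
      unfold Star.above
      have : ¬ s.J ≤ (y : ℕ) := by omega
      simp [this]
    rcases lt_or_gt_of_ne hne with hl | hl
    · have hk := c4 x y h1 hys hl
      have hAy : A y = false := by
        rw [hab] at h4
        simpa [hl] using h4
      simp only [key4, h2, if_true, hAy, Bool.false_eq_true, if_false] at hk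
      by_cases hrx : (x : ℕ) < r.J
      · simp only [hrx, if_true] at hk
        split_ifs at hk <;> omega
      · simp only [hrx, if_false] at hk
        have := hpos_r x
        omega
    · have hk := c4 y x hys h1 hl
      have hAy : A y = true := by
        rw [hab] at h4
        have : ¬ ((s.pos x : ℕ) < s.pos y) := by omega
        simpa [this] using h4
      simp only [key4, h2, if_true, hAy] at hk
      by_cases hrx : (x : ℕ) < r.J
      · simp only [hrx, if_true] at hk
        split_ifs at hk <;> omega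
      · simp only [hrx, if_false] at hk
        have h5 : (0 : ℤ) ≤ (((r.pos x : Fin (2 * k + 1)) : ℕ) : ℤ) := by positivity
        omega
  · exfalso
    have hv : (x : ℕ) < y := h3
    have hne := r.pos_ne hxy
    have hab : r.above x y = decide ((r.pos y : ℕ) < r.pos x) := by
      unfold Star.above
      have : ¬ r.J ≤ (x : ℕ) := by omega
      simp [this]
    rcases lt_or_gt_of_ne hne with hl | hl
    · have hk := c2 x y h1 h2 hl
      have hAy : A y = false := by
        rw [hab] at h4
        have : ¬ ((r.pos y : ℕ) < r.pos x) := by omega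
        simpa [this] using h4
      simp only [key2, hAy, Bool.false_eq_true, if_false] at hk
      split_ifs at hk <;> omega
    · have hk := c2 y x h2 h1 hl
      have hAy : A y = true := by
        rw [hab] at h4
        simpa [show (r.pos y : ℕ) < r.pos x from hl] using h4
      simp only [key2, hAy, if_true] at hk
      split_ifs at hk <;> omega

/-- Coupled pairs are forced. -/
theorem isingSet_subset (r s : Star k) (A : Fin (2 * k + 1) → Bool) (hrs : r.J ≤ s.J) :
    isingSet r s A ⊆ forcedSet r s A := by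
  intro q hq
  have h := (Finset.mem_filter.mp hq).2
  refine Finset.mem_filter.mpr ⟨mem_univ _, ?_, ?_⟩
  · intro e
    have h1 := h.1
    have h2 := h.2.1
    rw [e] at h1
    omega
  · exact Or.inr (Or.inr (Or.inl h))

/-- **Reduction of the key inequality.** -/
theorem descent_core (Ag : Star k → Star k → ℕ)
    (hL1 : ∀ r s P hP hf, Ag r s ≤ Ag (Star.swapAt r P hP hf) s + 1)
    (hL2 : ∀ r s P hP hf, Ag r s ≤ Ag r (Star.swapAt s P hP hf) + 1)
    (hbase : ∀ r s A, r.J ≤ s.J → (∀ x y, x ≠ y → forced r s A x y → s.J ≤ (x : ℕ) ∧ (y : ℕ) < r.J) →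
      Ag r s ≤ (isingSet r s A).card)
    (r s : Star k) (A : Fin (2 * k + 1) → Bool) (hrs : r.J ≤ s.J) :
    Ag r s ≤ (forcedSet r s A).card := by
  have main : ∀ e (r s : Star k), r.J ≤ s.J → (forcedSet r s A).card = e →
      Ag r s ≤ (forcedSet r s A).card := by
    intro e
    induction e using Nat.strong_induction_on with
    | _ e ih =>
      intro r s hrs he
      by_cases h1 : ∃ G g : Fin (2 * k + 1), r.J ≤ (g : ℕ) ∧ g < G ∧
          ((r.pos G : ℕ) = r.pos g + 1 ∨ (r.pos g : ℕ) = r.pos G + 1) ∧ forced r s A G g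
      · obtain ⟨G, g, hg, hgG, hadj, hf⟩ := h1
        have hv : (g : ℕ) < G := hgG
        have hb1 := r.block g
        have hb2 := r.block G
        have hG' : r.J ≤ (G : ℕ) := by omega
        have hp1 := hb1.mp hg
        have hp2 := hb2.mp hG'
        rcases hadj with h | h
        · have hP : (r.pos g : ℕ) + 1 < 2 * k + 1 := by have := r.hJ; omega
          have hfan : (r.pos g : ℕ) + 1 < 2 * k + 1 - r.J ∨ 2 * k + 1 - r.J ≤ (r.pos g : ℕ) := Or.inl (by omega)
          have hd := drop_r_right r s A _ hP hfan G g hg hgG (Or.inr ⟨h, rfl⟩) hf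
          have := ih _ (by omega) (r.swapAt _ hP hfan) s hrs rfl
          have := hL1 r s _ hP hfan
          omega
        · have hP : (r.pos G : ℕ) + 1 < 2 * k + 1 := by have := r.hJ; omega
          have hfan : (r.pos G : ℕ) + 1 < 2 * k + 1 - r.J ∨ 2 * k + 1 - r.J ≤ (r.pos G : ℕ) := Or.inl (by omega)
          have hd := drop_r_right r s A _ hP hfan G g hg hgG (Or.inl ⟨rfl, h⟩) hf
          have := ih _ (by omega) (r.swapAt _ hP hfan) s hrs rfl
          have := hL1 r s _ hP hfan
          omega
      by_cases h2 : ∃ G g : Fin (2 * k + 1), (G : ℕ) < r.J ∧ g < G ∧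
          ((r.pos G : ℕ) = r.pos g + 1 ∨ (r.pos g : ℕ) = r.pos G + 1) ∧ forced r s A g G
      · obtain ⟨G, g, hG, hgG, hadj, hf⟩ := h2
        have hv : (g : ℕ) < G := hgG
        have hb1 := r.block g
        have hb2 := r.block G
        have hg' : ¬ r.J ≤ (g : ℕ) := by omega
        have hG' : ¬ r.J ≤ (G : ℕ) := by omega
        have hp1 : ¬ (r.pos g : ℕ) < 2 * k + 1 - r.J := fun h => hg' (hb1.mpr h)
        have hp2 : ¬ (r.pos G : ℕ) < 2 * k + 1 - r.J := fun h => hG' (hb2.mpr h)
        have hg3 := (r.pos g).2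
        have hG3 := (r.pos G).2
        rcases hadj with h | h
        · have hP : (r.pos g : ℕ) + 1 < 2 * k + 1 := by omega
          have hfan : (r.pos g : ℕ) + 1 < 2 * k + 1 - r.J ∨ 2 * k + 1 - r.J ≤ (r.pos g : ℕ) := Or.inr (by omega)
          have hd := drop_r_left r s A hrs _ hP hfan G g hG hgG (Or.inr ⟨h, rfl⟩) hf
          have := ih _ (by omega) (r.swapAt _ hP hfan) s hrs rfl
          have := hL1 r s _ hP hfan
          omega
        · have hP : (r.pos G : ℕ) + 1 < 2 * k + 1 := by omega
          have hfan : (r.pos G : ℕ) + 1 < 2 * k + 1 - r.J ∨ 2 * k + 1 - r.J ≤ (r.pos G : ℕ) := Or.inr (by omega)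
          have hd := drop_r_left r s A hrs _ hP hfan G g hG hgG (Or.inl ⟨rfl, h⟩) hf
          have := ih _ (by omega) (r.swapAt _ hP hfan) s hrs rfl
          have := hL1 r s _ hP hfan
          omega
      by_cases h3 : ∃ G g : Fin (2 * k + 1), s.J ≤ (g : ℕ) ∧ g < G ∧
          ((s.pos G : ℕ) = s.pos g + 1 ∨ (s.pos g : ℕ) = s.pos G + 1) ∧ forced r s A g G
      · obtain ⟨G, g, hg, hgG, hadj, hf⟩ := h3
        have hv : (g : ℕ) < G := hgG
        have hb1 := s.block g
        have hb2 := s.block G
        have hG' : s.J ≤ (G : ℕ) := by omega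
        have hp1 := hb1.mp hg
        have hp2 := hb2.mp hG'
        rcases hadj with h | h
        · have hP : (s.pos g : ℕ) + 1 < 2 * k + 1 := by have := s.hJ; omega
          have hfan : (s.pos g : ℕ) + 1 < 2 * k + 1 - s.J ∨ 2 * k + 1 - s.J ≤ (s.pos g : ℕ) := Or.inl (by omega)
          have hd := drop_s_right r s A hrs _ hP hfan G g hg hgG (Or.inr ⟨h, rfl⟩) hf
          have := ih _ (by omega) r (s.swapAt _ hP hfan) hrs rfl
          have := hL2 r s _ hP hfan
          omega
        · have hP : (s.pos G : ℕ) + 1 < 2 * k + 1 := by have := s.hJ; omega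
          have hfan : (s.pos G : ℕ) + 1 < 2 * k + 1 - s.J ∨ 2 * k + 1 - s.J ≤ (s.pos G : ℕ) := Or.inl (by omega)
          have hd := drop_s_right r s A hrs _ hP hfan G g hg hgG (Or.inl ⟨rfl, h⟩) hf
          have := ih _ (by omega) r (s.swapAt _ hP hfan) hrs rfl
          have := hL2 r s _ hP hfan
          omega
      by_cases h4 : ∃ G g : Fin (2 * k + 1), (G : ℕ) < s.J ∧ g < G ∧
          ((s.pos G : ℕ) = s.pos g + 1 ∨ (s.pos g : ℕ) = s.pos G + 1) ∧ forced r s A G g
      · obtain ⟨G, g, hG, hgG, hadj, hf⟩ := h4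
        have hv : (g : ℕ) < G := hgG
        have hb1 := s.block g
        have hb2 := s.block G
        have hg' : ¬ s.J ≤ (g : ℕ) := by omega
        have hG' : ¬ s.J ≤ (G : ℕ) := by omega
        have hp1 : ¬ (s.pos g : ℕ) < 2 * k + 1 - s.J := fun h => hg' (hb1.mpr h)
        have hp2 : ¬ (s.pos G : ℕ) < 2 * k + 1 - s.J := fun h => hG' (hb2.mpr h)
        have hg3 := (s.pos g).2
        have hG3 := (s.pos G).2
        rcases hadj with h | h
        · have hP : (s.pos g : ℕ) + 1 < 2 * k + 1 := by omega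
          have hfan : (s.pos g : ℕ) + 1 < 2 * k + 1 - s.J ∨ 2 * k + 1 - s.J ≤ (s.pos g : ℕ) := Or.inr (by omega)
          have hd := drop_s_left r s A _ hP hfan G g hG hgG (Or.inr ⟨h, rfl⟩) hf
          have := ih _ (by omega) r (s.swapAt _ hP hfan) hrs rfl
          have := hL2 r s _ hP hfan
          omega
        · have hP : (s.pos G : ℕ) + 1 < 2 * k + 1 := by omega
          have hfan : (s.pos G : ℕ) + 1 < 2 * k + 1 - s.J ∨ 2 * k + 1 - s.J ≤ (s.pos G : ℕ) := Or.inr (by omega)
          have hd := drop_s_left r s A _ hP hfan G g hG hgG (Or.inl ⟨rfl, h⟩) hf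
          have := ih _ (by omega) r (s.swapAt _ hP hfan) hrs rfl
          have := hL2 r s _ hP hfan
          omega
      -- nothing adjacent is violated
      push_neg at h1 h2 h3 h4
      have honly := only_coupled r s A hrs
        (fun G g a b c => h1 G g a b c) (fun G g a b c => h2 G g a b c)
        (fun G g a b c => h3 G g a b c) (fun G g a b c => h4 G g a b c)
      have := hbase r s A hrs honly
      exact le_trans this (Finset.card_le_card (isingSet_subset r s A hrs))
  exact main _ r s hrs rfl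

end Vale.Agent.Lib.P040Z
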