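import Vale.Agent.Lib.P040Z.Defs
import Vale.Agent.Lib.P040Z.Assemble

/-!
Final assembly of the bound for `x`-monotone drawings in which the edges at one red vertex meet only
at that vertex, from the three parts: the stars of a drawing, the key inequality, and the sum over
pairs of reds.
-/

namespace Vale.Agent.Lib.P040Z

open Finset Vale.Agent.Lib.P040 Vale.Agent.Lib.P040M

/-- The edges at one red vertex have no common point besides that vertex. -/
def StarSimple {m n : ℕ} (D : MonoDrawing m n) : Prop :=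
  ∀ r b c, b ≠ c → ∀ t, t ∈ Set.uIcc (D.xR r) (D.xB b) → t ∈ Set.uIcc (D.xR r) (D.xB c) →
    t ≠ D.xR r → D.edge r b t ≠ D.edge r c t

theorem StarSimple.del {m n : ℕ} {D : MonoDrawing m (n + 1)} (h : StarSimple D) (b : Fin (n + 1)) :
    StarSimple (del D b) := fun r u v huv t h1 h2 h3 =>
  h r (b.succAbove u) (b.succAbove v) (fun e => huv (Fin.succAbove_right_injective e)) t h1 h2 h3

theorem agree_comm {k : ℕ} (T T' : Star k) : agree T T' = agree T' T := by
  unfold agree
  refine Finset.sum_congr rfl fun l _ => ?_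
  congr 1
  ext i
  simp [eq_comm]

theorem meet_symm {m n : ℕ} (D : MonoDrawing m n) {r s : Fin m} {x y : Fin n} :
    D.Meet r x s y ↔ D.Meet s y r x := by
  unfold MonoDrawing.Meet
  constructor
  · rintro ⟨t, h1, h2, h3⟩
    exact ⟨t, h2, h1, h3.symm⟩
  · rintro ⟨t, h1, h2, h3⟩
    exact ⟨t, h2, h1, h3.symm⟩

open Classical in
/-- Pairs of edges from `r` and `s` without a common end that have a common point. -/
noncomputable def pairMeet {m n : ℕ} (D : MonoDrawing m n) (r s : Fin m) : ℕ :=
  ((univ : Finset (Fin n × Fin n)).filter fun p => p.1 ≠ p.2 ∧ D.Meet r p.1 s p.2).card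

theorem pairMeet_comm {m n : ℕ} (D : MonoDrawing m n) (r s : Fin m) :
    pairMeet D r s = pairMeet D s r := by
  classical
  unfold pairMeet
  refine Finset.card_bij (fun p _ => (p.2, p.1)) ?_ ?_ ?_
  · rintro ⟨x, y⟩ h
    simp only [mem_filter, mem_univ, true_and] at h ⊢
    exact ⟨fun e => h.1 e.symm, (meet_symm D).1 h.2⟩
  · rintro ⟨x, y⟩ _ ⟨u, v⟩ _ h
    simp only [Prod.mk.injEq] at h ⊢
    exact ⟨h.2, h.1⟩
  · rintro ⟨x, y⟩ h
    simp only [mem_filter, mem_univ, true_and] at h
    refine ⟨(y, x), ?_, rfl⟩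
    simp only [mem_filter, mem_univ, true_and]
    exact ⟨fun e => h.1 e.symm, (meet_symm D).1 h.2⟩

theorem meetingPairs_eq_sum {m n : ℕ} (D : MonoDrawing m n) :
    D.meetingPairs = ∑ r : Fin m, ∑ s : Fin m, if r < s then pairMeet D r s else 0 := by
  classical
  unfold MonoDrawing.meetingPairs pairMeet
  simp only [card_filter]
  rw [Fintype.sum_prod_type]
  refine Finset.sum_congr rfl fun r _ => ?_
  rw [Fintype.sum_prod_type]
  refine Finset.sum_congr rfl fun s _ => ?_
  by_cases h : r < s
  · simp only [h, if_true, true_and]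
  · simp only [h, if_false, false_and, Finset.sum_const_zero]

/-- The odd case from the parts. -/
theorem odd_of_parts {m k : ℕ} (D : MonoDrawing m (2 * k + 1)) (star : Fin m → Star k)
    (hmodel : ∀ r s, D.xR r < D.xR s → (star r).J ≤ (star s).J ∧
      ∃ A : Fin (2 * k + 1) → Bool, ∀ x y, x ≠ y → forced (star r) (star s) A x y → D.Meet r x s y)
    (hcore : ∀ (T T' : Star k), T.J ≤ T'.J → ∀ A : Fin (2 * k + 1) → Bool,
      agree T T' ≤ ((univ : Finset (Fin (2 * k + 1) × Fin (2 * k + 1))).filter fun p =>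
        p.1 ≠ p.2 ∧ forced T T' A p.1 p.2).card)
    (hsum : zar m * (k * k) ≤ ∑ r : Fin m, ∑ s : Fin m,
      if r < s then agree (star r) (star s) else 0) :
    zar m * (k * k) ≤ D.meetingPairs := by
  classical
  have hpair : ∀ r s : Fin m, D.xR r < D.xR s → agree (star r) (star s) ≤ pairMeet D r s := by
    intro r s hrs
    obtain ⟨hJ, A, hA⟩ := hmodel r s hrs
    refine le_trans (hcore _ _ hJ A) ?_
    unfold pairMeet
    refine Finset.card_le_card fun p hp => ?_
    simp only [mem_filter, mem_univ, true_and] at hp ⊢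
    exact ⟨hp.1, hA _ _ hp.1 hp.2⟩
  refine le_trans hsum ?_
  rw [meetingPairs_eq_sum]
  refine Finset.sum_le_sum fun r _ => Finset.sum_le_sum fun s _ => ?_
  by_cases hrs : r < s
  · simp only [hrs, if_true]
    have hne : D.xR r ≠ D.xR s := fun e => hrs.ne (D.xR_inj e)
    rcases lt_or_gt_of_ne hne with h | h
    · exact hpair r s h
    · rw [agree_comm, pairMeet_comm]
      exact hpair s r h
  · simp [hrs]

/-- The full bound from the odd case, for all `n`. -/
theorem all_of_odd {m : ℕ}
    (hodd : ∀ k (D : MonoDrawing m (2 * k + 1)), StarSimple D →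
      zar m * (k * k) ≤ D.meetingPairs)
    {n : ℕ} (D : MonoDrawing m n) (hS : StarSimple D) : zar m * zar n ≤ D.meetingPairs := by
  rcases Nat.even_or_odd' n with ⟨k, rfl | rfl⟩
  · cases k with
    | zero => simp [zar]
    | succ k =>
      exact even_step (k := k) D fun b => by
        rw [zar_odd]
        exact hodd k _ (StarSimple.del (n := 2 * k + 1) hS b)
  · rw [zar_odd]
    exact hodd k D hS

end Vale.Agent.Lib.P040Z
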