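import Vale.Agent.Lib.P040Z.Defs

/-!
Elementary facts on `fval`: window without modulus, reversal, shift, extreme values, counts of thermometer bits.
-/

namespace Vale.Agent.Lib.P040Z

open Finset

variable {k : ℕ}

/-- The offset of position `p` after position `q`, without modulus. -/
theorem off_val {n p q : ℕ} (hp : p < n) (hq : q < n) :
    (p + n - q) % n = if q ≤ p then p - q else p + n - q := by
  split_ifs with h
  · have : p + n - q = (p - q) + n := by omega
    rw [this, Nat.add_mod_right, Nat.mod_eq_of_lt (by omega)]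
  · exact Nat.mod_eq_of_lt (by omega)

/-- The offset of `z` after `l` in the rotation `σ`. -/
def off (σ : Fin (2 * k + 1) → Fin (2 * k + 1)) (l z : Fin (2 * k + 1)) : ℕ :=
  ((σ z : ℕ) + (2 * k + 1) - σ l) % (2 * k + 1)

theorem off_eq (σ : Fin (2 * k + 1) → Fin (2 * k + 1)) (l z : Fin (2 * k + 1)) :
    off σ l z = if (σ l : ℕ) ≤ σ z then (σ z : ℕ) - σ l else (σ z : ℕ) + (2 * k + 1) - σ l :=
  off_val (σ z).2 (σ l).2

theorem inW_iff (p q : Fin (2 * k + 1)) :
    inW k p q ↔ ((q : ℕ) < p ∧ (p : ℕ) ≤ q + k) ∨ ((p : ℕ) + k + 1 ≤ q) := by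
  unfold inW
  rw [off_val p.2 q.2]
  have hp := p.2
  have hq := q.2
  split_ifs with h <;> omega

/-- The window of `k` positions after position `q` has `k` elements. -/
theorem card_inW (q : Fin (2 * k + 1)) : (univ.filter fun p : Fin (2 * k + 1) => inW k p q).card = k := by
  have hq := q.2
  have e : (univ.filter fun p : Fin (2 * k + 1) => inW k p q).card
      = ((range (2 * k + 1)).filter fun p => ((q : ℕ) < p ∧ p ≤ q + k) ∨ (p + k + 1 ≤ q)).card := by
    rw [Finset.card_filter, Finset.card_filter,
      ← Fin.sum_univ_eq_sum_range (fun p => if ((q : ℕ) < p ∧ p ≤ q + k) ∨ (p + k + 1 ≤ q) then 1 else 0)]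
    refine Finset.sum_congr rfl fun p _ => ?_
    simp only [inW_iff]
  rw [e]
  have e2 : ((range (2 * k + 1)).filter fun p => ((q : ℕ) < p ∧ p ≤ q + k) ∨ (p + k + 1 ≤ q))
      = Ioc (q : ℕ) (min (q + k) (2 * k)) ∪ range (q - k) := by
    ext p
    simp only [mem_filter, mem_range, mem_union, mem_Ioc]
    omega
  rw [e2, Finset.card_union_of_disjoint, Nat.card_Ioc, card_range]
  · omega
  · rw [Finset.disjoint_left]
    intro p hp hp2
    simp only [mem_Ioc] at hp
    simp only [mem_range] at hp2
    omega

/-- The window of `l` in the rotation `σ`. -/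
def win (σ : Fin (2 * k + 1) → Fin (2 * k + 1)) (l : Fin (2 * k + 1)) : Finset (Fin (2 * k + 1)) :=
  univ.filter fun z => inW k (σ z) (σ l)

theorem card_win (σ : Equiv.Perm (Fin (2 * k + 1))) (l : Fin (2 * k + 1)) : (win σ l).card = k := by
  have : (win σ l).card = (univ.filter fun p : Fin (2 * k + 1) => inW k p (σ l)).card := by
    unfold win
    apply Finset.card_bij (fun z _ => σ z)
    · intro z hz
      simpa using hz
    · intro a _ b _ h
      exact σ.injective h
    · intro p hp
      refine ⟨σ.symm p, ?_, by simp⟩
      simpa using hp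
  rw [this, card_inW]

theorem mem_win {σ : Fin (2 * k + 1) → Fin (2 * k + 1)} {l z : Fin (2 * k + 1)} :
    z ∈ win σ l ↔ 1 ≤ off σ l z ∧ off σ l z ≤ k := by
  have h : z ∈ win σ l ↔ inW k (σ z) (σ l) := by simp [win]
  rw [h]
  exact Iff.rfl

theorem fval_eq (σ : Fin (2 * k + 1) → Fin (2 * k + 1)) (l : Fin (2 * k + 1)) :
    fval σ l = ((univ.filter fun y : Fin (2 * k + 1) => y < l) ∩ win σ l).card := by
  unfold fval win
  congr 1
  ext y
  simp only [mem_filter, mem_univ, true_and, mem_inter]

/-- Larger labels in the window. -/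
def gval (σ : Fin (2 * k + 1) → Fin (2 * k + 1)) (l : Fin (2 * k + 1)) : ℕ :=
  ((univ.filter fun x : Fin (2 * k + 1) => l < x) ∩ win σ l).card

theorem not_self_win (σ : Fin (2 * k + 1) → Fin (2 * k + 1)) (l : Fin (2 * k + 1)) : l ∉ win σ l := by
  rw [mem_win]
  have : off σ l l = 0 := by
    rw [off_eq]
    simp
  omega

theorem fval_add_gval (σ : Equiv.Perm (Fin (2 * k + 1))) (l : Fin (2 * k + 1)) : fval σ l + gval σ l = k := by
  have hk := card_win σ l
  suffices hs : fval σ l + gval σ l = (win σ l).card by rw [hs, hk]
  rw [fval_eq]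
  unfold gval
  rw [← Finset.card_union_of_disjoint]
  · congr 1
    ext z
    simp only [mem_union, mem_inter, mem_filter, mem_univ, true_and]
    constructor
    · rintro (h | h) <;> exact h.2
    · intro h
      have hne : z ≠ l := fun e => not_self_win σ l (e ▸ h)
      rcases lt_or_gt_of_ne hne with h1 | h1
      · exact Or.inl ⟨h1, h⟩
      · exact Or.inr ⟨h1, h⟩
  · rw [Finset.disjoint_left]
    intro z h1 h2
    simp only [mem_inter, mem_filter, mem_univ, true_and] at h1 h2
    exact lt_asymm h1.1 h2.1

theorem card_lt (l : Fin (2 * k + 1)) : (univ.filter fun y : Fin (2 * k + 1) => y < l).card = l := by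
  have : (univ.filter fun y : Fin (2 * k + 1) => y < l) = Iio l := by
    ext y; simp
  rw [this, Fin.card_Iio]

theorem card_gt (l : Fin (2 * k + 1)) : (univ.filter fun x : Fin (2 * k + 1) => l < x).card = 2 * k - l := by
  have : (univ.filter fun x : Fin (2 * k + 1) => l < x) = Ioi l := by
    ext y; simp
  rw [this, Fin.card_Ioi]
  omega

theorem fval_le_left (σ : Fin (2 * k + 1) → Fin (2 * k + 1)) (l : Fin (2 * k + 1)) : fval σ l ≤ l := by
  rw [fval_eq, ← card_lt l]
  exact Finset.card_le_card Finset.inter_subset_left

theorem gval_le (σ : Fin (2 * k + 1) → Fin (2 * k + 1)) (l : Fin (2 * k + 1)) : gval σ l ≤ 2 * k - l := by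
  unfold gval
  rw [← card_gt l]
  exact Finset.card_le_card Finset.inter_subset_left

/-- Range of `fval`. -/
theorem fval_range (σ : Equiv.Perm (Fin (2 * k + 1))) (l : Fin (2 * k + 1)) :
    (l : ℕ) - k ≤ fval σ l ∧ fval σ l ≤ min (l : ℕ) k := by
  have h1 := fval_add_gval σ l
  have h2 := fval_le_left σ l
  have h3 := gval_le σ l
  omega

theorem uval_le (σ : Equiv.Perm (Fin (2 * k + 1))) (l : Fin (2 * k + 1)) : uval σ l ≤ wid k l := by
  have := fval_range σ l
  unfold uval wid
  omega

/-- All smaller labels come first after `l`: the value is the largest possible. -/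
theorem fval_small_first (σ : Equiv.Perm (Fin (2 * k + 1))) (l : Fin (2 * k + 1))
    (h : ∀ y x, y < l → l < x → off σ l y < off σ l x) : fval σ l = min (l : ℕ) k := by
  have h0 := fval_range σ l
  by_cases hs : ∀ y, y < l → y ∈ win σ l
  · have : fval σ l = l := by
      rw [fval_eq, ← card_lt l]
      congr 1
      ext y
      simp only [mem_inter, mem_filter, mem_univ, true_and]
      exact ⟨fun a => a.1, fun a => ⟨a, hs y a⟩⟩
    omega
  · push Not at hs
    obtain ⟨y, hy, hyw⟩ := hs
    have hyne : y ≠ l := ne_of_lt hy
    have hoffy : k < off σ l y := by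
      rw [mem_win] at hyw
      have : 1 ≤ off σ l y := by
        rw [off_eq]
        have hinj : (σ y : ℕ) ≠ σ l := fun e => hyne (σ.injective (Fin.ext e))
        have := (σ y).2
        have := (σ l).2
        split_ifs <;> omega
      omega
    have hg : gval σ l = 0 := by
      unfold gval
      rw [Finset.card_eq_zero, Finset.eq_empty_iff_forall_notMem]
      intro x hx
      simp only [mem_inter, mem_filter, mem_univ, true_and] at hx
      have h1 := h y x hy hx.1
      have h2 := mem_win.mp hx.2
      omega
    have := fval_add_gval σ l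
    omega

/-- All larger labels come first after `l`: the value is the smallest possible. -/
theorem fval_large_first (σ : Equiv.Perm (Fin (2 * k + 1))) (l : Fin (2 * k + 1))
    (h : ∀ y x, y < l → l < x → off σ l x < off σ l y) : fval σ l = (l : ℕ) - k := by
  have h0 := fval_range σ l
  by_cases hs : ∀ x, l < x → x ∈ win σ l
  · have : gval σ l = 2 * k - l := by
      unfold gval
      rw [← card_gt l]
      congr 1
      ext y
      simp only [mem_inter, mem_filter, mem_univ, true_and]
      exact ⟨fun a => a.1, fun a => ⟨a, hs y a⟩⟩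
    have h2 := fval_add_gval σ l
    have hl := l.2
    omega
  · push Not at hs
    obtain ⟨x, hx, hxw⟩ := hs
    have hxne : x ≠ l := ne_of_gt hx
    have hoffx : k < off σ l x := by
      rw [mem_win] at hxw
      have : 1 ≤ off σ l x := by
        rw [off_eq]
        have hinj : (σ x : ℕ) ≠ σ l := fun e => hxne (σ.injective (Fin.ext e))
        have := (σ x).2
        have := (σ l).2
        split_ifs <;> omega
      omega
    have hf : fval σ l = 0 := by
      rw [fval_eq, Finset.card_eq_zero, Finset.eq_empty_iff_forall_notMem]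
      intro y hy
      simp only [mem_inter, mem_filter, mem_univ, true_and] at hy
      have h1 := h y x hy.1 hx
      have h2 := mem_win.mp hy.2
      omega
    omega

/-- Reversal of a rotation. -/
def revP (σ : Equiv.Perm (Fin (2 * k + 1))) : Equiv.Perm (Fin (2 * k + 1)) :=
  σ.trans Fin.revPerm

theorem inW_rev (p q : Fin (2 * k + 1)) (hpq : p ≠ q) : inW k (Fin.rev p) (Fin.rev q) ↔ ¬ inW k p q := by
  rw [inW_iff, inW_iff, Fin.val_rev, Fin.val_rev]
  have hp := p.2
  have hq := q.2
  have hne : (p : ℕ) ≠ q := fun e => hpq (Fin.ext e)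
  omega

theorem fval_rev (σ : Equiv.Perm (Fin (2 * k + 1))) (l : Fin (2 * k + 1)) :
    fval (revP σ) l + fval σ l = l := by
  unfold fval
  rw [← card_lt l, ← Finset.card_union_of_disjoint]
  · congr 1
    ext y
    simp only [mem_union, mem_filter, mem_univ, true_and]
    constructor
    · rintro (h | h) <;> exact h.1
    · intro hy
      have hne : σ y ≠ σ l := fun e => (ne_of_lt hy) (σ.injective e)
      have := inW_rev (σ y) (σ l) hne
      simp only [revP, Equiv.trans_apply, Fin.revPerm_apply]
      by_cases h3 : inW k (σ y) (σ l)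
      · exact Or.inr ⟨hy, h3⟩
      · exact Or.inl ⟨hy, this.mpr h3⟩
  · rw [Finset.disjoint_left]
    intro y h1 h2
    simp only [mem_filter, mem_univ, true_and] at h1 h2
    have hne : σ y ≠ σ l := fun e => (ne_of_lt h1.1) (σ.injective e)
    have := inW_rev (σ y) (σ l) hne
    simp only [revP, Equiv.trans_apply, Fin.revPerm_apply] at h1
    exact (this.mp h1.2) h2.2

/-- Shift of positions. -/
theorem inW_shift (p q c : Fin (2 * k + 1)) : inW k (p + c) (q + c) ↔ inW k p q := by
  rw [inW_iff, inW_iff, Fin.val_add_eq_ite, Fin.val_add_eq_ite]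
  have hp := p.2
  have hq := q.2
  have hc := c.2
  split_ifs <;> omega

theorem fval_shift (σ : Fin (2 * k + 1) → Fin (2 * k + 1)) (c : Fin (2 * k + 1)) (l : Fin (2 * k + 1)) :
    fval (fun x => σ x + c) l = fval σ l := by
  unfold fval
  congr 1
  ext y
  simp only [mem_filter, mem_univ, true_and, inW_shift]

/-! Thermometer counts. -/

theorem therm_same (w u v : ℕ) (hu : u ≤ w) (hv : v ≤ w) :
    ((range w).filter fun i => decide (i < u) = decide (i < v)).card + (max u v - min u v) = w := by
  have e : ((range w).filter fun i => decide (i < u) = decide (i < v))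
      = range (min u v) ∪ Ico (max u v) w := by
    ext i
    simp only [mem_filter, mem_range, mem_union, mem_Ico, decide_eq_decide]
    omega
  rw [e, Finset.card_union_of_disjoint, card_range, Nat.card_Ico]
  · omega
  · rw [Finset.disjoint_left]
    intro i h1 h2
    simp only [mem_range] at h1
    simp only [mem_Ico] at h2
    omega

theorem therm_refl (w u v : ℕ) (hu : u ≤ w) (hv : v ≤ w) :
    ((range w).filter fun i => decide (w - i ≤ u) = decide (w - i ≤ v)).card + (max u v - min u v) = w := by
  have h := therm_same w (w - u) (w - v) (by omega) (by omega)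
  have e : ((range w).filter fun i => decide (w - i ≤ u) = decide (w - i ≤ v))
      = ((range w).filter fun i => decide (i < w - u) = decide (i < w - v)) := by
    ext i
    simp only [mem_filter, mem_range, decide_eq_decide]
    constructor <;> intro a <;> refine ⟨a.1, ?_⟩ <;> have := a.1 <;> have := a.2 <;> omega
  rw [e]
  omega

theorem therm_mixed (w u v : ℕ) (hu : u ≤ w) (hv : v ≤ w) :
    ((range w).filter fun i => decide (i < u) = decide (w - i ≤ v)).card = (u + v - w) + (w - (u + v)) := by
  by_cases hc : w ≤ u + v
  · have e : ((range w).filter fun i => decide (i < u) = decide (w - i ≤ v)) = Ico (w - v) u := by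
      ext i
      simp only [mem_filter, mem_range, mem_Ico, decide_eq_decide]
      omega
    rw [e, Nat.card_Ico]
    omega
  · have e : ((range w).filter fun i => decide (i < u) = decide (w - i ≤ v)) = Ico u (w - v) := by
      ext i
      simp only [mem_filter, mem_range, mem_Ico, decide_eq_decide]
      omega
    rw [e, Nat.card_Ico]
    omega

/-! Agreement at one pivot, in terms of `fval`. -/

/-- `|f + f' - l|` in natural numbers. -/
def absF (f f' l : ℕ) : ℕ := (f + f' - l) + (l - (f + f'))

theorem agree_between (r s : Star k) (l : Fin (2 * k + 1)) (h1 : r.J ≤ (l : ℕ)) (h2 : (l : ℕ) < s.J) :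
    ((range (wid k l)).filter fun i => r.bit l i = s.bit l i).card = absF (fval r.pos l) (fval s.pos l) l := by
  have hr := fval_range r.pos l
  have hs := fval_range s.pos l
  have e : ((range (wid k l)).filter fun i => r.bit l i = s.bit l i)
      = ((range (wid k l)).filter fun i =>
          decide (i < uval r.pos l) = decide (wid k l - i ≤ uval s.pos l)) := by
    ext i
    simp only [mem_filter, Star.bit, h1, not_le.mpr h2, if_true, if_false]
  rw [e, therm_mixed _ _ _ (uval_le r.pos l) (uval_le s.pos l)]
  unfold absF uval wid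
  have hl := l.2
  omega

/-- On the same side, if one of the two values is extreme the count is again `|f + f' - l|`. -/
theorem agree_same_right (r s : Star k) (l : Fin (2 * k + 1)) (h1 : r.J ≤ (l : ℕ)) (h2 : s.J ≤ (l : ℕ))
    (hx : fval s.pos l = min (l : ℕ) k ∨ fval s.pos l = (l : ℕ) - k) :
    ((range (wid k l)).filter fun i => r.bit l i = s.bit l i).card = absF (fval r.pos l) (fval s.pos l) l := by
  have hr := fval_range r.pos l
  have hs := fval_range s.pos l
  have e : ((range (wid k l)).filter fun i => r.bit l i = s.bit l i)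
      = ((range (wid k l)).filter fun i =>
          decide (i < uval r.pos l) = decide (i < uval s.pos l)) := by
    ext i
    simp only [mem_filter, Star.bit, h1, h2, if_true]
  rw [e]
  have := therm_same _ _ _ (uval_le r.pos l) (uval_le s.pos l)
  unfold absF
  unfold uval wid at *
  have hl := l.2
  rcases hx with hx | hx <;> omega

theorem agree_same_left (r s : Star k) (l : Fin (2 * k + 1)) (h1 : (l : ℕ) < r.J) (h2 : (l : ℕ) < s.J)
    (hx : fval r.pos l = min (l : ℕ) k ∨ fval r.pos l = (l : ℕ) - k) :
    ((range (wid k l)).filter fun i => r.bit l i = s.bit l i).card = absF (fval r.pos l) (fval s.pos l) l := by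
  have hr := fval_range r.pos l
  have hs := fval_range s.pos l
  have e : ((range (wid k l)).filter fun i => r.bit l i = s.bit l i)
      = ((range (wid k l)).filter fun i =>
          decide (wid k l - i ≤ uval r.pos l) = decide (wid k l - i ≤ uval s.pos l)) := by
    ext i
    simp only [mem_filter, Star.bit, not_le.mpr h1, not_le.mpr h2, if_false]
  rw [e]
  have := therm_refl _ _ _ (uval_le r.pos l) (uval_le s.pos l)
  unfold absF
  unfold uval wid at *
  have hl := l.2
  rcases hx with hx | hx <;> omega

/-- `|f + f' - l| = |f - f_rev'|`. -/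
theorem absF_eq_rev (σ τ : Equiv.Perm (Fin (2 * k + 1))) (l : Fin (2 * k + 1)) :
    absF (fval σ l) (fval τ l) l
      = max (fval σ l) (fval (revP τ) l) - min (fval σ l) (fval (revP τ) l) := by
  have := fval_rev τ l
  unfold absF
  omega

end Vale.Agent.Lib.P040Z
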