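import Vale.Agent.Lib.P040Z.Defs

/-!
Thermometer counts, range of `fval`, reversal, and the per-pivot formula for `agree`.
-/

namespace Vale.Agent.Lib.P040Z.Thermo

open Vale.Agent.Lib.P040Z

open Finset

variable {k : ℕ}

lemma card_therm_same (w a b : ℕ) (ha : a ≤ w) (hb : b ≤ w) :
    (((range w).filter fun i => decide (i < a) = decide (i < b)).card : ℤ) =
      w - |(a : ℤ) - b| := by
  have hsum := Finset.card_filter_add_card_filter_not (s := range w)
    (fun i => decide (i < a) = decide (i < b))
  rw [Finset.card_range] at hsum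
  rcases le_total a b with h | h
  · have h1 : (range w).filter (fun i => ¬ decide (i < a) = decide (i < b)) = Ico a b := by
      ext i
      simp only [mem_filter, mem_range, mem_Ico, decide_eq_decide]
      omega
    rw [h1, Nat.card_Ico] at hsum
    rw [abs_of_nonpos (by omega)]
    omega
  · have h1 : (range w).filter (fun i => ¬ decide (i < a) = decide (i < b)) = Ico b a := by
      ext i
      simp only [mem_filter, mem_range, mem_Ico, decide_eq_decide]
      omega
    rw [h1, Nat.card_Ico] at hsum
    rw [abs_of_nonneg (by omega)]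
    omega

lemma card_therm_left (w a b : ℕ) (ha : a ≤ w) (hb : b ≤ w) :
    (((range w).filter fun i => decide (w - i ≤ a) = decide (w - i ≤ b)).card : ℤ) =
      w - |(a : ℤ) - b| := by
  have hsum := Finset.card_filter_add_card_filter_not (s := range w)
    (fun i => decide (w - i ≤ a) = decide (w - i ≤ b))
  rw [Finset.card_range] at hsum
  rcases le_total a b with h | h
  · have h1 : (range w).filter (fun i => ¬ decide (w - i ≤ a) = decide (w - i ≤ b)) =
        Ico (w - b) (w - a) := by
      ext i
      simp only [mem_filter, mem_range, mem_Ico, decide_eq_decide]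
      omega
    rw [h1, Nat.card_Ico] at hsum
    rw [abs_of_nonpos (by omega)]
    omega
  · have h1 : (range w).filter (fun i => ¬ decide (w - i ≤ a) = decide (w - i ≤ b)) =
        Ico (w - a) (w - b) := by
      ext i
      simp only [mem_filter, mem_range, mem_Ico, decide_eq_decide]
      omega
    rw [h1, Nat.card_Ico] at hsum
    rw [abs_of_nonneg (by omega)]
    omega

lemma card_therm_mid (w a b : ℕ) (ha : a ≤ w) (hb : b ≤ w) :
    (((range w).filter fun i => decide (i < a) = decide (w - i ≤ b)).card : ℤ) =
      |(a : ℤ) + b - w| := by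
  rcases le_total (a + b) w with h | h
  · have h1 : (range w).filter (fun i => decide (i < a) = decide (w - i ≤ b)) =
        Ico a (w - b) := by
      ext i
      simp only [mem_filter, mem_range, mem_Ico, decide_eq_decide]
      omega
    rw [h1, Nat.card_Ico, abs_of_nonpos (by omega)]
    omega
  · have h1 : (range w).filter (fun i => decide (i < a) = decide (w - i ≤ b)) =
        Ico (w - b) a := by
      ext i
      simp only [mem_filter, mem_range, mem_Ico, decide_eq_decide]
      omega
    rw [h1, Nat.card_Ico, abs_of_nonneg (by omega)]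
    omega

/-- The residue in the definition of `inW`. -/
lemma mod_val (p q : Fin (2 * k + 1)) :
    ((p : ℕ) + (2 * k + 1) - q) % (2 * k + 1) =
      if (q : ℕ) ≤ p then (p : ℕ) - q else (p : ℕ) + (2 * k + 1) - q := by
  have hp := p.2
  have hq := q.2
  split_ifs with h
  · have h1 : (p : ℕ) + (2 * k + 1) - q = ((p : ℕ) - q) + (2 * k + 1) := by omega
    rw [h1, Nat.add_mod_right, Nat.mod_eq_of_lt (by omega)]
  · exact Nat.mod_eq_of_lt (by omega)

lemma inW_iff (p q : Fin (2 * k + 1)) :
    inW k p q ↔ (if (q : ℕ) ≤ p then 1 ≤ (p : ℕ) - q ∧ (p : ℕ) - q ≤ k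
      else (p : ℕ) + (2 * k + 1) - q ≤ k) := by
  unfold inW
  rw [mod_val]
  have hp := p.2
  have hq := q.2
  split_ifs with h
  · rfl
  · omega

/-- The window has `k` positions. -/
lemma card_inW (q : Fin (2 * k + 1)) : (univ.filter fun p => inW k p q).card = k := by
  have hq := q.2
  have h1 : (univ.filter fun p => inW k p q).card = (Icc 1 k).card := by
    refine Finset.card_bij (fun p _ => ((p : ℕ) + (2 * k + 1) - q) % (2 * k + 1)) ?_ ?_ ?_
    · intro p hp
      have := (Finset.mem_filter.1 hp).2
      exact Finset.mem_Icc.2 this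
    · intro p _ p' _ h
      rw [mod_val, mod_val] at h
      have hp := p.2
      have hp' := p'.2
      apply Fin.ext
      split_ifs at h <;> omega
    · intro i hi
      obtain ⟨hi1, hi2⟩ := Finset.mem_Icc.1 hi
      by_cases hc : (q : ℕ) + i < 2 * k + 1
      · refine ⟨⟨(q : ℕ) + i, hc⟩, ?_, ?_⟩
        · refine Finset.mem_filter.2 ⟨mem_univ _, ?_⟩
          rw [inW_iff]
          simp only
          rw [if_pos (by omega)]
          omega
        · rw [mod_val]
          simp only
          rw [if_pos (by omega)]
          omega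
      · refine ⟨⟨(q : ℕ) + i - (2 * k + 1), by omega⟩, ?_, ?_⟩
        · refine Finset.mem_filter.2 ⟨mem_univ _, ?_⟩
          rw [inW_iff]
          simp only
          rw [if_neg (by omega)]
          omega
        · rw [mod_val]
          simp only
          rw [if_neg (by omega)]
          omega
  rw [h1]
  simp

lemma fval_le_k {σ : Fin (2 * k + 1) → Fin (2 * k + 1)} (hσ : Function.Injective σ)
    (l : Fin (2 * k + 1)) : fval σ l ≤ k := by
  unfold fval
  calc _ ≤ (univ.filter fun p => inW k p (σ l)).card := by
        refine Finset.card_le_card_of_injOn σ ?_ (fun a _ b _ h => hσ h)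
        intro y hy
        have hy' := (Finset.mem_filter.1 hy).2
        exact Finset.mem_coe.2 (Finset.mem_filter.2 ⟨mem_univ _, hy'.2⟩)
    _ = k := card_inW _

lemma fval_le_l (σ : Fin (2 * k + 1) → Fin (2 * k + 1)) (l : Fin (2 * k + 1)) :
    fval σ l ≤ (l : ℕ) := by
  unfold fval
  calc _ ≤ (univ.filter fun y : Fin (2 * k + 1) => y < l).card :=
        Finset.card_le_card fun y hy =>
          Finset.mem_filter.2 ⟨mem_univ _, (Finset.mem_filter.1 hy).2.1⟩
    _ = (l : ℕ) := by
        have : (univ.filter fun y : Fin (2 * k + 1) => y < l) = Finset.Iio l := by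
          ext y
          simp
        rw [this, Fin.card_Iio]

/-- Reversal of the rotation: `fval (rev σ) l = l - fval σ l`. -/
theorem fval_rev {σ : Fin (2 * k + 1) → Fin (2 * k + 1)} (hσ : Function.Injective σ)
    (l : Fin (2 * k + 1)) :
    fval (fun y => Fin.rev (σ y)) l + fval σ l = (l : ℕ) := by
  unfold fval
  have hdis : Disjoint (univ.filter fun y : Fin (2 * k + 1) => y < l ∧ inW k (Fin.rev (σ y)) (Fin.rev (σ l)))
      (univ.filter fun y : Fin (2 * k + 1) => y < l ∧ inW k (σ y) (σ l)) := by
    rw [Finset.disjoint_left]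
    intro y hy hy'
    obtain ⟨_, h1⟩ := Finset.mem_filter.1 hy
    obtain ⟨_, h2⟩ := Finset.mem_filter.1 hy'
    have h3 := h1.2
    have h4 := h2.2
    rw [inW_iff] at h3 h4
    simp only [Fin.val_rev] at h3
    have hp := (σ y).2
    have hq := (σ l).2
    split_ifs at h3 h4 <;> omega
  rw [← Finset.card_union_of_disjoint hdis]
  have hun : (univ.filter fun y : Fin (2 * k + 1) => y < l ∧ inW k (Fin.rev (σ y)) (Fin.rev (σ l))) ∪
      (univ.filter fun y : Fin (2 * k + 1) => y < l ∧ inW k (σ y) (σ l)) = Finset.Iio l := by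
    ext y
    simp only [Finset.mem_union, Finset.mem_filter, mem_univ, true_and, Finset.mem_Iio]
    constructor
    · rintro (h | h) <;> exact h.1
    · intro hy
      have hne : (σ y : ℕ) ≠ σ l := by
        intro h
        have := hσ (Fin.ext h)
        rw [this] at hy
        exact lt_irrefl _ hy
      by_cases h : inW k (σ y) (σ l)
      · exact Or.inr ⟨hy, h⟩
      · refine Or.inl ⟨hy, ?_⟩
        rw [inW_iff] at h ⊢
        simp only [Fin.val_rev]
        have hp := (σ y).2
        have hq := (σ l).2
        split_ifs at h ⊢ <;> omega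
  rw [hun, Fin.card_Iio]

lemma lo_le_fval {σ : Fin (2 * k + 1) → Fin (2 * k + 1)} (hσ : Function.Injective σ)
    (l : Fin (2 * k + 1)) : (l : ℕ) ≤ fval σ l + k := by
  have h1 := fval_rev hσ l
  have h2 : fval (fun y => Fin.rev (σ y)) l ≤ k :=
    fval_le_k (fun a b h => hσ (Fin.rev_injective h)) l
  omega

lemma uval_le_wid {σ : Fin (2 * k + 1) → Fin (2 * k + 1)} (hσ : Function.Injective σ)
    (l : Fin (2 * k + 1)) : uval σ l ≤ wid k l := by
  have h1 := fval_le_k hσ l
  have h2 := fval_le_l σ l
  have h3 := lo_le_fval hσ l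
  have hl := l.2
  unfold uval wid
  rcases le_total (l : ℕ) (2 * k - l) with h | h
  · rw [min_eq_left h]
    omega
  · rw [min_eq_right h]
    omega

lemma wid_lo_cases (l : Fin (2 * k + 1)) :
    ((l : ℕ) ≤ k ∧ wid k l = (l : ℕ) ∧ (l : ℕ) - k = 0) ∨
      (k ≤ (l : ℕ) ∧ wid k l = 2 * k - l ∧ (l : ℕ) - k + k = l) := by
  have hl := l.2
  unfold wid
  rcases le_total (l : ℕ) k with h | h
  · left
    exact ⟨h, min_eq_left (by omega), by omega⟩
  · right
    exact ⟨h, min_eq_right (by omega), by omega⟩

/-- Same side: `agree` at pivot `l` is `wid - |f - f'|`. -/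
theorem agree_same (T T' : Star k) (l : Fin (2 * k + 1))
    (h : (T.J ≤ (l : ℕ) ∧ T'.J ≤ (l : ℕ)) ∨ ((l : ℕ) < T.J ∧ (l : ℕ) < T'.J)) :
    (((range (wid k l)).filter fun i => T.bit l i = T'.bit l i).card : ℤ) =
      wid k l - |(fval T.pos l : ℤ) - fval T'.pos l| := by
  have hu := uval_le_wid T.pos.injective l
  have hu' := uval_le_wid T'.pos.injective l
  have h3 := lo_le_fval T.pos.injective l
  have h3' := lo_le_fval T'.pos.injective l
  have hd : (fval T.pos l : ℤ) - fval T'.pos l = (uval T.pos l : ℤ) - uval T'.pos l := by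
    unfold uval
    omega
  rw [hd]
  rcases h with ⟨h1, h2⟩ | ⟨h1, h2⟩
  · have e : (range (wid k l)).filter (fun i => T.bit l i = T'.bit l i) =
        (range (wid k l)).filter (fun i => decide (i < uval T.pos l) = decide (i < uval T'.pos l)) := by
      refine Finset.filter_congr fun i _ => ?_
      simp only [Star.bit, if_pos h1, if_pos h2]
    rw [e]
    exact card_therm_same _ _ _ hu hu'
  · have e : (range (wid k l)).filter (fun i => T.bit l i = T'.bit l i) =
        (range (wid k l)).filter
          (fun i => decide (wid k l - i ≤ uval T.pos l) = decide (wid k l - i ≤ uval T'.pos l)) := by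
      refine Finset.filter_congr fun i _ => ?_
      simp only [Star.bit, if_neg (not_le.2 h1), if_neg (not_le.2 h2)]
    rw [e]
    exact card_therm_left _ _ _ hu hu'

/-- Between the two reds: `agree` at pivot `l` is `|f + f' - l|`. -/
theorem agree_between (T T' : Star k) (l : Fin (2 * k + 1)) (h1 : T.J ≤ (l : ℕ))
    (h2 : (l : ℕ) < T'.J) :
    (((range (wid k l)).filter fun i => T.bit l i = T'.bit l i).card : ℤ) =
      |(fval T.pos l : ℤ) + fval T'.pos l - l| := by
  have hu := uval_le_wid T.pos.injective l
  have hu' := uval_le_wid T'.pos.injective l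
  have h3 := lo_le_fval T.pos.injective l
  have h3' := lo_le_fval T'.pos.injective l
  have e : (range (wid k l)).filter (fun i => T.bit l i = T'.bit l i) =
      (range (wid k l)).filter (fun i => decide (i < uval T.pos l) =
        decide (wid k l - i ≤ uval T'.pos l)) := by
    refine Finset.filter_congr fun i _ => ?_
    simp only [Star.bit, if_pos h1, if_neg (not_le.2 h2)]
  rw [e, card_therm_mid _ _ _ hu hu']
  congr 1
  have hl := l.2
  unfold uval
  rcases wid_lo_cases l with ⟨_, h5, h6⟩ | ⟨_, h5, h6⟩ <;> rw [h5] <;> omega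

end Vale.Agent.Lib.P040Z.Thermo
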