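import Vale.Agent.Lib.P040Z.Lip
import Vale.Agent.Lib.P040Z.Rotate
import Vale.Agent.Lib.P040Z.Thermo

/-!
Base of the key inequality: for a canonical pair of stars (no forced pair except the Ising pairs)
the `ℓ¹` sum is at most the number of Ising pairs.
-/

namespace Vale.Agent.Lib.P040Z

open Finset

variable {k : ℕ}

/-- Region of a blue vertex: `0 = L1, 1 = R1, 2 = M, 3 = R0, 4 = L0`. -/
def reg (r s : Star k) (A : Fin (2 * k + 1) → Bool) (x : Fin (2 * k + 1)) : ℕ :=
  if (x : ℕ) < r.J then (if A x then 0 else 4)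
  else if s.J ≤ (x : ℕ) then (if A x then 1 else 3) else 2

/-- Rank in the second order: `R1 < L1 < M < L0 < R0`. -/
def treg (a : ℕ) : ℕ := if a = 0 then 1 else if a = 1 then 0 else if a = 2 then 2 else if a = 3 then 4 else 3

theorem base_sum_of_canon (r s : Star k) (hrs : r.J ≤ s.J) (A : Fin (2 * k + 1) → Bool)
    (h1 : ∀ x y : Fin (2 * k + 1), s.J ≤ (x : ℕ) → r.J ≤ (y : ℕ) → y < x → A x = r.above x y)
    (h2 : ∀ x y : Fin (2 * k + 1), s.J ≤ (x : ℕ) → s.J ≤ (y : ℕ) → x < y → A x ≠ s.above y x)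
    (h4 : ∀ x y : Fin (2 * k + 1), r.J ≤ (x : ℕ) → (x : ℕ) < s.J → r.J ≤ (y : ℕ) → (y : ℕ) < s.J →
      y < x → r.above x y ≠ s.above y x)
    (h5 : ∀ x y : Fin (2 * k + 1), (x : ℕ) < s.J → (y : ℕ) < r.J → y < x → A y = s.above y x)
    (h6 : ∀ x y : Fin (2 * k + 1), (x : ℕ) < r.J → (y : ℕ) < r.J → x < y → A y ≠ r.above x y) :
    ∑ l : Fin (2 * k + 1), |(fval r.pos l : ℤ) + fval s.pos l - (l : ℕ)| ≤
      (((univ : Finset (Fin (2 * k + 1) × Fin (2 * k + 1))).filter fun p =>
        s.J ≤ (p.1 : ℕ) ∧ (p.2 : ℕ) < r.J ∧ A p.1 = A p.2).card : ℤ) := by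
  classical
  -- comparators for `r.pos`
  have F1t : ∀ x y : Fin (2 * k + 1), s.J ≤ (x : ℕ) → r.J ≤ (y : ℕ) → y < x → A x = true →
      r.pos x < r.pos y := by
    intro x y hx hy hyx hA
    have := h1 x y hx hy hyx
    rw [hA] at this
    have hrx : r.J ≤ (x : ℕ) := le_trans hrs hx
    simp only [Star.above, if_pos hrx] at this
    exact of_decide_eq_true this.symm
  have F1f : ∀ x y : Fin (2 * k + 1), s.J ≤ (x : ℕ) → r.J ≤ (y : ℕ) → y < x → A x = false →
      r.pos y < r.pos x := by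
    intro x y hx hy hyx hA
    have := h1 x y hx hy hyx
    rw [hA] at this
    have hrx : r.J ≤ (x : ℕ) := le_trans hrs hx
    simp only [Star.above, if_pos hrx] at this
    have h3 : ¬ ((r.pos x : ℕ) < r.pos y) := of_decide_eq_false this.symm
    have h4' : r.pos y ≠ r.pos x := fun e => (ne_of_lt hyx) (r.pos.injective e)
    have h5' : (r.pos y : ℕ) ≠ r.pos x := fun e => h4' (Fin.ext e)
    rw [Fin.lt_def]
    omega
  have F6t : ∀ x y : Fin (2 * k + 1), (x : ℕ) < r.J → (y : ℕ) < r.J → x < y → A y = true →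
      r.pos x < r.pos y := by
    intro x y hx hy hxy hA
    have := h6 x y hx hy hxy
    rw [hA] at this
    simp only [Star.above, if_neg (not_le.2 hx)] at this
    have h3 : ¬ ((r.pos y : ℕ) < r.pos x) := by
      intro h7
      exact this (decide_eq_true h7).symm
    have h5' : (r.pos x : ℕ) ≠ r.pos y := fun e =>
      (ne_of_lt hxy) (r.pos.injective (Fin.ext e))
    rw [Fin.lt_def]
    omega
  have F6f : ∀ x y : Fin (2 * k + 1), (x : ℕ) < r.J → (y : ℕ) < r.J → x < y → A y = false →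
      r.pos y < r.pos x := by
    intro x y hx hy hxy hA
    have := h6 x y hx hy hxy
    rw [hA] at this
    simp only [Star.above, if_neg (not_le.2 hx)] at this
    by_contra h3
    exact this (decide_eq_false h3).symm
  -- comparators for `s.pos`
  have F2t : ∀ x y : Fin (2 * k + 1), s.J ≤ (x : ℕ) → s.J ≤ (y : ℕ) → x < y → A x = true →
      s.pos x < s.pos y := by
    intro x y hx hy hxy hA
    have := h2 x y hx hy hxy
    rw [hA] at this
    simp only [Star.above, if_pos hy] at this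
    have h3 : ¬ ((s.pos y : ℕ) < s.pos x) := by
      intro h7
      exact this (decide_eq_true h7).symm
    have h5' : (s.pos x : ℕ) ≠ s.pos y := fun e =>
      (ne_of_lt hxy) (s.pos.injective (Fin.ext e))
    rw [Fin.lt_def]
    omega
  have F2f : ∀ x y : Fin (2 * k + 1), s.J ≤ (x : ℕ) → s.J ≤ (y : ℕ) → x < y → A x = false →
      s.pos y < s.pos x := by
    intro x y hx hy hxy hA
    have := h2 x y hx hy hxy
    rw [hA] at this
    simp only [Star.above, if_pos hy] at this
    by_contra h3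
    exact this (decide_eq_false h3).symm
  have F5t : ∀ x y : Fin (2 * k + 1), (x : ℕ) < s.J → (y : ℕ) < r.J → y < x → A y = true →
      s.pos x < s.pos y := by
    intro x y hx hy hyx hA
    have := h5 x y hx hy hyx
    rw [hA] at this
    have hsy : ¬ s.J ≤ (y : ℕ) := by omega
    simp only [Star.above, if_neg hsy] at this
    exact of_decide_eq_true this.symm
  have F5f : ∀ x y : Fin (2 * k + 1), (x : ℕ) < s.J → (y : ℕ) < r.J → y < x → A y = false →
      s.pos y < s.pos x := by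
    intro x y hx hy hyx hA
    have := h5 x y hx hy hyx
    rw [hA] at this
    have hsy : ¬ s.J ≤ (y : ℕ) := by omega
    simp only [Star.above, if_neg hsy] at this
    have h3 : ¬ ((s.pos x : ℕ) < s.pos y) := of_decide_eq_false this.symm
    have h5' : (s.pos y : ℕ) ≠ s.pos x := fun e =>
      (ne_of_lt hyx) (s.pos.injective (Fin.ext e))
    rw [Fin.lt_def]
    omega
  have F4 : ∀ x y : Fin (2 * k + 1), r.J ≤ (x : ℕ) → (x : ℕ) < s.J → r.J ≤ (y : ℕ) → (y : ℕ) < s.J →
      y < x → (r.pos x < r.pos y ↔ s.pos y < s.pos x) := by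
    intro x y hx hx' hy hy' hyx
    have := h4 x y hx hx' hy hy' hyx
    have hsy : ¬ s.J ≤ (y : ℕ) := by omega
    simp only [Star.above, if_pos hx, if_neg hsy] at this
    have h5' : (s.pos y : ℕ) ≠ s.pos x := fun e =>
      (ne_of_lt hyx) (s.pos.injective (Fin.ext e))
    rw [Fin.lt_def, Fin.lt_def]
    by_cases h7 : (r.pos x : ℕ) < r.pos y <;> by_cases h8 : (s.pos x : ℕ) < s.pos y <;>
      simp_all <;> omega
  -- blocks
  have Brk : ∀ x y : Fin (2 * k + 1), r.J ≤ (x : ℕ) → (y : ℕ) < r.J → r.pos x < r.pos y := by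
    intro x y hx hy
    have h3 := (r.block x).1 hx
    have h4' : ¬ (r.pos y : ℕ) < 2 * k + 1 - r.J := fun h => by
      have := (r.block y).2 h
      omega
    rw [Fin.lt_def]
    omega
  have Bsk : ∀ x y : Fin (2 * k + 1), s.J ≤ (x : ℕ) → (y : ℕ) < s.J → s.pos x < s.pos y := by
    intro x y hx hy
    have h3 := (s.block x).1 hx
    have h4' : ¬ (s.pos y : ℕ) < 2 * k + 1 - s.J := fun h => by
      have := (s.block y).2 h
      omega
    rw [Fin.lt_def]
    omega
  -- the two rotated orders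
  let L1 : Finset (Fin (2 * k + 1)) := univ.filter fun x => (x : ℕ) < r.J ∧ A x = true
  let R1 : Finset (Fin (2 * k + 1)) := univ.filter fun x => s.J ≤ (x : ℕ) ∧ A x = true
  have memL1 : ∀ x, x ∈ L1 ↔ ((x : ℕ) < r.J ∧ A x = true) := by intro x; simp [L1]
  have memR1 : ∀ x, x ∈ R1 ↔ (s.J ≤ (x : ℕ) ∧ A x = true) := by intro x; simp [R1]
  have hL1 : ∀ u ∈ L1, ∀ v, v ∉ L1 → r.pos v < r.pos u := by
    intro u hu v hv
    rw [memL1] at hu hv
    by_cases hvJ : (v : ℕ) < r.J
    · have hAv : A v = false := by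
        cases h : A v with
        | true => exact absurd ⟨hvJ, h⟩ hv
        | false => rfl
      rcases lt_trichotomy v u with h | h | h
      · exact F6t v u hvJ hu.1 h hu.2
      · rw [h] at hAv; rw [hu.2] at hAv; exact absurd hAv (by simp)
      · exact F6f u v hu.1 hvJ h hAv
    · exact Brk v u (not_lt.1 hvJ) hu.1
  let τ0 : Fin (2 * k + 1) ≃ Fin (2 * k + 1) := s.pos.trans Fin.revPerm
  have hτ0 : ∀ x y, τ0 x < τ0 y ↔ s.pos y < s.pos x := by
    intro x y
    show Fin.rev (s.pos x) < Fin.rev (s.pos y) ↔ _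
    exact Fin.rev_lt_rev
  have hR1 : ∀ u ∈ R1, ∀ v, v ∉ R1 → τ0 v < τ0 u := by
    intro u hu v hv
    rw [hτ0]
    rw [memR1] at hu hv
    by_cases hvJ : s.J ≤ (v : ℕ)
    · have hAv : A v = false := by
        cases h : A v with
        | true => exact absurd ⟨hvJ, h⟩ hv
        | false => rfl
      rcases lt_trichotomy u v with h | h | h
      · exact F2t u v hu.1 hvJ h hu.2
      · rw [← h] at hAv; rw [hu.2] at hAv; exact absurd hAv (by simp)
      · exact F2f v u hvJ hu.1 h hAv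
    · exact Bsk u v hu.1 (not_le.1 hvJ)
  obtain ⟨σ1, hσ1, hfσ⟩ := exists_rotate r.pos L1 hL1
  obtain ⟨τ1, hτ1, hfτ⟩ := exists_rotate τ0 R1 hR1
  -- region facts
  have regL1 : ∀ x, reg r s A x = 0 ↔ x ∈ L1 := by
    intro x
    rw [memL1]
    unfold reg
    by_cases h : (x : ℕ) < r.J
    · cases h2' : A x <;> simp [h]
    · by_cases h' : s.J ≤ (x : ℕ) <;> cases h2' : A x <;> simp [h, h']
  have regR1 : ∀ x, reg r s A x = 1 ↔ x ∈ R1 := by
    intro x
    rw [memR1]
    unfold reg
    by_cases h : (x : ℕ) < r.J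
    · have h' : ¬ s.J ≤ (x : ℕ) := by omega
      cases h2' : A x <;> simp [h, h']
    · by_cases h' : s.J ≤ (x : ℕ) <;> cases h2' : A x <;> simp [h, h']
  have regcases : ∀ x, (reg r s A x = 0 ∧ (x : ℕ) < r.J ∧ A x = true) ∨
      (reg r s A x = 1 ∧ s.J ≤ (x : ℕ) ∧ A x = true) ∨
      (reg r s A x = 2 ∧ r.J ≤ (x : ℕ) ∧ (x : ℕ) < s.J) ∨
      (reg r s A x = 3 ∧ s.J ≤ (x : ℕ) ∧ A x = false) ∨
      (reg r s A x = 4 ∧ (x : ℕ) < r.J ∧ A x = false) := by
    intro x
    unfold reg
    by_cases h : (x : ℕ) < r.J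
    · cases h2' : A x <;> simp [h, h2']
    · by_cases h' : s.J ≤ (x : ℕ) <;> cases h2' : A x <;> simp [h, h', h2'] <;> omega
  -- first order: reg increasing
  have ordσ : ∀ x y, reg r s A x < reg r s A y → σ1 x < σ1 y := by
    intro x y hlt
    rw [hσ1]
    by_cases hx0 : x ∈ L1
    · left
      refine ⟨hx0, ?_⟩
      rw [← regL1] at hx0 ⊢
      omega
    · have hy0 : y ∉ L1 := by
        rw [← regL1] at hx0 ⊢
        omega
      right
      refine ⟨by simp [hx0, hy0], ?_⟩
      rcases regcases x with ⟨e, hx, hAx⟩ | ⟨e, hx, hAx⟩ | ⟨e, hx, hx'⟩ | ⟨e, hx, hAx⟩ | ⟨e, hx, hAx⟩ <;>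
      rcases regcases y with ⟨e', hy, hAy⟩ | ⟨e', hy, hAy⟩ | ⟨e', hy, hy'⟩ | ⟨e', hy, hAy⟩ | ⟨e', hy, hAy⟩ <;>
      rw [e, e'] at hlt <;> first
        | omega
        | exact absurd ((memL1 x).2 ⟨hx, hAx⟩) hx0
        | exact Brk x y (by omega) hy
        | exact F1t x y hx hy (by rw [Fin.lt_def]; omega) hAx
        | exact F1f y x hy hx (by rw [Fin.lt_def]; omega) hAy
        | (rcases lt_trichotomy x y with h | h | h
           · exact F1f y x hy (by omega) h hAy
           · rw [h] at hAx; rw [hAx] at hAy; exact absurd hAy (by simp)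
           · exact F1t x y hx (by omega) h hAx)
  -- second order
  have ordτ : ∀ x y, treg (reg r s A x) < treg (reg r s A y) → τ1 x < τ1 y := by
    intro x y hlt
    rw [hτ1]
    by_cases hx0 : x ∈ R1
    · left
      refine ⟨hx0, ?_⟩
      rw [← regR1] at hx0 ⊢
      rw [hx0] at hlt
      intro hy1
      rw [hy1] at hlt
      exact absurd hlt (lt_irrefl _)
    · have hy0 : y ∉ R1 := by
        rw [← regR1]
        intro hy1
        rw [hy1] at hlt
        simp [treg] at hlt
      right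
      refine ⟨by simp [hx0, hy0], ?_⟩
      rw [hτ0]
      rcases regcases x with ⟨e, hx, hAx⟩ | ⟨e, hx, hAx⟩ | ⟨e, hx, hx'⟩ | ⟨e, hx, hAx⟩ | ⟨e, hx, hAx⟩ <;>
      rcases regcases y with ⟨e', hy, hAy⟩ | ⟨e', hy, hAy⟩ | ⟨e', hy, hy'⟩ | ⟨e', hy, hAy⟩ | ⟨e', hy, hAy⟩ <;>
      rw [e, e'] at hlt <;> simp [treg] at hlt <;> first
        | exact absurd ((memR1 x).2 ⟨hx, hAx⟩) hx0
        | exact Bsk y x hy (by omega)
        | exact F5t y x hy' hx (by rw [Fin.lt_def]; omega) hAx
        | exact F5f x y hx' hy (by rw [Fin.lt_def]; omega) hAy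
        | (rcases lt_trichotomy x y with h | h | h
           · exact F5t y x (by omega) hx h hAx
           · rw [h] at hAx; rw [hAx] at hAy; exact absurd hAy (by simp)
           · exact F5f x y (by omega) hy h hAy)
  -- same region
  have same1 : ∀ x y, x < y → reg r s A x = reg r s A y → (r.pos x < r.pos y ↔ s.pos y < s.pos x) := by
    intro x y hxy hreg
    have hnot1 : ¬ (r.pos y < r.pos x ∧ s.pos y < s.pos x) ∧ ¬ (r.pos x < r.pos y ∧ s.pos x < s.pos y) ∧
        (r.pos x < r.pos y ∨ r.pos y < r.pos x) ∧ (s.pos x < s.pos y ∨ s.pos y < s.pos x) →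
        (r.pos x < r.pos y ↔ s.pos y < s.pos x) := by
      rintro ⟨a, b, c, d⟩
      constructor
      · intro h
        rcases d with d | d
        · exact absurd ⟨h, d⟩ b
        · exact d
      · intro h
        rcases c with c | c
        · exact c
        · exact absurd ⟨c, h⟩ a
    rcases regcases x with ⟨e, hx, hAx⟩ | ⟨e, hx, hAx⟩ | ⟨e, hx, hx'⟩ | ⟨e, hx, hAx⟩ | ⟨e, hx, hAx⟩ <;>
    rcases regcases y with ⟨e', hy, hAy⟩ | ⟨e', hy, hAy⟩ | ⟨e', hy, hy'⟩ | ⟨e', hy, hAy⟩ | ⟨e', hy, hAy⟩ <;>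
    rw [e, e'] at hreg <;> first
      | omega
      | exact iff_of_true (F6t x y hx hy hxy hAy) (F5t y x (by omega) hx hxy hAx)
      | exact iff_of_false (not_lt.2 (le_of_lt (F1t y x hy (by omega) hxy hAy)))
          (not_lt.2 (le_of_lt (F2t x y hx hy hxy hAx)))
      | exact (F4 y x hy hy' hx hx' hxy |> fun h => by
          have hne1 : r.pos x ≠ r.pos y := fun ee => (ne_of_lt hxy) (r.pos.injective ee)
          have hne2 : s.pos x ≠ s.pos y := fun ee => (ne_of_lt hxy) (s.pos.injective ee)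
          constructor
          · intro h3
            by_contra h4'
            have h5' : s.pos x < s.pos y := lt_of_le_of_ne (not_lt.1 h4') hne2
            exact absurd (h.2 h5') (not_lt.2 (le_of_lt h3))
          · intro h3
            by_contra h4'
            have h5' : r.pos y < r.pos x := lt_of_le_of_ne (not_lt.1 h4') (Ne.symm hne1)
            exact absurd (h.1 h5') (not_lt.2 (le_of_lt h3)))
      | exact iff_of_true (F1f y x hy (by omega) hxy hAy) (F2f x y hx hy hxy hAx)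
      | exact iff_of_false (not_lt.2 (le_of_lt (F6f x y hx hy hxy hAy)))
          (not_lt.2 (le_of_lt (F5f y x (by omega) hx hxy hAx)))
  have same2 : ∀ x y, x ≠ y → reg r s A x = reg r s A y →
      (r.pos x < r.pos y ↔ s.pos y < s.pos x) := by
    intro x y hne hreg
    rcases lt_or_gt_of_ne hne with h | h
    · exact same1 x y h hreg
    · have h3 := same1 y x h hreg.symm
      have hne1 : r.pos x ≠ r.pos y := fun ee => hne (r.pos.injective ee)
      have hne2 : s.pos x ≠ s.pos y := fun ee => hne (s.pos.injective ee)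
      constructor
      · intro h4'
        by_contra h5'
        have h6' : s.pos x < s.pos y := lt_of_le_of_ne (not_lt.1 h5') hne2
        exact absurd (h3.2 h6') (not_lt.2 (le_of_lt h4'))
      · intro h4'
        by_contra h5'
        have h6' : r.pos y < r.pos x := lt_of_le_of_ne (not_lt.1 h5') (Ne.symm hne1)
        exact absurd (h3.1 h6') (not_lt.2 (le_of_lt h4'))
  -- inverted pairs are Ising pairs
  have hinv : ∀ x y, σ1 x < σ1 y → τ1 y < τ1 x →
      (reg r s A x = 0 ∧ reg r s A y = 1) ∨ (reg r s A x = 3 ∧ reg r s A y = 4) := by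
    intro x y hσ hτ
    have hne : x ≠ y := by
      rintro rfl
      exact lt_irrefl _ hσ
    have h3 : ¬ reg r s A y < reg r s A x := fun h =>
      absurd (ordσ y x h) (not_lt.2 (le_of_lt hσ))
    have h4' : ¬ treg (reg r s A x) < treg (reg r s A y) := fun h =>
      absurd (ordτ x y h) (not_lt.2 (le_of_lt hτ))
    have h5' : reg r s A x ≠ reg r s A y := by
      intro he
      have h6' := same2 x y hne he
      have hx0 : (x ∈ L1 ↔ y ∈ L1) := by rw [← regL1, ← regL1, he]
      have hx1 : (x ∈ R1 ↔ y ∈ R1) := by rw [← regR1, ← regR1, he]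
      have h7 := (hσ1 x y).1 hσ
      have h8 := (hτ1 y x).1 hτ
      have h9 : r.pos x < r.pos y := by
        rcases h7 with ⟨a, b⟩ | ⟨_, b⟩
        · exact absurd (hx0.1 a) b
        · exact b
      have h10 : τ0 y < τ0 x := by
        rcases h8 with ⟨a, b⟩ | ⟨_, b⟩
        · exact absurd (hx1.2 a) b
        · exact b
      rw [hτ0] at h10
      exact absurd (h6'.1 h9) (not_lt.2 (le_of_lt h10))
    rcases regcases x with ⟨e, -, -⟩ | ⟨e, -, -⟩ | ⟨e, -, -⟩ | ⟨e, -, -⟩ | ⟨e, -, -⟩ <;>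
    rcases regcases y with ⟨e', -, -⟩ | ⟨e', -, -⟩ | ⟨e', -, -⟩ | ⟨e', -, -⟩ | ⟨e', -, -⟩ <;>
    rw [e, e'] at h3 h4' h5' ⊢ <;> simp [treg] at h3 h4' h5' ⊢
  -- the count
  have hk : kend σ1 τ1 ≤ ((univ : Finset (Fin (2 * k + 1) × Fin (2 * k + 1))).filter fun p =>
      s.J ≤ (p.1 : ℕ) ∧ (p.2 : ℕ) < r.J ∧ A p.1 = A p.2).card := by
    unfold kend
    refine card_le_card_of_injOn (fun p => if s.J ≤ (p.1 : ℕ) then p else (p.2, p.1)) ?_ ?_
    · intro p hp
      have hp' := (mem_filter.1 (mem_coe.1 hp)).2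
      rcases hinv p.1 p.2 hp'.1 hp'.2 with ⟨e, e'⟩ | ⟨e, e'⟩
      · have hx := ((regL1 p.1).1 e)
        have hy := ((regR1 p.2).1 e')
        rw [memL1] at hx
        rw [memR1] at hy
        have hnot : ¬ s.J ≤ (p.1 : ℕ) := by omega
        simp only [if_neg hnot, coe_filter, mem_univ, true_and, Set.mem_ofPred_eq]
        exact ⟨hy.1, hx.1, by rw [hy.2, hx.2]⟩
      · rcases regcases p.1 with ⟨e1, hx, hAx⟩ | ⟨e1, hx, hAx⟩ | ⟨e1, hx, hx'⟩ | ⟨e1, hx, hAx⟩ | ⟨e1, hx, hAx⟩ <;>
        rcases regcases p.2 with ⟨e2, hy, hAy⟩ | ⟨e2, hy, hAy⟩ | ⟨e2, hy, hy'⟩ | ⟨e2, hy, hAy⟩ | ⟨e2, hy, hAy⟩ <;>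
        first
          | omega
          | (simp only [if_pos hx, coe_filter, mem_univ, true_and, Set.mem_ofPred_eq]
             exact ⟨hx, hy, by rw [hAx, hAy]⟩)
    · intro p hp q hq hpq
      have hp' := (mem_filter.1 (mem_coe.1 hp)).2
      have hq' := (mem_filter.1 (mem_coe.1 hq)).2
      simp only at hpq
      by_cases h3 : s.J ≤ (p.1 : ℕ) <;> by_cases h4' : s.J ≤ (q.1 : ℕ)
      · simpa only [if_pos h3, if_pos h4'] using hpq
      · simp only [if_pos h3, if_neg h4'] at hpq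
        -- p = (q.2, q.1): contradiction with the orders
        have e1 : p.1 = q.2 := congrArg Prod.fst hpq
        have e2 : p.2 = q.1 := congrArg Prod.snd hpq
        have h5' := hp'.1
        have h6' := hq'.1
        rw [e1, e2] at h5'
        exact absurd h5' (not_lt.2 (le_of_lt h6'))
      · simp only [if_neg h3, if_pos h4'] at hpq
        have e1 : p.2 = q.1 := congrArg Prod.fst hpq
        have e2 : p.1 = q.2 := congrArg Prod.snd hpq
        have h5' := hp'.1
        have h6' := hq'.1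
        rw [e1, e2] at h5'
        exact absurd h5' (not_lt.2 (le_of_lt h6'))
      · simp only [if_neg h3, if_neg h4'] at hpq
        have e1 : p.2 = q.2 := congrArg Prod.fst hpq
        have e2 : p.1 = q.1 := congrArg Prod.snd hpq
        exact Prod.ext e2 e1
  have hl := lip (kend σ1 τ1) σ1 τ1 le_rfl
  have hsum : ∑ l : Fin (2 * k + 1), |(fval r.pos l : ℤ) + fval s.pos l - (l : ℕ)| =
      ∑ l : Fin (2 * k + 1), |(fval σ1 l : ℤ) - fval τ1 l| := by
    refine sum_congr rfl fun l _ => ?_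
    have h3 : fval τ1 l = fval τ0 l := hfτ l
    have h4' : fval (fun y => Fin.rev (s.pos y)) l + fval s.pos l = (l : ℕ) :=
      Thermo.fval_rev s.pos.injective l
    have h5' : fval τ0 l = fval (fun y => Fin.rev (s.pos y)) l := rfl
    rw [hfσ l, h3, h5']
    congr 1
    omega
  rw [hsum]
  exact le_trans hl (by exact_mod_cast hk)

end Vale.Agent.Lib.P040Z
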