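import Vale.Agent.Lib.P040Z.Model
import Vale.Agent.Lib.P040Z.Defs

/-!
From the forced pairs of `Star`s (`Defs`) to meetings in a drawing (`Model`).
-/

namespace Vale.Agent.Lib.P040Z

open Finset Vale.Agent.Lib.P040M

variable {m k : ℕ} (D : MonoDrawing m (2 * k + 1))

/-- The spin of a pair of reds: for `x` right of `s`, is `(r, x)` above `s`; else is `(s, x)` above `r`. -/
noncomputable def spin (r s : Fin m) (x : Fin (2 * k + 1)) : Bool := by
  classical exact if D.xR s < D.xB x then D.aboveR r x s else D.aboveR s x r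

/-- The stars of a drawing, with the three compatibility facts. -/
structure StarsOf (t : Fin m → Star k) : Prop where
  hJ : ∀ r (b : Fin (2 * k + 1)), (b : ℕ) < (t r).J ↔ D.xB b < D.xR r
  hR : ∀ r (x y : Fin (2 * k + 1)), (t r).J ≤ (y : ℕ) → y < x → (t r).above x y = D.aboveB r x y
  hL : ∀ r (x y : Fin (2 * k + 1)), (x : ℕ) < (t r).J → y < x → (t r).above y x = D.aboveB r y x

theorem StarsOf.J_eq {t : Fin m → Star k} (h : StarsOf D t) (r : Fin m) : (t r).J = MonoDrawing'.J D r := by
  have h1 := (t r).hJ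
  have h2 : MonoDrawing'.J D r ≤ 2 * k + 1 := by
    classical
    unfold MonoDrawing'.J
    calc _ ≤ (univ : Finset (Fin (2 * k + 1))).card := Finset.card_le_card (Finset.subset_univ _)
      _ = 2 * k + 1 := by simp
  by_contra hne
  rcases Nat.lt_or_gt_of_ne hne with hlt | hlt
  · -- `b = (t r).J` is left of `r` for `J D` but not for `t r`
    have hb : (t r).J < 2 * k + 1 := by omega
    have e1 := h.hJ r ⟨(t r).J, hb⟩
    have e2 := MonoDrawing'.lt_J_iff D r ⟨(t r).J, hb⟩
    simp only at e1 e2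
    have : D.xB ⟨(t r).J, hb⟩ < D.xR r := e2.mp hlt
    exact lt_irrefl _ (e1.mpr this)
  · have hb : MonoDrawing'.J D r < 2 * k + 1 := by omega
    have e1 := h.hJ r ⟨MonoDrawing'.J D r, hb⟩
    have e2 := MonoDrawing'.lt_J_iff D r ⟨MonoDrawing'.J D r, hb⟩
    simp only at e1 e2
    have : D.xB ⟨MonoDrawing'.J D r, hb⟩ < D.xR r := e1.mp hlt
    exact lt_irrefl _ (e2.mpr this)

/-- Forced pairs of the stars of a drawing meet. -/
theorem StarsOf.meet {t : Fin m → Star k} (h : StarsOf D t) {r s : Fin m} (hrs : D.xR r < D.xR s)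
    {x y : Fin (2 * k + 1)} (hf : forced (t r) (t s) (spin D r s) x y) : D.Meet r x s y := by
  apply MonoDrawing'.meet_of_forced D hrs
  have hJr := h.J_eq D r
  have hJs := h.J_eq D s
  have spinR : ∀ z : Fin (2 * k + 1), (t s).J ≤ (z : ℕ) → spin D r s z = D.aboveR r z s := by
    intro z hz
    have : D.xR s < D.xB z := by
      rw [hJs] at hz
      exact MonoDrawing'.right_of_J D hz
    unfold spin
    simp [this]
  have spinL : ∀ z : Fin (2 * k + 1), (z : ℕ) < (t r).J → spin D r s z = D.aboveR s z r := by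
    intro z hz
    have h1 : D.xB z < D.xR r := (h.hJ r z).mp hz
    have : ¬ D.xR s < D.xB z := by
      intro h2
      linarith
    unfold spin
    simp [this]
  rw [← hJr, ← hJs]
  rcases hf with ⟨hx, hy, hyx, hb⟩ | ⟨hx, hy, hxy, hb⟩ | ⟨hx, hy, hb⟩ | ⟨hx, hx', hy, hy', hyx, hb⟩ |
      ⟨hx, hy, hyx, hb⟩ | ⟨hx, hy, hxy, hb⟩
  · -- clause 2 of `Model.forced`
    right; left
    refine ⟨hx, hy, hyx, ?_⟩
    beta_reduce
    rw [← spinR x hx, ← h.hR r x y hy hyx]
    exact hb
  · left
    refine ⟨hx, hy, hxy, ?_⟩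
    beta_reduce
    rw [← spinR x hx, ← h.hR s y x hx hxy]
    exact hb
  · right; right; left
    refine ⟨hx, hy, ?_⟩
    beta_reduce
    rw [← spinR x hx, ← spinL y hy]
    exact hb
  · right; right; right; left
    refine ⟨hx, hx', hy, hyx, ?_⟩
    rw [← h.hR r x y hy hyx, ← h.hL s x y hx' hyx]
    exact hb
  · have hs : D.aboveB s y x ≠ D.aboveR s y r := by
      rw [← h.hL s x y hx hyx, ← spinL y hy]
      exact fun e => hb e.symm
    by_cases hxr : (x : ℕ) < (t r).J
    · right; right; right; right; right; left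
      exact ⟨hxr, hy, hyx, hs⟩
    · right; right; right; right; right; right
      exact ⟨not_lt.mp hxr, hx, hy, fun e => hs e.symm⟩
  · right; right; right; right; left
    refine ⟨hx, hy, hxy, ?_⟩
    beta_reduce
    rw [← h.hL r y x hy hxy, ← spinL y hy]
    exact hb.symm

open Classical in
/-- With the main inequality of `Star`s (`agree ≤ forced`) as input: agreement is bounded by meetings. -/
theorem StarsOf.agree_le {t : Fin m → Star k} (h : StarsOf D t)
    (core : ∀ (r s : Star k), r.J ≤ s.J → ∀ A : Fin (2 * k + 1) → Bool,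
      agree r s ≤ (univ.filter fun q : Fin (2 * k + 1) × Fin (2 * k + 1) =>
        q.1 ≠ q.2 ∧ forced r s A q.1 q.2).card)
    {r s : Fin m} (hrs : D.xR r < D.xR s) :
    agree (t r) (t s) ≤ (univ.filter fun q : Fin (2 * k + 1) × Fin (2 * k + 1) =>
      q.1 ≠ q.2 ∧ D.Meet r q.1 s q.2).card := by
  have hJ : (t r).J ≤ (t s).J := by
    rw [h.J_eq D r, h.J_eq D s]
    exact MonoDrawing'.J_le D hrs
  refine le_trans (core (t r) (t s) hJ (spin D r s)) ?_
  apply Finset.card_le_card
  intro q hq
  simp only [mem_filter, mem_univ, true_and] at hq ⊢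
  exact ⟨hq.1, h.meet D hrs hq.2⟩

end Vale.Agent.Lib.P040Z
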