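import Vale.Agent.Lib.P040M.BothSides

/-!
All `x`-monotone drawings of `K_{m,n}`: which pairs of edges of two stars the intermediate value
theorem forces to meet, in terms of the combinatorial data of the two stars.
-/

namespace Vale.Agent.Lib.P040Z

open Finset Vale.Agent.Lib.P040M

/-- `J ≤ J'` are the numbers of blue vertices to the left of two reds, `t x y` says that the edge
from the first red to `x` passes above `y`, `t' y x` the same for the second red, `A x` says that
the edge from the first red to `x` passes above the second red and `A' y` that the edge from the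
second red to `y` passes above the first red.  The pair (first red to `x`, second red to `y`) is
forced to meet. -/
def forcedJ {n : ℕ} (J J' : ℕ) (t t' : Fin n → Fin n → Bool) (A A' : Fin n → Bool) (x y : Fin n) : Prop :=
  (J' ≤ x.val ∧ J' ≤ y.val ∧ x < y ∧ A x = t' y x) ∨
  (J' ≤ x.val ∧ J ≤ y.val ∧ y < x ∧ A x ≠ t x y) ∨
  (J' ≤ x.val ∧ y.val < J ∧ A x = A' y) ∨
  (J ≤ x.val ∧ x.val < J' ∧ J ≤ y.val ∧ y < x ∧ t x y = t' y x) ∨
  (x.val < J ∧ y.val < J ∧ x < y ∧ t x y = A' y) ∨
  (x.val < J ∧ y.val < J ∧ y < x ∧ t' y x ≠ A' y) ∨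
  (J ≤ x.val ∧ x.val < J' ∧ y.val < J ∧ A' y ≠ t' y x)

/-- A lower set of `Fin n` is an initial segment of length its cardinality. -/
theorem mem_lower_iff {n : ℕ} (S : Finset (Fin n)) (hS : ∀ a b, a ≤ b → b ∈ S → a ∈ S) (b : Fin n) :
    b ∈ S ↔ b.val < S.card := by
  constructor
  · intro hb
    have h1 : Finset.Iic b ⊆ S := fun a ha => hS a b (Finset.mem_Iic.mp ha) hb
    have h2 := Finset.card_le_card h1
    rw [Fin.card_Iic] at h2
    omega
  · intro hb
    by_contra hnb
    have h1 : S ⊆ Finset.Iio b := by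
      intro a ha
      rw [Finset.mem_Iio]
      by_contra hab
      exact hnb (hS b a (not_lt.mp hab) ha)
    have h2 := Finset.card_le_card h1
    rw [Fin.card_Iio] at h2
    omega

namespace MonoDrawing'

variable {m n : ℕ} (D : MonoDrawing m n)

open Classical in
/-- The number of blue vertices to the left of `r`. -/
noncomputable def J (r : Fin m) : ℕ := (univ.filter fun b : Fin n => D.xB b < D.xR r).card

theorem lt_J_iff (r : Fin m) (b : Fin n) : b.val < J D r ↔ D.xB b < D.xR r := by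
  classical
  have h := mem_lower_iff (univ.filter fun b : Fin n => D.xB b < D.xR r) (by
    intro a c hac hc
    simp only [mem_filter, mem_univ, true_and] at hc ⊢
    exact lt_of_le_of_lt (D.xB_mono.monotone hac) hc) b
  simp only [mem_filter, mem_univ, true_and] at h
  exact h.symm

theorem J_le {r s : Fin m} (hrs : D.xR r < D.xR s) : J D r ≤ J D s := by
  classical
  apply Finset.card_le_card
  intro b hb
  simp only [mem_filter, mem_univ, true_and] at hb ⊢
  linarith

theorem right_of_J {r : Fin m} {b : Fin n} (h : J D r ≤ b.val) : D.xR r < D.xB b := by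
  have h1 : ¬ D.xB b < D.xR r := by
    rw [← lt_J_iff]
    omega
  exact lt_of_le_of_ne (not_lt.mp h1) (D.x_ne r b)

theorem left_of_J {r : Fin m} {b : Fin n} (h : b.val < J D r) : D.xB b < D.xR r :=
  (lt_J_iff D r b).mp h

/-- Data at a point: the two edges differ there and `b` says which one is above. -/
def Pt (r s : Fin m) (x y : Fin n) (p : ℝ) (b : Bool) : Prop :=
  D.edge r x p ≠ D.edge s y p ∧ (D.edge s y p < D.edge r x p ↔ b = true)

theorem meet_of_pts {r s : Fin m} {x y : Fin n} {p q : ℝ} {b c : Bool} (hpq : p ≤ q)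
    (h1 : Set.Icc p q ⊆ Set.uIcc (D.xR r) (D.xB x))
    (h2 : Set.Icc p q ⊆ Set.uIcc (D.xR s) (D.xB y))
    (hp : Pt D r s x y p b) (hq : Pt D r s x y q c) (hbc : b ≠ c) : D.Meet r x s y := by
  obtain ⟨hp1, hp2⟩ := hp
  obtain ⟨hq1, hq2⟩ := hq
  apply D.meet_of_sign hpq h1 h2
  cases b <;> cases c
  · exact absurd rfl hbc
  · have h3 : ¬ D.edge s y p < D.edge r x p := by rw [hp2]; simp
    exact Or.inl ⟨lt_of_le_of_ne (not_lt.mp h3) hp1, hq2.mpr rfl⟩
  · have h3 : ¬ D.edge s y q < D.edge r x q := by rw [hq2]; simp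
    exact Or.inr ⟨hp2.mpr rfl, lt_of_le_of_ne (not_lt.mp h3) hq1⟩
  · exact absurd rfl hbc

theorem pt_SR {r s : Fin m} (hrs : r ≠ s) {x y : Fin n}
    (h : D.xR s ∈ Set.uIcc (D.xR r) (D.xB x)) : Pt D r s x y (D.xR s) (D.aboveR r x s) := by
  constructor
  · rw [D.at_red s y]
    exact D.avoid_red r x s hrs.symm h
  · rw [D.at_red s y, D.aboveR_true]

theorem pt_BY {r s : Fin m} {x y : Fin n} (hxy : x ≠ y)
    (h : D.xB y ∈ Set.uIcc (D.xR r) (D.xB x)) : Pt D r s x y (D.xB y) (D.aboveB r x y) := by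
  constructor
  · rw [D.at_blue s y]
    exact D.avoid_blue r x y hxy.symm h
  · rw [D.at_blue s y, D.aboveB_true]

theorem pt_BX {r s : Fin m} {x y : Fin n} (hxy : x ≠ y)
    (h : D.xB x ∈ Set.uIcc (D.xR s) (D.xB y)) : Pt D r s x y (D.xB x) (!D.aboveB s y x) := by
  have hne := D.avoid_blue s y x hxy h
  constructor
  · rw [D.at_blue r x]
    exact Ne.symm hne
  · rw [D.at_blue r x]
    have := D.aboveB_true s y x
    cases hb : D.aboveB s y x
    · simp only [Bool.not_false, iff_true]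
      rw [hb] at this
      have h1 : ¬ D.yB x < D.edge s y (D.xB x) := by rw [← this]; simp
      exact lt_of_le_of_ne (not_lt.mp h1) hne
    · simp only [Bool.not_true, Bool.false_eq_true, iff_false, not_lt]
      rw [hb] at this
      exact (this.mp rfl).le

theorem pt_RR {r s : Fin m} (hrs : r ≠ s) {x y : Fin n}
    (h : D.xR r ∈ Set.uIcc (D.xR s) (D.xB y)) : Pt D r s x y (D.xR r) (!D.aboveR s y r) := by
  have hne := D.avoid_red s y r hrs h
  constructor
  · rw [D.at_red r x]
    exact Ne.symm hne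
  · rw [D.at_red r x]
    have := D.aboveR_true s y r
    cases hb : D.aboveR s y r
    · simp only [Bool.not_false, iff_true]
      rw [hb] at this
      have h1 : ¬ D.yR r < D.edge s y (D.xR r) := by rw [← this]; simp
      exact lt_of_le_of_ne (not_lt.mp h1) hne
    · simp only [Bool.not_true, Bool.false_eq_true, iff_false, not_lt]
      rw [hb] at this
      exact (this.mp rfl).le

/-- Forced pairs meet. -/
theorem meet_of_forced {r s : Fin m} (hrs : D.xR r < D.xR s) {x y : Fin n}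
    (hf : forcedJ (J D r) (J D s) (D.aboveB r) (D.aboveB s) (fun x => D.aboveR r x s)
      (fun y => D.aboveR s y r) x y) : D.Meet r x s y := by
  have hne : r ≠ s := fun h => lt_irrefl _ (h ▸ hrs)
  have hJ := J_le D hrs
  rcases hf with ⟨hx, hy, hxy, hb⟩ | ⟨hx, hy, hxy, hb⟩ | ⟨hx, hy, hb⟩ | ⟨hx, hx', hy, hxy, hb⟩ |
      ⟨hx, hy, hxy, hb⟩ | ⟨hx, hy, hxy, hb⟩ | ⟨hx, hx', hy, hb⟩
  · -- both right, `x < y`
    have hx1 := right_of_J D hx
    have hy1 := right_of_J D hy
    have hB : D.xB x < D.xB y := D.xB_mono hxy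
    have i1 : Set.uIcc (D.xR r) (D.xB x) = Set.Icc (D.xR r) (D.xB x) := Set.uIcc_of_lt (by linarith)
    have i2 : Set.uIcc (D.xR s) (D.xB y) = Set.Icc (D.xR s) (D.xB y) := Set.uIcc_of_lt (by linarith)
    refine meet_of_pts D (p := D.xR s) (q := D.xB x) hx1.le ?_ ?_
      (pt_SR D hne (by rw [i1]; exact ⟨hrs.le, hx1.le⟩))
      (pt_BX D (ne_of_lt hxy) (by rw [i2]; exact ⟨hx1.le, hB.le⟩)) ?_
    · rw [i1]; exact Set.Icc_subset_Icc_left hrs.le
    · rw [i2]; exact Set.Icc_subset_Icc_right hB.le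
    · simp only at hb
      rw [hb]; cases D.aboveB s y x <;> simp
  · -- `x` right, `y < x`, `y` not left
    have hx1 := right_of_J D hx
    have hB : D.xB y < D.xB x := D.xB_mono hxy
    have hy1 := right_of_J D hy
    have i1 : Set.uIcc (D.xR r) (D.xB x) = Set.Icc (D.xR r) (D.xB x) := Set.uIcc_of_lt (by linarith)
    by_cases hyJ : J D s ≤ y.val
    · have hy2 := right_of_J D hyJ
      have i2 : Set.uIcc (D.xR s) (D.xB y) = Set.Icc (D.xR s) (D.xB y) := Set.uIcc_of_lt hy2
      refine meet_of_pts D (p := D.xR s) (q := D.xB y) hy2.le ?_ ?_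
        (pt_SR D hne (by rw [i1]; exact ⟨hrs.le, hx1.le⟩))
        (pt_BY D (ne_of_gt hxy) (by rw [i1]; exact ⟨hy1.le, hB.le⟩)) hb
      · rw [i1]; exact Set.Icc_subset_Icc hrs.le hB.le
      · rw [i2]
    · have hy2 := left_of_J D (r := s) (b := y) (by omega)
      have i2 : Set.uIcc (D.xR s) (D.xB y) = Set.Icc (D.xB y) (D.xR s) := Set.uIcc_of_gt hy2
      refine meet_of_pts D (p := D.xB y) (q := D.xR s) hy2.le ?_ ?_
        (pt_BY D (ne_of_gt hxy) (by rw [i1]; exact ⟨hy1.le, hB.le⟩))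
        (pt_SR D hne (by rw [i1]; exact ⟨hrs.le, hx1.le⟩)) (Ne.symm hb)
      · rw [i1]; exact Set.Icc_subset_Icc hy1.le hx1.le
      · rw [i2]
  · -- `x` right, `y` left
    have hx1 := right_of_J D hx
    have hy1 := left_of_J D hy
    have i1 : Set.uIcc (D.xR r) (D.xB x) = Set.Icc (D.xR r) (D.xB x) := Set.uIcc_of_lt (by linarith)
    have i2 : Set.uIcc (D.xR s) (D.xB y) = Set.Icc (D.xB y) (D.xR s) := Set.uIcc_of_gt (by linarith)
    refine meet_of_pts D (p := D.xR r) (q := D.xR s) hrs.le ?_ ?_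
      (pt_RR D hne (by rw [i2]; exact ⟨hy1.le, hrs.le⟩))
      (pt_SR D hne (by rw [i1]; exact ⟨hrs.le, hx1.le⟩)) ?_
    · rw [i1]; exact Set.Icc_subset_Icc_right hx1.le
    · rw [i2]; exact Set.Icc_subset_Icc_left hy1.le
    · simp only at hb
      rw [hb]; cases D.aboveR s y r <;> simp
  · -- both between
    have hx1 := right_of_J D hx
    have hx2 := left_of_J D (r := s) hx'
    have hy1 := right_of_J D hy
    have hB : D.xB y < D.xB x := D.xB_mono hxy
    have i1 : Set.uIcc (D.xR r) (D.xB x) = Set.Icc (D.xR r) (D.xB x) := Set.uIcc_of_lt hx1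
    have i2 : Set.uIcc (D.xR s) (D.xB y) = Set.Icc (D.xB y) (D.xR s) := Set.uIcc_of_gt (by linarith)
    refine meet_of_pts D (p := D.xB y) (q := D.xB x) hB.le ?_ ?_
      (pt_BY D (ne_of_gt hxy) (by rw [i1]; exact ⟨hy1.le, hB.le⟩))
      (pt_BX D (ne_of_gt hxy) (by rw [i2]; exact ⟨hB.le, hx2.le⟩)) ?_
    · rw [i1]; exact Set.Icc_subset_Icc_left hy1.le
    · rw [i2]; exact Set.Icc_subset_Icc_right hx2.le
    · rw [hb]; cases D.aboveB s y x <;> simp
  · -- both left, `x < y`
    have hx1 := left_of_J D hx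
    have hy1 := left_of_J D hy
    have hB : D.xB x < D.xB y := D.xB_mono hxy
    have i1 : Set.uIcc (D.xR r) (D.xB x) = Set.Icc (D.xB x) (D.xR r) := Set.uIcc_of_gt hx1
    have i2 : Set.uIcc (D.xR s) (D.xB y) = Set.Icc (D.xB y) (D.xR s) := Set.uIcc_of_gt (by linarith)
    refine meet_of_pts D (p := D.xB y) (q := D.xR r) hy1.le ?_ ?_
      (pt_BY D (ne_of_lt hxy) (by rw [i1]; exact ⟨hB.le, hy1.le⟩))
      (pt_RR D hne (by rw [i2]; exact ⟨hy1.le, hrs.le⟩)) ?_
    · rw [i1]; exact Set.Icc_subset_Icc_left hB.le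
    · rw [i2]; exact Set.Icc_subset_Icc_right hrs.le
    · simp only at hb
      rw [hb]; cases D.aboveR s y r <;> simp
  · -- both left, `y < x`
    have hx1 := left_of_J D hx
    have hy1 := left_of_J D hy
    have hB : D.xB y < D.xB x := D.xB_mono hxy
    have i1 : Set.uIcc (D.xR r) (D.xB x) = Set.Icc (D.xB x) (D.xR r) := Set.uIcc_of_gt hx1
    have i2 : Set.uIcc (D.xR s) (D.xB y) = Set.Icc (D.xB y) (D.xR s) := Set.uIcc_of_gt (by linarith)
    refine meet_of_pts D (p := D.xB x) (q := D.xR r) hx1.le ?_ ?_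
      (pt_BX D (ne_of_gt hxy) (by rw [i2]; exact ⟨hB.le, by linarith⟩))
      (pt_RR D hne (by rw [i2]; exact ⟨hy1.le, hrs.le⟩)) ?_
    · rw [i1]
    · rw [i2]; exact Set.Icc_subset_Icc hB.le hrs.le
    · simp only at hb
      intro h
      exact hb (by simpa using h)
  · -- `x` between, `y` left
    have hx1 := right_of_J D hx
    have hx2 := left_of_J D (r := s) hx'
    have hy1 := left_of_J D hy
    have i1 : Set.uIcc (D.xR r) (D.xB x) = Set.Icc (D.xR r) (D.xB x) := Set.uIcc_of_lt hx1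
    have i2 : Set.uIcc (D.xR s) (D.xB y) = Set.Icc (D.xB y) (D.xR s) := Set.uIcc_of_gt (by linarith)
    have hxy : x ≠ y := by
      intro h
      subst h
      omega
    refine meet_of_pts D (p := D.xR r) (q := D.xB x) hx1.le ?_ ?_
      (pt_RR D hne (by rw [i2]; exact ⟨hy1.le, hrs.le⟩))
      (pt_BX D hxy (by rw [i2]; exact ⟨by linarith, hx2.le⟩)) ?_
    · rw [i1]
    · rw [i2]; exact Set.Icc_subset_Icc hy1.le hx2.le
    · simp only at hb
      intro h
      exact hb (by simpa using h)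

theorem forced_ne {n : ℕ} {J J' : ℕ} (hJ : J ≤ J') {t t' : Fin n → Fin n → Bool} {A A' : Fin n → Bool} {x y : Fin n}
    (hf : forcedJ J J' t t' A A' x y) : x ≠ y := by
  rcases hf with ⟨hx, hy, hxy, hb⟩ | ⟨hx, hy, hxy, hb⟩ | ⟨hx, hy, hb⟩ | ⟨hx, hx', hy, hxy, hb⟩ |
      ⟨hx, hy, hxy, hb⟩ | ⟨hx, hy, hxy, hb⟩ | ⟨hx, hx', hy, hb⟩
  · exact ne_of_lt hxy
  · exact ne_of_gt hxy
  · intro h; subst h; omega
  · exact ne_of_gt hxy
  · exact ne_of_lt hxy
  · exact ne_of_gt hxy
  · intro h; subst h; omega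

open Classical in
/-- The forced pairs of two stars bound the meeting pairs of these stars. -/
theorem forced_card_le {r s : Fin m} (hrs : D.xR r < D.xR s) :
    (univ.filter fun q : Fin n × Fin n =>
      forcedJ (J D r) (J D s) (D.aboveB r) (D.aboveB s) (fun x => D.aboveR r x s)
        (fun y => D.aboveR s y r) q.1 q.2).card ≤
    (univ.filter fun q : Fin n × Fin n => q.1 ≠ q.2 ∧ D.Meet r q.1 s q.2).card := by
  apply Finset.card_le_card
  intro q hq
  simp only [mem_filter, mem_univ, true_and] at hq ⊢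
  exact ⟨forced_ne (J_le D hrs) hq, meet_of_forced D hrs hq⟩

end MonoDrawing'

end Vale.Agent.Lib.P040Z
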