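import Mathlib

/-!
`x`-monotone drawings of `K_{m,n}` with reds and blues interleaved in the `x`-order. Edges at one
red vertex meet only at that vertex. Above/below bits force meetings (intermediate value theorem).
-/

namespace Vale.Agent.Lib.P040Z

open Finset Set

/-- An `x`-monotone drawing of `K_{m,n}`: vertices at distinct abscissas, red and blue vertices
named from left to right; the edge `r b` is the graph of a function continuous on the closed
interval between the abscissas of its ends, with the right values at the ends, missing every other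
vertex; two edges at one red vertex have no common point besides that vertex. -/
structure ZDrawing (m n : ℕ) where
  /-- abscissa of a red vertex -/
  redX : Fin m → ℝ
  /-- abscissa of a blue vertex -/
  blueX : Fin n → ℝ
  /-- ordinate of a red vertex -/
  redY : Fin m → ℝ
  /-- ordinate of a blue vertex -/
  blueY : Fin n → ℝ
  /-- red vertices are named from left to right -/
  redX_mono : StrictMono redX
  /-- blue vertices are named from left to right -/
  blueX_mono : StrictMono blueX
  /-- red and blue abscissas differ -/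
  ne : ∀ r b, redX r ≠ blueX b
  /-- the function whose graph is the edge -/
  curve : Fin m → Fin n → ℝ → ℝ
  /-- edges are continuous -/
  cont : ∀ r b, ContinuousOn (curve r b) (uIcc (redX r) (blueX b))
  /-- value at the red end -/
  start : ∀ r b, curve r b (redX r) = redY r
  /-- value at the blue end -/
  stop : ∀ r b, curve r b (blueX b) = blueY b
  /-- an edge misses the other red vertices -/
  avoid_red : ∀ r b s, s ≠ r → redX s ∈ uIcc (redX r) (blueX b) → curve r b (redX s) ≠ redY s
  /-- an edge misses the other blue vertices -/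
  avoid_blue : ∀ r b c, c ≠ b → blueX c ∈ uIcc (redX r) (blueX b) → curve r b (blueX c) ≠ blueY c
  /-- two edges at a red vertex meet only at that vertex -/
  adj : ∀ r b c, b ≠ c → ∀ t, t ∈ uIcc (redX r) (blueX b) → t ∈ uIcc (redX r) (blueX c) →
    t ≠ redX r → curve r b t ≠ curve r c t

variable {m n : ℕ}

/-- The edges `r x` and `s y` have a common point. -/
def ZDrawing.Meet (D : ZDrawing m n) (r s : Fin m) (x y : Fin n) : Prop :=
  ∃ t, t ∈ uIcc (D.redX r) (D.blueX x) ∧ t ∈ uIcc (D.redX s) (D.blueX y) ∧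
    D.curve r x t = D.curve s y t

/-- The edge `r b` passes above the blue vertex `c`. -/
def ZDrawing.abB (D : ZDrawing m n) (r : Fin m) (b c : Fin n) : Prop :=
  D.blueY c < D.curve r b (D.blueX c)

/-- The edge `r b` passes above the red vertex `s`. -/
def ZDrawing.abR (D : ZDrawing m n) (r : Fin m) (b : Fin n) (s : Fin m) : Prop :=
  D.redY s < D.curve r b (D.redX s)

theorem ZDrawing.forced_aux (D : ZDrawing m n) (r s : Fin m) (x y : Fin n) (a b : ℝ)
    (ha1 : a ∈ uIcc (D.redX r) (D.blueX x)) (ha2 : a ∈ uIcc (D.redX s) (D.blueX y))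
    (hb1 : b ∈ uIcc (D.redX r) (D.blueX x)) (hb2 : b ∈ uIcc (D.redX s) (D.blueX y))
    (hne : D.curve r x b ≠ D.curve s y b)
    (h : D.curve s y a < D.curve r x a ↔ ¬ D.curve s y b < D.curve r x b)
    (hne' : D.curve r x a ≠ D.curve s y a) : D.Meet r s x y := by
  have hs1 : uIcc a b ⊆ uIcc (D.redX r) (D.blueX x) := uIcc_subset_uIcc ha1 hb1
  have hs2 : uIcc a b ⊆ uIcc (D.redX s) (D.blueX y) := uIcc_subset_uIcc ha2 hb2
  have hc : ContinuousOn (fun t => D.curve r x t - D.curve s y t) (uIcc a b) :=
    ((D.cont r x).mono hs1).sub ((D.cont s y).mono hs2)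
  have hz : (0 : ℝ) ∈ uIcc (D.curve r x a - D.curve s y a) (D.curve r x b - D.curve s y b) := by
    rw [Set.mem_uIcc]
    by_cases ha : D.curve s y a < D.curve r x a
    · have hb : ¬ D.curve s y b < D.curve r x b := h.mp ha
      right
      constructor
      · linarith [not_lt.mp hb]
      · linarith
    · have hb : D.curve s y b < D.curve r x b := by
        by_contra hb
        exact ha (h.mpr hb)
      left
      constructor
      · linarith [not_lt.mp ha]
      · linarith
  obtain ⟨t, ht, hzero⟩ := intermediate_value_uIcc hc hz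
  exact ⟨t, hs1 ht, hs2 ht, by simpa [sub_eq_zero] using hzero⟩

/-- Membership at the end points and inside. -/
theorem mem_uIcc_left' (a b : ℝ) : a ∈ uIcc a b := left_mem_uIcc
theorem mem_uIcc_right' (a b : ℝ) : b ∈ uIcc a b := right_mem_uIcc

theorem mem_uIcc_of_lt {a b t : ℝ} (h1 : a ≤ t) (h2 : t ≤ b) : t ∈ uIcc a b :=
  Set.mem_uIcc.mpr (Or.inl ⟨h1, h2⟩)

theorem mem_uIcc_of_gt {a b t : ℝ} (h1 : b ≤ t) (h2 : t ≤ a) : t ∈ uIcc a b :=
  Set.mem_uIcc.mpr (Or.inr ⟨h1, h2⟩)

/-- Case `x`, `y` right of `s`, `x < y`. -/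
theorem ZDrawing.F1 (D : ZDrawing m n) {r s : Fin m} {x y : Fin n} (hrs : r < s)
    (hx : D.redX s < D.blueX x) (hxy : x < y)
    (h : D.abR r x s ↔ D.abB s y x) : D.Meet r s x y := by
  have hrs' := D.redX_mono hrs
  have hxy' := D.blueX_mono hxy
  have m1 : D.redX s ∈ uIcc (D.redX r) (D.blueX x) := mem_uIcc_of_lt hrs'.le hx.le
  have m2 : D.blueX x ∈ uIcc (D.redX s) (D.blueX y) := mem_uIcc_of_lt hx.le hxy'.le
  have nb : D.curve s y (D.blueX x) ≠ D.blueY x := D.avoid_blue s y x hxy.ne m2
  have na : D.curve r x (D.redX s) ≠ D.redY s := D.avoid_red r x s hrs.ne' m1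
  refine D.forced_aux r s x y (D.redX s) (D.blueX x) m1 left_mem_uIcc right_mem_uIcc m2 ?_ ?_ ?_
  · rw [D.stop]; exact nb.symm
  · rw [D.start, D.stop]
    unfold ZDrawing.abR ZDrawing.abB at h
    rw [h, not_lt]
    exact ⟨fun h' => h'.le, fun h' => lt_of_le_of_ne h' nb.symm⟩
  · rw [D.start]; exact na

/-- Case `x` right of `s`, `y < x` and `y` right of `r`. -/
theorem ZDrawing.F2 (D : ZDrawing m n) {r s : Fin m} {x y : Fin n} (hrs : r < s)
    (hx : D.redX s < D.blueX x) (hyx : y < x) (hy : D.redX r < D.blueX y)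
    (h : D.abR r x s ↔ ¬ D.abB r x y) : D.Meet r s x y := by
  have hrs' := D.redX_mono hrs
  have hyx' := D.blueX_mono hyx
  have m1 : D.redX s ∈ uIcc (D.redX r) (D.blueX x) := mem_uIcc_of_lt hrs'.le hx.le
  have m2 : D.blueX y ∈ uIcc (D.redX r) (D.blueX x) := mem_uIcc_of_lt hy.le hyx'.le
  have nb : D.curve r x (D.blueX y) ≠ D.blueY y := D.avoid_blue r x y hyx.ne m2
  have na : D.curve r x (D.redX s) ≠ D.redY s := D.avoid_red r x s hrs.ne' m1
  refine D.forced_aux r s x y (D.redX s) (D.blueX y) m1 left_mem_uIcc m2 right_mem_uIcc ?_ ?_ ?_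
  · rw [D.stop]; exact nb
  · rw [D.start, D.stop]
    exact h
  · rw [D.start]; exact na

/-- Case `x` right of `s`, `y` left of `r`. -/
theorem ZDrawing.F4 (D : ZDrawing m n) {r s : Fin m} {x y : Fin n} (hrs : r < s)
    (hx : D.redX s < D.blueX x) (hy : D.blueX y < D.redX r)
    (h : D.abR r x s ↔ D.abR s y r) : D.Meet r s x y := by
  have hrs' := D.redX_mono hrs
  have m1 : D.redX s ∈ uIcc (D.redX r) (D.blueX x) := mem_uIcc_of_lt hrs'.le hx.le
  have m2 : D.redX r ∈ uIcc (D.redX s) (D.blueX y) := mem_uIcc_of_gt hy.le hrs'.le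
  have nb : D.curve s y (D.redX r) ≠ D.redY r := D.avoid_red s y r hrs.ne m2
  have na : D.curve r x (D.redX s) ≠ D.redY s := D.avoid_red r x s hrs.ne' m1
  refine D.forced_aux r s x y (D.redX s) (D.redX r) m1 left_mem_uIcc left_mem_uIcc m2 ?_ ?_ ?_
  · rw [D.start]; exact nb.symm
  · rw [D.start, D.start]
    unfold ZDrawing.abR at h
    rw [h, not_lt]
    exact ⟨fun h' => h'.le, fun h' => lt_of_le_of_ne h' nb.symm⟩
  · rw [D.start]; exact na

/-- Case `y < x`, both between `r` and `s`. -/
theorem ZDrawing.F6 (D : ZDrawing m n) {r s : Fin m} {x y : Fin n}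
    (hy : D.redX r < D.blueX y) (hyx : y < x) (hx : D.blueX x < D.redX s)
    (h : D.abB r x y ↔ D.abB s y x) : D.Meet r s x y := by
  have hyx' := D.blueX_mono hyx
  have m1 : D.blueX y ∈ uIcc (D.redX r) (D.blueX x) := mem_uIcc_of_lt hy.le hyx'.le
  have m2 : D.blueX x ∈ uIcc (D.redX s) (D.blueX y) := mem_uIcc_of_gt hyx'.le hx.le
  have nb : D.curve s y (D.blueX x) ≠ D.blueY x := D.avoid_blue s y x hyx.ne' m2
  have na : D.curve r x (D.blueX y) ≠ D.blueY y := D.avoid_blue r x y hyx.ne m1
  refine D.forced_aux r s x y (D.blueX y) (D.blueX x) m1 right_mem_uIcc right_mem_uIcc m2 ?_ ?_ ?_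
  · rw [D.stop]; exact nb.symm
  · rw [D.stop, D.stop]
    unfold ZDrawing.abB at h
    rw [h, not_lt]
    exact ⟨fun h' => h'.le, fun h' => lt_of_le_of_ne h' nb.symm⟩
  · rw [D.stop]; exact na

theorem iff_aux {a b c d : ℝ} (h1 : a ≠ b) (h2 : c ≠ d) (h : b < a ↔ ¬ d < c) : a < b ↔ ¬ c < d := by
  rcases lt_or_gt_of_ne h1 with h3 | h3 <;> rcases lt_or_gt_of_ne h2 with h4 | h4
  · exact absurd (h.mpr (not_lt.mpr h4.le)) (not_lt.mpr h3.le)
  · exact ⟨fun _ => not_lt.mpr h4.le, fun _ => h3⟩
  · exact ⟨fun e => absurd e (not_lt.mpr h3.le), fun e => absurd h4 e⟩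
  · exact absurd h3 (h.not.mpr (not_not.mpr h4))

/-- Case `y` left of `r`, `y < x`, `x` left of `s`. -/
theorem ZDrawing.F7 (D : ZDrawing m n) {r s : Fin m} {x y : Fin n} (hrs : r < s)
    (hy : D.blueX y < D.redX r) (hyx : y < x) (hx : D.blueX x < D.redX s)
    (h : D.abR s y r ↔ ¬ D.abB s y x) : D.Meet r s x y := by
  have hrs' := D.redX_mono hrs
  have hyx' := D.blueX_mono hyx
  have m1 : D.redX r ∈ uIcc (D.redX s) (D.blueX y) := mem_uIcc_of_gt hy.le hrs'.le
  have m2 : D.blueX x ∈ uIcc (D.redX s) (D.blueX y) := mem_uIcc_of_gt hyx'.le hx.le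
  have nb : D.curve s y (D.blueX x) ≠ D.blueY x := D.avoid_blue s y x hyx.ne' m2
  have na : D.curve s y (D.redX r) ≠ D.redY r := D.avoid_red s y r hrs.ne m1
  refine D.forced_aux r s x y (D.redX r) (D.blueX x) left_mem_uIcc m1 right_mem_uIcc m2 ?_ ?_ ?_
  · rw [D.stop]; exact nb.symm
  · rw [D.start, D.stop]
    exact iff_aux na nb h
  · rw [D.start]; exact na.symm

/-- Case `y` left of `r`, `x < y`. -/
theorem ZDrawing.F9 (D : ZDrawing m n) {r s : Fin m} {x y : Fin n} (hrs : r < s)
    (hy : D.blueX y < D.redX r) (hxy : x < y)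
    (h : D.abR s y r ↔ D.abB r x y) : D.Meet r s x y := by
  have hrs' := D.redX_mono hrs
  have hxy' := D.blueX_mono hxy
  have m1 : D.redX r ∈ uIcc (D.redX s) (D.blueX y) := mem_uIcc_of_gt hy.le hrs'.le
  have m2 : D.blueX y ∈ uIcc (D.redX r) (D.blueX x) := mem_uIcc_of_gt hxy'.le hy.le
  have nb : D.curve r x (D.blueX y) ≠ D.blueY y := D.avoid_blue r x y hxy.ne' m2
  have na : D.curve s y (D.redX r) ≠ D.redY r := D.avoid_red s y r hrs.ne m1
  refine D.forced_aux r s x y (D.redX r) (D.blueX y) left_mem_uIcc m1 m2 right_mem_uIcc ?_ ?_ ?_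
  · rw [D.stop]; exact nb
  · rw [D.start, D.stop]
    constructor
    · intro h1 h2
      exact lt_asymm h1 (h.mpr h2)
    · intro h1
      have : ¬ D.redY r < D.curve s y (D.redX r) := fun h2 => h1 (h.mp h2)
      exact lt_of_le_of_ne (not_lt.mp this) na
  · rw [D.start]; exact na.symm

/-- The values near a red vertex order the edges on its right. -/
theorem ZDrawing.exists_orderR (D : ZDrawing m n) (r : Fin m) :
    ∃ v : Fin n → ℝ, (∀ x y, D.redX r < D.blueX x → D.redX r < D.blueX y → x ≠ y → v x ≠ v y) ∧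
      ∀ x y, D.redX r < D.blueX x → x < y → (D.abB r y x ↔ v x < v y) := by
  by_cases hne : (univ.filter fun b : Fin n => D.redX r < D.blueX b).Nonempty
  · obtain ⟨b0, hb0, hmin⟩ := (univ.filter fun b : Fin n => D.redX r < D.blueX b).exists_min_image
      D.blueX hne
    have hb0' : D.redX r < D.blueX b0 := (Finset.mem_filter.mp hb0).2
    have hle : ∀ x, D.redX r < D.blueX x → D.blueX b0 ≤ D.blueX x := fun x hx =>
      hmin x (Finset.mem_filter.mpr ⟨mem_univ _, hx⟩)
    have mem : ∀ x, D.redX r < D.blueX x → D.blueX b0 ∈ uIcc (D.redX r) (D.blueX x) := fun x hx =>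
      mem_uIcc_of_lt hb0'.le (hle x hx)
    refine ⟨fun x => D.curve r x (D.blueX b0), ?_, ?_⟩
    · intro x y hx hy hxy
      exact D.adj r x y hxy _ (mem x hx) (mem y hy) hb0'.ne'
    · intro x y hx hxy
      have hxy' := D.blueX_mono hxy
      have hy : D.redX r < D.blueX y := hx.trans hxy'
      have sub : uIcc (D.blueX b0) (D.blueX x) ⊆ uIcc (D.redX r) (D.blueX x) :=
        uIcc_subset_uIcc (mem x hx) right_mem_uIcc
      have sub2 : uIcc (D.blueX b0) (D.blueX x) ⊆ uIcc (D.redX r) (D.blueX y) :=
        uIcc_subset_uIcc (mem y hy) (mem_uIcc_of_lt hx.le hxy'.le)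
      have hc : ContinuousOn (fun t => D.curve r y t - D.curve r x t)
          (uIcc (D.blueX b0) (D.blueX x)) :=
        ((D.cont r y).mono sub2).sub ((D.cont r x).mono sub)
      have nz : ∀ t ∈ uIcc (D.blueX b0) (D.blueX x), D.curve r y t - D.curve r x t ≠ 0 := by
        intro t ht h0
        have hne' : t ≠ D.redX r := by
          rcases Set.mem_uIcc.mp ht with h | h
          · exact (lt_of_lt_of_le hb0' h.1).ne'
          · exact (lt_of_lt_of_le hx h.1).ne'
        exact D.adj r y x hxy.ne' t (sub2 ht) (sub ht) hne' (sub_eq_zero.mp h0)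
      unfold ZDrawing.abB
      have e : D.curve r x (D.blueX x) = D.blueY x := D.stop r x
      constructor
      · intro h
        by_contra hcon
        have h0 : (0 : ℝ) ∈ uIcc (D.curve r y (D.blueX b0) - D.curve r x (D.blueX b0))
            (D.curve r y (D.blueX x) - D.curve r x (D.blueX x)) := by
          rw [Set.mem_uIcc, e]
          left
          constructor
          · simp only at hcon
            linarith [not_lt.mp hcon]
          · linarith
        obtain ⟨t, ht, hz⟩ := intermediate_value_uIcc hc h0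
        exact nz t ht hz
      · intro h
        by_contra hcon
        have h0 : (0 : ℝ) ∈ uIcc (D.curve r y (D.blueX b0) - D.curve r x (D.blueX b0))
            (D.curve r y (D.blueX x) - D.curve r x (D.blueX x)) := by
          rw [Set.mem_uIcc, e]
          right
          constructor
          · linarith [not_lt.mp hcon]
          · simp only at h
            linarith
        obtain ⟨t, ht, hz⟩ := intermediate_value_uIcc hc h0
        exact nz t ht hz
  · refine ⟨fun _ => 0, ?_, ?_⟩
    · intro x _ hx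
      exact absurd ⟨x, Finset.mem_filter.mpr ⟨mem_univ _, hx⟩⟩ hne
    · intro x _ hx
      exact absurd ⟨x, Finset.mem_filter.mpr ⟨mem_univ _, hx⟩⟩ hne

/-- The values near a red vertex order the edges on its left. -/
theorem ZDrawing.exists_orderL (D : ZDrawing m n) (r : Fin m) :
    ∃ v : Fin n → ℝ, (∀ x y, D.blueX x < D.redX r → D.blueX y < D.redX r → x ≠ y → v x ≠ v y) ∧
      ∀ x y, D.blueX y < D.redX r → x < y → (D.abB r x y ↔ v y < v x) := by
  by_cases hne : (univ.filter fun b : Fin n => D.blueX b < D.redX r).Nonempty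
  · obtain ⟨b0, hb0, hmax⟩ := (univ.filter fun b : Fin n => D.blueX b < D.redX r).exists_max_image
      D.blueX hne
    have hb0' : D.blueX b0 < D.redX r := (Finset.mem_filter.mp hb0).2
    have hle : ∀ x, D.blueX x < D.redX r → D.blueX x ≤ D.blueX b0 := fun x hx =>
      hmax x (Finset.mem_filter.mpr ⟨mem_univ _, hx⟩)
    have mem : ∀ x, D.blueX x < D.redX r → D.blueX b0 ∈ uIcc (D.redX r) (D.blueX x) := fun x hx =>
      mem_uIcc_of_gt (hle x hx) hb0'.le
    refine ⟨fun x => D.curve r x (D.blueX b0), ?_, ?_⟩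
    · intro x y hx hy hxy
      exact D.adj r x y hxy _ (mem x hx) (mem y hy) hb0'.ne
    · intro x y hy hxy
      have hxy' := D.blueX_mono hxy
      have hx : D.blueX x < D.redX r := hxy'.trans hy
      have sub : uIcc (D.blueX b0) (D.blueX y) ⊆ uIcc (D.redX r) (D.blueX y) :=
        uIcc_subset_uIcc (mem y hy) right_mem_uIcc
      have sub2 : uIcc (D.blueX b0) (D.blueX y) ⊆ uIcc (D.redX r) (D.blueX x) :=
        uIcc_subset_uIcc (mem x hx) (mem_uIcc_of_gt hxy'.le hy.le)
      have hc : ContinuousOn (fun t => D.curve r x t - D.curve r y t)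
          (uIcc (D.blueX b0) (D.blueX y)) :=
        ((D.cont r x).mono sub2).sub ((D.cont r y).mono sub)
      have nz : ∀ t ∈ uIcc (D.blueX b0) (D.blueX y), D.curve r x t - D.curve r y t ≠ 0 := by
        intro t ht h0
        have hne' : t ≠ D.redX r := by
          rcases Set.mem_uIcc.mp ht with h | h
          · exact (lt_of_le_of_lt h.2 hy).ne
          · exact (lt_of_le_of_lt h.2 hb0').ne
        exact D.adj r x y hxy.ne t (sub2 ht) (sub ht) hne' (sub_eq_zero.mp h0)
      unfold ZDrawing.abB
      have e : D.curve r y (D.blueX y) = D.blueY y := D.stop r y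
      constructor
      · intro h
        by_contra hcon
        have h0 : (0 : ℝ) ∈ uIcc (D.curve r x (D.blueX b0) - D.curve r y (D.blueX b0))
            (D.curve r x (D.blueX y) - D.curve r y (D.blueX y)) := by
          rw [Set.mem_uIcc, e]
          left
          constructor
          · simp only at hcon
            linarith [not_lt.mp hcon]
          · linarith
        obtain ⟨t, ht, hz⟩ := intermediate_value_uIcc hc h0
        exact nz t ht hz
      · intro h
        by_contra hcon
        have h0 : (0 : ℝ) ∈ uIcc (D.curve r x (D.blueX b0) - D.curve r y (D.blueX b0))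
            (D.curve r x (D.blueX y) - D.curve r y (D.blueX y)) := by
          rw [Set.mem_uIcc, e]
          right
          constructor
          · linarith [not_lt.mp hcon]
          · simp only at h
            linarith
        obtain ⟨t, ht, hz⟩ := intermediate_value_uIcc hc h0
        exact nz t ht hz
  · refine ⟨fun _ => 0, ?_, ?_⟩
    · intro x _ hx
      exact absurd ⟨x, Finset.mem_filter.mpr ⟨mem_univ _, hx⟩⟩ hne
    · intro x y hy hxy
      have hx : D.blueX x < D.redX r := (D.blueX_mono hxy).trans hy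
      exact absurd ⟨x, Finset.mem_filter.mpr ⟨mem_univ _, hx⟩⟩ hne

end Vale.Agent.Lib.P040Z
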