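import Mathlib

namespace Vale.Agent.Lib.P040Z

open Finset

variable {n : ℕ}

/-- Kendall distance of two orders given as position functions. -/
def kend (s t : Equiv.Perm (Fin n)) : ℕ :=
  ((univ : Finset (Fin n × Fin n)).filter
    (fun p => p.1 < p.2 ∧ ¬ ((s p.1 < s p.2) ↔ (t p.1 < t p.2)))).card

/-- adjacent transposition of positions `i, i+1`. -/
def adj (i : ℕ) (hi : i + 1 < n) : Equiv.Perm (Fin n) :=
  Equiv.swap ⟨i, by omega⟩ ⟨i + 1, hi⟩

theorem adj_lt_iff (i : ℕ) (hi : i + 1 < n) (x y : Fin n)
    (h : ¬ (x.val = i ∧ y.val = i + 1)) (h' : ¬ (x.val = i + 1 ∧ y.val = i)) :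
    (adj i hi x < adj i hi y) ↔ x < y := by
  unfold adj
  simp only [Equiv.swap_apply_def]
  simp only [Fin.lt_def, Fin.ext_iff]
  split_ifs <;> simp_all <;> omega

theorem adj_val_left (i : ℕ) (hi : i + 1 < n) (x : Fin n) (hx : x.val = i) :
    (adj i hi x).val = i + 1 := by
  unfold adj
  have : x = ⟨i, by omega⟩ := Fin.ext hx
  rw [this, Equiv.swap_apply_left]

theorem adj_val_right (i : ℕ) (hi : i + 1 < n) (x : Fin n) (hx : x.val = i + 1) :
    (adj i hi x).val = i := by
  unfold adj
  have : x = ⟨i + 1, hi⟩ := Fin.ext hx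
  rw [this, Equiv.swap_apply_right]

/-- If `s ≠ t` some adjacent positions of `s` are in the wrong order for `t`. -/
theorem exists_adj_inversion (s t : Equiv.Perm (Fin n)) (h : s ≠ t) :
    ∃ (i : ℕ) (hi : i + 1 < n),
      t (s.symm ⟨i + 1, hi⟩) < t (s.symm ⟨i, by omega⟩) := by
  by_contra hcon
  have hcon' : ∀ (i : ℕ) (hi : i + 1 < n),
      t (s.symm ⟨i, by omega⟩) ≤ t (s.symm ⟨i + 1, hi⟩) := by
    intro i hi
    by_contra h2
    exact hcon ⟨i, hi, not_le.1 h2⟩
  let f : Fin n → Fin n := fun x => t (s.symm x)
  have hmono : ∀ (a b : ℕ) (ha : a < n) (hb : b < n), a ≤ b → f ⟨a, ha⟩ ≤ f ⟨b, hb⟩ := by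
    intro a b ha hb hab
    induction b, hab using Nat.le_induction with
    | base => exact le_refl _
    | succ b hab'' ih =>
      exact le_trans (ih (by omega)) (hcon' b hb)
  have hs : StrictMono f := by
    intro a b hab
    have h1 : f a ≤ f b := hmono a.val b.val a.isLt b.isLt (le_of_lt hab)
    refine lt_of_le_of_ne h1 ?_
    intro he
    have : a = b := s.symm.injective (t.injective he)
    exact absurd this (ne_of_lt hab)
  have hsurj : Function.Surjective f := fun y => ⟨s (t.symm y), by simp [f]⟩
  have hid : ∀ x : Fin n, f x = x := by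
    intro x
    have h2 : hs.orderIsoOfSurjective f hsurj = OrderIso.refl (Fin n) := Subsingleton.elim _ _
    have h3 := DFunLike.congr_fun h2 x
    exact h3
  apply h
  ext x
  have := hid (s x)
  simp only [f, Equiv.symm_apply_apply] at this
  rw [this]

/-- Swapping adjacent positions that are inverted for `t` lowers the Kendall distance by one. -/
theorem kend_adj (s t : Equiv.Perm (Fin n)) (i : ℕ) (hi : i + 1 < n)
    (hinv : t (s.symm ⟨i + 1, hi⟩) < t (s.symm ⟨i, by omega⟩)) :
    kend (adj i hi * s) t + 1 = kend s t := by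
  classical
  -- the two elements at positions i, i+1
  set u := s.symm ⟨i, by omega⟩ with hu
  set v := s.symm ⟨i + 1, hi⟩ with hv
  have hsu : (s u).val = i := by simp [hu]
  have hsv : (s v).val = i + 1 := by simp [hv]
  have huv : u ≠ v := by
    intro h
    rw [h] at hsu
    omega
  -- the inverted pair, written with smaller label first
  let q : Fin n × Fin n := if u < v then (u, v) else (v, u)
  have hfilter : ((univ : Finset (Fin n × Fin n)).filter
      (fun p => p.1 < p.2 ∧ ¬ ((s p.1 < s p.2) ↔ (t p.1 < t p.2)))) =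
      insert q ((univ : Finset (Fin n × Fin n)).filter
      (fun p => p.1 < p.2 ∧ ¬ (((adj i hi * s) p.1 < (adj i hi * s) p.2) ↔ (t p.1 < t p.2)))) := by
    ext ⟨a, b⟩
    rw [mem_insert, mem_filter, mem_filter]
    simp only [mem_univ, true_and, Equiv.Perm.mul_apply]
    have hcases : (a = u ∧ b = v) ∨ (a = v ∧ b = u) ∨
        (¬ ((s a).val = i ∧ (s b).val = i + 1) ∧ ¬ ((s a).val = i + 1 ∧ (s b).val = i)) := by
      by_cases h1 : (s a).val = i ∧ (s b).val = i + 1
      · left
        constructor
        · apply s.injective; apply Fin.ext; rw [h1.1, hsu]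
        · apply s.injective; apply Fin.ext; rw [h1.2, hsv]
      · by_cases h2 : (s a).val = i + 1 ∧ (s b).val = i
        · right; left
          constructor
          · apply s.injective; apply Fin.ext; rw [h2.1, hsv]
          · apply s.injective; apply Fin.ext; rw [h2.2, hsu]
        · right; right; exact ⟨h1, h2⟩
    rcases hcases with ⟨ha, hb⟩ | ⟨ha, hb⟩ | ⟨h1, h2⟩
    · subst ha hb
      -- a = u, b = v
      have hl : s u < s v := by rw [Fin.lt_def]; omega
      have hr : adj i hi (s v) < adj i hi (s u) := by
        rw [Fin.lt_def, adj_val_left i hi _ hsu, adj_val_right i hi _ hsv]; omega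
      constructor
      · rintro ⟨hab, -⟩
        left
        simp [q, hab]
      · rintro (hq | ⟨hab, hne⟩)
        · simp only [q] at hq
          split_ifs at hq with hc
          · refine ⟨hc, ?_⟩
            intro hiff
            exact absurd (hiff.1 hl) (not_lt.2 (le_of_lt hinv))
          · exact absurd (Prod.mk.inj hq).1 huv
        · refine ⟨hab, ?_⟩
          intro hiff
          exact absurd (hiff.1 hl) (not_lt.2 (le_of_lt hinv))
    · subst ha hb
      -- a = v, b = u
      have hl : s u < s v := by rw [Fin.lt_def]; omega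
      have hr : adj i hi (s v) < adj i hi (s u) := by
        rw [Fin.lt_def, adj_val_left i hi _ hsu, adj_val_right i hi _ hsv]; omega
      constructor
      · rintro ⟨hab, -⟩
        left
        have : ¬ u < v := not_lt.2 (le_of_lt hab)
        simp [q, this]
      · rintro (hq | ⟨hab, hne⟩)
        · simp only [q] at hq
          split_ifs at hq with hc
          · exact absurd (Prod.mk.inj hq).1 (Ne.symm huv)
          · have hvu : v < u := lt_of_le_of_ne (not_lt.1 hc) (Ne.symm huv)
            refine ⟨hvu, ?_⟩
            intro hiff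
            exact absurd (hiff.2 hinv) (not_lt.2 (le_of_lt hl))
        · refine ⟨hab, ?_⟩
          intro hiff
          exact absurd (hiff.2 hinv) (not_lt.2 (le_of_lt hl))
    · have hne : ¬ ((a, b) = q) := by
        intro hq
        simp only [q] at hq
        split_ifs at hq with hc
        · have e1 : a = u := (Prod.mk.inj hq).1
          have e2 : b = v := (Prod.mk.inj hq).2
          exact h1 ⟨by rw [e1]; exact hsu, by rw [e2]; exact hsv⟩
        · have e1 : a = v := (Prod.mk.inj hq).1
          have e2 : b = u := (Prod.mk.inj hq).2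
          exact h2 ⟨by rw [e1]; exact hsv, by rw [e2]; exact hsu⟩
      have hiffadj := adj_lt_iff i hi (s a) (s b) h1 h2
      constructor
      · rintro ⟨hab, hn⟩
        right
        refine ⟨hab, ?_⟩
        rw [hiffadj]
        exact hn
      · rintro (hq | ⟨hab, hn⟩)
        · exact absurd hq hne
        · refine ⟨hab, ?_⟩
          rw [← hiffadj]
          exact hn
  have hr : adj i hi (s v) < adj i hi (s u) := by
    rw [Fin.lt_def, adj_val_left i hi _ hsu, adj_val_right i hi _ hsv]; omega
  have hqnot : q ∉ ((univ : Finset (Fin n × Fin n)).filter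
      (fun p => p.1 < p.2 ∧ ¬ (((adj i hi * s) p.1 < (adj i hi * s) p.2) ↔ (t p.1 < t p.2)))) := by
    intro hmem
    rw [mem_filter] at hmem
    obtain ⟨-, -, hnot⟩ := hmem
    apply hnot
    by_cases hc : u < v
    · have hq : q = (u, v) := if_pos hc
      rw [hq]
      exact ⟨fun h => absurd h (not_lt.2 (le_of_lt hr)), fun h => absurd h (not_lt.2 (le_of_lt hinv))⟩
    · have hq : q = (v, u) := if_neg hc
      rw [hq]
      exact ⟨fun _ => hinv, fun _ => hr⟩
  unfold kend
  rw [hfilter, card_insert_of_notMem hqnot]

/-- A function on orders that moves by at most one under adjacent swaps of positions is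
`1`-Lipschitz for the Kendall distance. -/
theorem lip_path (Phi : Equiv.Perm (Fin n) → ℤ)
    (hPhi : ∀ (s : Equiv.Perm (Fin n)) (i : ℕ) (hi : i + 1 < n),
      |Phi (adj i hi * s) - Phi s| ≤ 1)
    (s t : Equiv.Perm (Fin n)) : |Phi s - Phi t| ≤ (kend s t : ℤ) := by
  induction hk : kend s t using Nat.strong_induction_on generalizing s with
  | _ k ih =>
    by_cases hst : s = t
    · subst hst
      simp
    · obtain ⟨i, hi, hinv⟩ := exists_adj_inversion s t hst
      have h1 := kend_adj s t i hi hinv
      have h2 := ih (kend (adj i hi * s) t) (by omega) (adj i hi * s) rfl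
      have h3 := hPhi s i hi
      have : (k : ℤ) = (kend (adj i hi * s) t : ℤ) + 1 := by
        rw [← hk, ← h1]; push_cast; ring
      rw [this]
      have h4 : |Phi s - Phi t| ≤ |Phi s - Phi (adj i hi * s)| + |Phi (adj i hi * s) - Phi t| :=
        abs_sub_le _ _ _
      rw [abs_sub_comm (Phi s) (Phi (adj i hi * s))] at h4
      linarith

end Vale.Agent.Lib.P040Z
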