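import Vale.Agent.Lib.P040Z.Defs

/-!
Counting agreeing bits at one pivot, and the range of `fval`.
-/

namespace Vale.Agent.Lib.P040Z.Pivot

open Finset Vale.Agent.Lib.P040Z

lemma card_same_right (w u u1 : ℕ) (hu : u ≤ w) (hu1 : u1 ≤ w) :
    (((range w).filter fun i => decide (i < u) = decide (i < u1)).card : ℤ) =
      (w : ℤ) - |(u : ℤ) - u1| := by
  have hf : (range w).filter (fun i => decide (i < u) = decide (i < u1)) =
      (range (min u u1)) ∪ (Ico (max u u1) w) := by
    ext i
    simp only [mem_filter, mem_range, mem_union, mem_Ico, decide_eq_decide]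
    rcases le_total u u1 with h | h
    · rw [min_eq_left h, max_eq_right h]
      constructor
      · rintro ⟨h1, h2⟩
        by_cases h3 : i < u
        · left; exact h3
        · right; exact ⟨by
            by_contra h4; exact h3 (h2.2 (by omega)), h1⟩
      · rintro (h1 | h1)
        · exact ⟨by omega, by constructor <;> intro _ <;> omega⟩
        · exact ⟨h1.2, by constructor <;> intro _ <;> omega⟩
    · rw [min_eq_right h, max_eq_left h]
      constructor
      · rintro ⟨h1, h2⟩
        by_cases h3 : i < u1
        · left; exact h3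
        · right; exact ⟨by
            by_contra h4; exact h3 (h2.1 (by omega)), h1⟩
      · rintro (h1 | h1)
        · exact ⟨by omega, by constructor <;> intro _ <;> omega⟩
        · exact ⟨h1.2, by constructor <;> intro _ <;> omega⟩
  have hd : Disjoint (range (min u u1)) (Ico (max u u1) w) := by
    rw [disjoint_left]
    intro i hi hj
    simp only [mem_range, mem_Ico] at hi hj
    omega
  rw [hf, card_union_of_disjoint hd, card_range, Nat.card_Ico]
  rcases le_total u u1 with h | h
  · rw [min_eq_left h, max_eq_right h, abs_sub_comm, abs_of_nonneg (by omega)]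
    omega
  · rw [min_eq_right h, max_eq_left h, abs_of_nonneg (by omega)]
    omega

lemma card_same_left (w u u1 : ℕ) (hu : u ≤ w) (hu1 : u1 ≤ w) :
    (((range w).filter fun i => decide (w - i ≤ u) = decide (w - i ≤ u1)).card : ℤ) =
      (w : ℤ) - |(u : ℤ) - u1| := by
  have h := card_same_right w (w - u) (w - u1) (by omega) (by omega)
  have he : (range w).filter (fun i => decide (w - i ≤ u) = decide (w - i ≤ u1)) =
      (range w).filter (fun i => decide (i < w - u) = decide (i < w - u1)) := by
    apply filter_congr
    intro i hi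
    have hi' := mem_range.1 hi
    simp only [decide_eq_decide]
    constructor
    · intro h2; constructor
      · intro h3
        by_contra h4
        have : w - i ≤ u1 := h2.1 (by omega)
        omega
      · intro h3
        by_contra h4
        have : w - i ≤ u := h2.2 (by omega)
        omega
    · intro h2; constructor
      · intro h3
        by_contra h4
        have : i < w - u := h2.2 (by omega)
        omega
      · intro h3
        by_contra h4
        have : i < w - u1 := h2.1 (by omega)
        omega
  rw [he, h]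
  have : |((w - u : ℕ) : ℤ) - ((w - u1 : ℕ) : ℤ)| = |(u : ℤ) - u1| := by
    rw [abs_sub_comm]
    congr 1
    omega
  rw [this]

lemma card_mixed (w u u1 : ℕ) (hu : u ≤ w) (hu1 : u1 ≤ w) :
    (((range w).filter fun i => decide (i < u) = decide (w - i ≤ u1)).card : ℤ) =
      |(u : ℤ) + u1 - w| := by
  rcases le_total (w - u1) u with h | h
  · have hf : (range w).filter (fun i => decide (i < u) = decide (w - i ≤ u1)) =
        Ico (w - u1) u := by
      ext i
      simp only [mem_filter, mem_range, mem_Ico, decide_eq_decide]
      constructor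
      · rintro ⟨h1, h2⟩
        by_cases h3 : i < u
        · have := h2.1 h3
          exact ⟨by omega, h3⟩
        · exfalso
          have h4 : ¬ w - i ≤ u1 := fun h5 => h3 (h2.2 h5)
          omega
      · rintro ⟨h1, h2⟩
        exact ⟨by omega, by constructor <;> intro _ <;> omega⟩
    rw [hf, Nat.card_Ico, abs_of_nonneg (by omega)]
    omega
  · have hf : (range w).filter (fun i => decide (i < u) = decide (w - i ≤ u1)) =
        Ico u (w - u1) := by
      ext i
      simp only [mem_filter, mem_range, mem_Ico, decide_eq_decide]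
      constructor
      · rintro ⟨h1, h2⟩
        by_cases h3 : i < u
        · exfalso
          have := h2.1 h3
          omega
        · have h4 : ¬ w - i ≤ u1 := fun h5 => h3 (h2.2 h5)
          omega
      · rintro ⟨h1, h2⟩
        exact ⟨by omega, by constructor <;> intro _ <;> omega⟩
    rw [hf, Nat.card_Ico, abs_of_nonpos (by omega)]
    omega

variable {k : ℕ}

/-- Reading a position in cyclic distance. -/
lemma cyc_eq (n p q : ℕ) (hp : p < n) (hq : q < n) :
    (p + n - q) % n = if q ≤ p then p - q else p + n - q := by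
  split_ifs with h
  · have : p + n - q = (p - q) + n := by omega
    rw [this, Nat.add_mod_right, Nat.mod_eq_of_lt (by omega)]
  · rw [Nat.mod_eq_of_lt (by omega)]

lemma inW_iff (p q : Fin (2 * k + 1)) :
    inW k p q ↔ ((q : ℕ) < p ∧ (p : ℕ) - q ≤ k) ∨ ((p : ℕ) < q ∧ (p : ℕ) + (2 * k + 1) - q ≤ k) := by
  unfold inW
  rw [cyc_eq _ _ _ p.2 q.2]
  split_ifs with h <;> omega

/-- The cyclic window has `k` positions. -/
lemma card_inW (q : Fin (2 * k + 1)) :
    (univ.filter fun p : Fin (2 * k + 1) => inW k p q).card = k := by
  have hq := q.2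
  let g : ℕ → Fin (2 * k + 1) := fun j =>
    if h : (q : ℕ) + j + 1 < 2 * k + 1 then ⟨(q : ℕ) + j + 1, h⟩
    else ⟨min ((q : ℕ) + j + 1 - (2 * k + 1)) (2 * k), by omega⟩
  have hcard : (univ.filter fun p : Fin (2 * k + 1) => inW k p q) = (range k).image g := by
    ext p
    simp only [mem_filter, mem_univ, true_and, mem_image, mem_range]
    rw [inW_iff]
    constructor
    · rintro (⟨h1, h2⟩ | ⟨h1, h2⟩)
      · refine ⟨(p : ℕ) - q - 1, by omega, ?_⟩
        have : (q : ℕ) + ((p : ℕ) - q - 1) + 1 < 2 * k + 1 := by omega
        simp only [g, dif_pos this]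
        apply Fin.ext
        show (q : ℕ) + ((p : ℕ) - q - 1) + 1 = p
        omega
      · refine ⟨(p : ℕ) + (2 * k + 1) - q - 1, by omega, ?_⟩
        have : ¬ (q : ℕ) + ((p : ℕ) + (2 * k + 1) - q - 1) + 1 < 2 * k + 1 := by omega
        simp only [g, dif_neg this]
        apply Fin.ext
        show min ((q : ℕ) + ((p : ℕ) + (2 * k + 1) - q - 1) + 1 - (2 * k + 1)) (2 * k) = p
        omega
    · rintro ⟨j, hj, rfl⟩
      by_cases h : (q : ℕ) + j + 1 < 2 * k + 1
      · simp only [g, dif_pos h]
        left
        show (q : ℕ) < (q : ℕ) + j + 1 ∧ (q : ℕ) + j + 1 - q ≤ k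
        omega
      · simp only [g, dif_neg h]
        right
        show min ((q : ℕ) + j + 1 - (2 * k + 1)) (2 * k) < q ∧
          min ((q : ℕ) + j + 1 - (2 * k + 1)) (2 * k) + (2 * k + 1) - q ≤ k
        omega
  rw [hcard, card_image_of_injOn, card_range]
  intro a ha b hb hab
  simp only [coe_range, Set.mem_Iio] at ha hb
  simp only [g] at hab
  by_cases h1 : (q : ℕ) + a + 1 < 2 * k + 1 <;> by_cases h2 : (q : ℕ) + b + 1 < 2 * k + 1
  · simp only [dif_pos h1, dif_pos h2, Fin.mk.injEq] at hab; omega
  · simp only [dif_pos h1, dif_neg h2, Fin.mk.injEq] at hab; omega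
  · simp only [dif_neg h1, dif_pos h2, Fin.mk.injEq] at hab; omega
  · simp only [dif_neg h1, dif_neg h2, Fin.mk.injEq] at hab; omega

/-- The window after `l` in the rotation `σ` has exactly `k` elements. -/
lemma card_window (σ : Fin (2 * k + 1) ≃ Fin (2 * k + 1)) (l : Fin (2 * k + 1)) :
    (univ.filter fun y : Fin (2 * k + 1) => inW k (σ y) (σ l)).card = k := by
  refine Eq.trans ?_ (card_inW (σ l))
  apply card_bij (fun y _ => σ y)
  · intro y hy
    simpa using hy
  · intro a _ b _ h
    exact σ.injective h
  · intro p hp
    refine ⟨σ.symm p, ?_, by simp⟩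
    simpa using hp

/-- `fval` is at most `l` and at most `k`. -/
lemma fval_le (σ : Fin (2 * k + 1) ≃ Fin (2 * k + 1)) (l : Fin (2 * k + 1)) :
    fval σ l ≤ l ∧ fval σ l ≤ k := by
  constructor
  · have h : fval σ l ≤ (univ.filter fun y : Fin (2 * k + 1) => y < l).card := by
      unfold fval
      apply card_le_card
      intro y hy
      simp only [mem_filter, mem_univ, true_and] at hy ⊢
      exact hy.1
    have h2 : (univ.filter fun y : Fin (2 * k + 1) => y < l).card = l := by
      have h3 : (univ.filter fun y : Fin (2 * k + 1) => y < l) = Finset.Iio l := by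
        ext y; simp
      rw [h3, Fin.card_Iio]
    omega
  · refine le_trans ?_ (le_of_eq (card_window σ l))
    unfold fval
    apply card_le_card
    intro y hy
    simp only [mem_filter, mem_univ, true_and] at hy ⊢
    exact hy.2

/-- `fval` is at least `l - k`. -/
lemma le_fval (σ : Fin (2 * k + 1) ≃ Fin (2 * k + 1)) (l : Fin (2 * k + 1)) :
    (l : ℕ) - k ≤ fval σ l := by
  have hl := l.2
  -- elements of the window above `l`
  have h1 : (univ.filter fun y : Fin (2 * k + 1) => inW k (σ y) (σ l)).card ≤
      fval σ l + (univ.filter fun y : Fin (2 * k + 1) => l < y).card := by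
    unfold fval
    rw [← card_union_of_disjoint]
    · apply card_le_card
      intro y hy
      simp only [mem_filter, mem_univ, true_and, mem_union] at hy ⊢
      rcases lt_trichotomy y l with h | h | h
      · left; exact ⟨h, hy⟩
      · exfalso
        subst h
        rw [inW_iff] at hy
        omega
      · right; exact h
    · rw [disjoint_left]
      intro y hy hy2
      simp only [mem_filter, mem_univ, true_and] at hy hy2
      exact absurd hy.1 (not_lt.2 hy2.le)
  rw [card_window] at h1
  have h2 : (univ.filter fun y : Fin (2 * k + 1) => l < y).card = 2 * k - l := by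
    have := Fin.card_Ioi l
    have h3 : (univ.filter fun y : Fin (2 * k + 1) => l < y) = Finset.Ioi l := by
      ext y; simp
    rw [h3, this]
    omega
  omega

/-- The `u`-coordinate is at most the width. -/
lemma uval_le (σ : Fin (2 * k + 1) ≃ Fin (2 * k + 1)) (l : Fin (2 * k + 1)) :
    uval σ l ≤ wid k l := by
  have h1 := fval_le σ l
  have h2 := le_fval σ l
  have hl := l.2
  unfold uval wid
  omega

/-- Agreement of two stars at one pivot, as an integer. -/
def agreeAt (T T' : Star k) (l : Fin (2 * k + 1)) : ℕ :=
  ((range (wid k l)).filter fun i => T.bit l i = T'.bit l i).card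

lemma agree_eq_sum (T T' : Star k) : agree T T' = ∑ l, agreeAt T T' l := rfl

/-- The pivot formula: `T.J ≤ T'.J`. -/
lemma agreeAt_eq (T T' : Star k) (hJ : T.J ≤ T'.J) (l : Fin (2 * k + 1)) :
    (agreeAt T T' l : ℤ) =
      if T'.J ≤ (l : ℕ) ∨ (l : ℕ) < T.J then
        (wid k l : ℤ) - |(uval T.pos l : ℤ) - uval T'.pos l|
      else |(uval T.pos l : ℤ) + uval T'.pos l - wid k l| := by
  have hu := uval_le T.pos l
  have hu1 := uval_le T'.pos l
  unfold agreeAt
  by_cases h1 : T'.J ≤ (l : ℕ)
  · have h2 : T.J ≤ (l : ℕ) := hJ.trans h1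
    rw [if_pos (Or.inl h1), ← card_same_right _ _ _ hu hu1]
    simp only [Star.bit, if_pos h1, if_pos h2]
  · by_cases h2 : (l : ℕ) < T.J
    · have h3 : ¬ T.J ≤ (l : ℕ) := by omega
      rw [if_pos (Or.inr h2), ← card_same_left _ _ _ hu hu1]
      simp only [Star.bit, if_neg h1, if_neg h3]
    · have h3 : T.J ≤ (l : ℕ) := by omega
      rw [if_neg (by omega), ← card_mixed _ _ _ hu hu1]
      simp only [Star.bit, if_neg h1, if_pos h3]

end Vale.Agent.Lib.P040Z.Pivot
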