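import Vale.Agent.Lib.P040Z.FinalParts

/-!
Straight-line drawings of `K_{m,n}`: points in the plane with no vertex on an edge it does not belong
to. After a shear all points have distinct `x`-coordinates, so such a drawing is an `x`-monotone
drawing whose edges at one red vertex meet only at that vertex, and two edges meet in the sheared
drawing only if the original segments meet.
-/

namespace Vale.Agent.Lib.P040Z

open Finset Vale.Agent.Lib.P040 Vale.Agent.Lib.P040M

open Classical in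
/-- The number of unordered pairs of edges without a common end in the straight-line drawing of
`K_{m,n}` with red points `R` and blue points `B` whose segments have a point in common. -/
noncomputable def rectCross {m n : ℕ} (R : Fin m → ℝ × ℝ) (B : Fin n → ℝ × ℝ) : ℕ :=
  ((univ : Finset (Fin m × Fin m × Fin n × Fin n)).filter fun q =>
    q.1 < q.2.1 ∧ q.2.2.1 ≠ q.2.2.2 ∧
      (segment ℝ (R q.1) (B q.2.2.1) ∩ segment ℝ (R q.2.1) (B q.2.2.2)).Nonempty).card

theorem rect_theta_mem {a b t : ℝ} (hab : a ≠ b) (ht : t ∈ Set.uIcc a b) :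
    0 ≤ (t - a) / (b - a) ∧ (t - a) / (b - a) ≤ 1 := by
  rcases lt_or_gt_of_ne hab with h | h
  · rw [Set.uIcc_of_lt h, Set.mem_Icc] at ht
    have hd : 0 < b - a := by linarith
    exact ⟨div_nonneg (by linarith) hd.le, (div_le_one hd).2 (by linarith)⟩
  · rw [Set.uIcc_of_gt h, Set.mem_Icc] at ht
    have hd : b - a < 0 := by linarith
    exact ⟨div_nonneg_of_nonpos (by linarith) hd.le, (div_le_one_of_neg hd).2 (by linarith)⟩

/-- The sheared first coordinate. -/
noncomputable def shearX (τ : ℝ) (P : ℝ × ℝ) : ℝ := P.1 + τ * P.2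

/-- The second coordinate over sheared abscissa `t` on the line through `A` and `C`. -/
noncomputable def affEdge (τ : ℝ) (A C : ℝ × ℝ) (t : ℝ) : ℝ :=
  A.2 + (C.2 - A.2) * ((t - shearX τ A) / (shearX τ C - shearX τ A))

theorem aff_point_mem (τ : ℝ) (A C : ℝ × ℝ) (h : shearX τ A ≠ shearX τ C) {t : ℝ}
    (ht : t ∈ Set.uIcc (shearX τ A) (shearX τ C)) :
    (t - τ * affEdge τ A C t, affEdge τ A C t) ∈ segment ℝ A C := by
  obtain ⟨h0, h1⟩ := rect_theta_mem h ht
  have hd : shearX τ C - shearX τ A ≠ 0 := sub_ne_zero.2 h.symm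
  have key : (t - shearX τ A) / (shearX τ C - shearX τ A) * (shearX τ C - shearX τ A)
      = t - shearX τ A := div_mul_cancel₀ _ hd
  unfold affEdge
  generalize (t - shearX τ A) / (shearX τ C - shearX τ A) = θ at h0 h1 key
  refine ⟨1 - θ, θ, by linarith, h0, by ring, ?_⟩
  refine Prod.ext ?_ ?_
  · simp only [Prod.fst_add, Prod.smul_fst, smul_eq_mul]
    simp only [shearX] at key
    linear_combination (1 : ℝ) * key
  · simp only [Prod.snd_add, Prod.smul_snd, smul_eq_mul]
    ring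

theorem aff_vertex (τ : ℝ) (A C P : ℝ × ℝ) (h : shearX τ A ≠ shearX τ C)
    (ht : shearX τ P ∈ Set.uIcc (shearX τ A) (shearX τ C))
    (he : affEdge τ A C (shearX τ P) = P.2) : P ∈ segment ℝ A C := by
  have h1 := aff_point_mem τ A C h ht
  rw [he] at h1
  have e : (shearX τ P - τ * P.2, P.2) = P := Prod.ext (by simp [shearX]) rfl
  rwa [e] at h1

theorem rect_exists_shear (S : Finset (ℝ × ℝ)) :
    ∃ τ : ℝ, ∀ P ∈ S, ∀ Q ∈ S, shearX τ P = shearX τ Q → P = Q := by
  classical
  obtain ⟨τ, hτ⟩ := Infinite.exists_notMem_finset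
    ((S ×ˢ S).image fun p : (ℝ × ℝ) × (ℝ × ℝ) => (p.2.1 - p.1.1) / (p.1.2 - p.2.2))
  refine ⟨τ, fun P hP Q hQ h => ?_⟩
  by_cases h2 : P.2 = Q.2
  · have h1 : P.1 = Q.1 := by
      simp only [shearX, h2] at h
      linarith
    exact Prod.ext h1 h2
  · exfalso
    apply hτ
    refine mem_image.2 ⟨(P, Q), mem_product.2 ⟨hP, hQ⟩, ?_⟩
    have hd : P.2 - Q.2 ≠ 0 := sub_ne_zero.2 h2
    simp only [shearX] at h
    rw [div_eq_iff hd]
    linear_combination (-1 : ℝ) * h

theorem rect_star_core {x0 y0 x1 y1 x2 y2 t : ℝ} (h01 : x0 ≠ x1) (h02 : x0 ≠ x2) (h12 : x1 ≠ x2)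
    (ht1 : t ∈ Set.uIcc x0 x1) (ht2 : t ∈ Set.uIcc x0 x2) (ht0 : t ≠ x0)
    (he : y0 + (y1 - y0) * ((t - x0) / (x1 - x0)) = y0 + (y2 - y0) * ((t - x0) / (x2 - x0))) :
    (x1 ∈ Set.uIcc x0 x2 ∧ y0 + (y2 - y0) * ((x1 - x0) / (x2 - x0)) = y1) ∨
    (x2 ∈ Set.uIcc x0 x1 ∧ y0 + (y1 - y0) * ((x2 - x0) / (x1 - x0)) = y2) := by
  have d1 : x1 - x0 ≠ 0 := sub_ne_zero.2 h01.symm
  have d2 : x2 - x0 ≠ 0 := sub_ne_zero.2 h02.symm
  have d0 : t - x0 ≠ 0 := sub_ne_zero.2 ht0
  have H : (y1 - y0) * ((t - x0) / (x1 - x0)) = (y2 - y0) * ((t - x0) / (x2 - x0)) := by linarith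
  have e1 : (t - x0) / (x1 - x0) * (x1 - x0) = t - x0 := div_mul_cancel₀ _ d1
  have e2 : (t - x0) / (x2 - x0) * (x2 - x0) = t - x0 := div_mul_cancel₀ _ d2
  have h3 : (y1 - y0) * (x2 - x0) * (t - x0) = (y2 - y0) * (x1 - x0) * (t - x0) := by
    linear_combination (-(y1 - y0) * (x2 - x0)) * e1 + ((y2 - y0) * (x1 - x0)) * e2 +
      ((x1 - x0) * (x2 - x0)) * H
  have key : (y1 - y0) * (x2 - x0) = (y2 - y0) * (x1 - x0) := mul_right_cancel₀ d0 h3
  have id1 : y0 + (y2 - y0) * ((x1 - x0) / (x2 - x0)) = y1 := by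
    have h4 : (y2 - y0) * ((x1 - x0) / (x2 - x0)) = y1 - y0 := by
      rw [← mul_div_assoc, div_eq_iff d2]; linarith
    linarith
  have id2 : y0 + (y1 - y0) * ((x2 - x0) / (x1 - x0)) = y2 := by
    have h4 : (y1 - y0) * ((x2 - x0) / (x1 - x0)) = y2 - y0 := by
      rw [← mul_div_assoc, div_eq_iff d1]; linarith
    linarith
  rw [Set.mem_uIcc] at ht1 ht2
  have hs : (x0 < x1 ∧ x0 < x2) ∨ (x1 < x0 ∧ x2 < x0) := by
    rcases ht1 with ⟨a, b⟩ | ⟨a, b⟩ <;> rcases ht2 with ⟨c, d⟩ | ⟨c, d⟩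
    · left
      have h5 : x0 < t := lt_of_le_of_ne a ht0.symm
      exact ⟨by linarith, by linarith⟩
    · exfalso; exact ht0 (le_antisymm d a)
    · exfalso; exact ht0 (le_antisymm b c)
    · right
      have h5 : t < x0 := lt_of_le_of_ne b ht0
      exact ⟨by linarith, by linarith⟩
  rcases hs with ⟨a, b⟩ | ⟨a, b⟩ <;> rcases lt_or_gt_of_ne h12 with c | c
  · left; exact ⟨Set.mem_uIcc.2 (Or.inl ⟨a.le, c.le⟩), id1⟩
  · right; exact ⟨Set.mem_uIcc.2 (Or.inl ⟨b.le, c.le⟩), id2⟩
  · right; exact ⟨Set.mem_uIcc.2 (Or.inr ⟨c.le, b.le⟩), id2⟩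
  · left; exact ⟨Set.mem_uIcc.2 (Or.inr ⟨c.le, a.le⟩), id1⟩

section
variable {m n : ℕ} (R : Fin m → ℝ × ℝ) (B : Fin n → ℝ × ℝ) (τ : ℝ) (σ : Equiv.Perm (Fin n))
  (hR : Function.Injective fun r => shearX τ (R r))
  (hB : StrictMono fun b => shearX τ (B (σ b)))
  (hne : ∀ r b, shearX τ (R r) ≠ shearX τ (B b))
  (havoidR : ∀ r b s, s ≠ r → R s ∉ segment ℝ (R r) (B b))
  (havoidB : ∀ r b c, c ≠ b → B c ∉ segment ℝ (R r) (B b))

/-- The sheared straight-line drawing with the blue vertices named from left to right. -/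
noncomputable def rectDrawing : MonoDrawing m n where
  xR r := shearX τ (R r)
  xB b := shearX τ (B (σ b))
  yR r := (R r).2
  yB b := (B (σ b)).2
  xR_inj := hR
  xB_mono := hB
  x_ne r b := hne r _
  edge r b := affEdge τ (R r) (B (σ b))
  cont r b := by
    have hc : Continuous (affEdge τ (R r) (B (σ b))) := by
      unfold affEdge
      exact continuous_const.add
        (continuous_const.mul ((continuous_id.sub continuous_const).div_const _))
    exact hc.continuousOn
  at_red r b := by simp [affEdge]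
  at_blue r b := by
    have hd : shearX τ (B (σ b)) - shearX τ (R r) ≠ 0 := sub_ne_zero.2 (hne r _).symm
    simp only [affEdge, div_self hd]
    ring
  avoid_red r b s hs hx he := havoidR r (σ b) s hs (aff_vertex τ _ _ _ (hne r _) hx he)
  avoid_blue r b c hc hx he := havoidB r (σ b) (σ c) (fun e => hc (σ.injective e))
    (aff_vertex τ _ _ _ (hne r _) hx he)

theorem rectDrawing_starSimple :
    StarSimple (rectDrawing R B τ σ hR hB hne havoidR havoidB) := by
  intro r b c hbc t h1 h2 h3 he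
  have h12 : shearX τ (B (σ b)) ≠ shearX τ (B (σ c)) := fun e => hbc (hB.injective e)
  rcases rect_star_core (x0 := shearX τ (R r)) (y0 := (R r).2) (x1 := shearX τ (B (σ b)))
    (y1 := (B (σ b)).2) (x2 := shearX τ (B (σ c))) (y2 := (B (σ c)).2) (t := t)
    (hne r _) (hne r _) h12 h1 h2 h3 he with ⟨hx, hy⟩ | ⟨hx, hy⟩
  · exact (rectDrawing R B τ σ hR hB hne havoidR havoidB).avoid_blue r c b hbc hx hy
  · exact (rectDrawing R B τ σ hR hB hne havoidR havoidB).avoid_blue r b c (Ne.symm hbc) hx hy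

theorem rectDrawing_meet {r s : Fin m} {x y : Fin n}
    (h : (rectDrawing R B τ σ hR hB hne havoidR havoidB).Meet r x s y) :
    (segment ℝ (R r) (B (σ x)) ∩ segment ℝ (R s) (B (σ y))).Nonempty := by
  obtain ⟨t, h1, h2, h3⟩ := h
  have p1 := aff_point_mem τ (R r) (B (σ x)) (hne r _) h1
  have p2 := aff_point_mem τ (R s) (B (σ y)) (hne s _) h2
  have h3' : affEdge τ (R r) (B (σ x)) t = affEdge τ (R s) (B (σ y)) t := h3
  rw [← h3'] at p2
  exact ⟨_, p1, p2⟩

theorem rectDrawing_count :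
    (rectDrawing R B τ σ hR hB hne havoidR havoidB).meetingPairs ≤ rectCross R B := by
  classical
  unfold MonoDrawing.meetingPairs rectCross
  refine Finset.card_le_card_of_injOn (fun q => (q.1, q.2.1, σ q.2.2.1, σ q.2.2.2)) ?_ ?_
  · intro q hq
    simp only [coe_filter, mem_univ, true_and, Set.mem_setOf_eq] at hq ⊢
    exact ⟨hq.1, fun e => hq.2.1 (σ.injective e),
      rectDrawing_meet R B τ σ hR hB hne havoidR havoidB hq.2.2⟩
  · rintro ⟨a, b, c, d⟩ _ ⟨a', b', c', d'⟩ _ h
    simp only [Prod.mk.injEq, EmbeddingLike.apply_eq_iff_eq] at h ⊢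
    exact h

end

/-- Every straight-line drawing of `K_{m,n}` with `m, n` positive gives an `x`-monotone drawing with
star-simple edges and at most as many meeting pairs. -/
theorem exists_rectDrawing {m n : ℕ} (R : Fin m → ℝ × ℝ) (B : Fin n → ℝ × ℝ)
    (hRB : ∀ r b, R r ≠ B b)
    (havoidR : ∀ r b s, s ≠ r → R s ∉ segment ℝ (R r) (B b))
    (havoidB : ∀ r b c, c ≠ b → B c ∉ segment ℝ (R r) (B b))
    (r0 : Fin m) (b0 : Fin n) :
    ∃ D : MonoDrawing m n, StarSimple D ∧ D.meetingPairs ≤ rectCross R B := by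
  classical
  have hRinj : Function.Injective R := by
    intro r s h
    by_contra hc
    apply havoidR r b0 s (Ne.symm hc)
    rw [← h]
    exact left_mem_segment ℝ _ _
  have hBinj : Function.Injective B := by
    intro b c h
    by_contra hc
    apply havoidB r0 b c (Ne.symm hc)
    rw [← h]
    exact right_mem_segment ℝ _ _
  obtain ⟨τ, hτ⟩ := rect_exists_shear (univ.image R ∪ univ.image B)
  have mR : ∀ r, R r ∈ (univ.image R ∪ univ.image B) := fun r =>
    mem_union_left _ (mem_image_of_mem _ (mem_univ r))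
  have mB : ∀ b, B b ∈ (univ.image R ∪ univ.image B) := fun b =>
    mem_union_right _ (mem_image_of_mem _ (mem_univ b))
  have hR : Function.Injective fun r => shearX τ (R r) := fun r s h =>
    hRinj (hτ _ (mR r) _ (mR s) h)
  have hBX : Function.Injective fun b => shearX τ (B b) := fun b c h =>
    hBinj (hτ _ (mB b) _ (mB c) h)
  have hne : ∀ r b, shearX τ (R r) ≠ shearX τ (B b) := fun r b h =>
    hRB r b (hτ _ (mR r) _ (mB b) h)
  have hmono : Monotone ((fun b => shearX τ (B b)) ∘ Tuple.sort fun b => shearX τ (B b)) :=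
    Tuple.monotone_sort _
  have hB : StrictMono fun b => shearX τ (B ((Tuple.sort fun b => shearX τ (B b)) b)) :=
    hmono.strictMono_of_injective (hBX.comp (Tuple.sort fun b => shearX τ (B b)).injective)
  exact ⟨rectDrawing R B τ _ hR hB hne havoidR havoidB,
    rectDrawing_starSimple R B τ _ hR hB hne havoidR havoidB,
    rectDrawing_count R B τ _ hR hB hne havoidR havoidB⟩

/-- The bound for `x`-monotone star-simple drawings passes to all straight-line drawings. -/
theorem rectilinear_bound_of {m n : ℕ}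
    (main : ∀ D : MonoDrawing m n, StarSimple D → zar m * zar n ≤ D.meetingPairs)
    (R : Fin m → ℝ × ℝ) (B : Fin n → ℝ × ℝ)
    (hRB : ∀ r b, R r ≠ B b)
    (havoidR : ∀ r b s, s ≠ r → R s ∉ segment ℝ (R r) (B b))
    (havoidB : ∀ r b c, c ≠ b → B c ∉ segment ℝ (R r) (B b)) :
    zar m * zar n ≤ rectCross R B := by
  rcases Nat.eq_zero_or_pos m with rfl | hm
  · simp [zar]
  rcases Nat.eq_zero_or_pos n with rfl | hn
  · simp [zar]
  obtain ⟨D, hS, hc⟩ := exists_rectDrawing R B hRB havoidR havoidB ⟨0, hm⟩ ⟨0, hn⟩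
  exact (main D hS).trans hc

end Vale.Agent.Lib.P040Z
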