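import Vale.Agent.Lib.P040Z.FinalParts

/-!
Straight-line drawings of `K_{m,n}` with distinct `x`-coordinates are `x`-monotone drawings in which
the edges at one red vertex meet only at that vertex.
-/

namespace Vale.Agent.Lib.P040Z

open Finset Vale.Agent.Lib.P040M

/-- A straight-line drawing of `K_{m,n}`: points of the plane with pairwise distinct `x`-coordinates
(any finite point set has this form after a rotation), blue points listed from left to right, and
no vertex lies on an edge that does not end at it. -/
structure LineDrawing (m n : ℕ) where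
  /-- `x`-coordinates of the red vertices -/
  xR : Fin m → ℝ
  /-- `y`-coordinates of the red vertices -/
  yR : Fin m → ℝ
  /-- `x`-coordinates of the blue vertices -/
  xB : Fin n → ℝ
  /-- `y`-coordinates of the blue vertices -/
  yB : Fin n → ℝ
  xR_inj : Function.Injective xR
  xB_mono : StrictMono xB
  x_ne : ∀ r b, xR r ≠ xB b
  /-- the segment from `r` to `b` misses the other red vertices -/
  avoid_red : ∀ r b s, s ≠ r → xR s ∈ Set.uIcc (xR r) (xB b) →
    yR r + (yB b - yR r) / (xB b - xR r) * (xR s - xR r) ≠ yR s
  /-- the segment from `r` to `b` misses the other blue vertices -/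
  avoid_blue : ∀ r b c, c ≠ b → xB c ∈ Set.uIcc (xR r) (xB b) →
    yR r + (yB b - yR r) / (xB b - xR r) * (xB c - xR r) ≠ yB c

namespace LineDrawing

variable {m n : ℕ} (L : LineDrawing m n)

/-- The straight edge as a function of the `x`-coordinate. -/
noncomputable def line (r : Fin m) (b : Fin n) (t : ℝ) : ℝ :=
  L.yR r + (L.yB b - L.yR r) / (L.xB b - L.xR r) * (t - L.xR r)

/-- A straight-line drawing as an `x`-monotone drawing. -/
noncomputable def toMono : MonoDrawing m n where
  xR := L.xR
  xB := L.xB
  yR := L.yR
  yB := L.yB
  xR_inj := L.xR_inj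
  xB_mono := L.xB_mono
  x_ne := L.x_ne
  edge := L.line
  cont := fun r b => by
    unfold line
    exact (by fun_prop : Continuous fun t : ℝ =>
      L.yR r + (L.yB b - L.yR r) / (L.xB b - L.xR r) * (t - L.xR r)).continuousOn
  at_red := fun r b => by simp [line]
  at_blue := fun r b => by
    have h : L.xB b - L.xR r ≠ 0 := sub_ne_zero.2 (L.x_ne r b).symm
    unfold line
    field_simp
    ring
  avoid_red := fun r b s hs hm => L.avoid_red r b s hs hm
  avoid_blue := fun r b c hc hm => L.avoid_blue r b c hc hm

/-- In a straight-line drawing two edges at one red vertex meet only there. -/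
theorem starSimple : StarSimple L.toMono := by
  intro r b c hbc t hb hc ht he
  change t ∈ Set.uIcc (L.xR r) (L.xB b) at hb
  change t ∈ Set.uIcc (L.xR r) (L.xB c) at hc
  change t ≠ L.xR r at ht
  change L.line r b t = L.line r c t at he
  have hbne : L.xB b - L.xR r ≠ 0 := sub_ne_zero.2 (L.x_ne r b).symm
  have hcne : L.xB c - L.xR r ≠ 0 := sub_ne_zero.2 (L.x_ne r c).symm
  have htne : t - L.xR r ≠ 0 := sub_ne_zero.2 ht
  -- equal slopes
  have hs : (L.yB b - L.yR r) / (L.xB b - L.xR r) = (L.yB c - L.yR r) / (L.xB c - L.xR r) := by
    unfold line at he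
    have h2 : (L.yB b - L.yR r) / (L.xB b - L.xR r) * (t - L.xR r) =
        (L.yB c - L.yR r) / (L.xB c - L.xR r) * (t - L.xR r) := by linarith
    exact mul_right_cancel₀ htne h2
  -- the blue vertices lie on the same side of `r`
  have key : L.xB b ∈ Set.uIcc (L.xR r) (L.xB c) ∨ L.xB c ∈ Set.uIcc (L.xR r) (L.xB b) := by
    simp only [Set.mem_uIcc] at hb hc ⊢
    rcases lt_or_gt_of_ne ht with htl | htr
    · have h1 : L.xB b ≤ t := by
        rcases hb with h | h
        · exact absurd h.1 (not_le.2 htl)
        · exact h.1
      have h2 : L.xB c ≤ t := by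
        rcases hc with h | h
        · exact absurd h.1 (not_le.2 htl)
        · exact h.1
      rcases le_total (L.xB b) (L.xB c) with h3 | h3
      · right; right; exact ⟨h3, by linarith⟩
      · left; right; exact ⟨h3, by linarith⟩
    · have h1 : t ≤ L.xB b := by
        rcases hb with h | h
        · exact h.2
        · exact absurd h.2 (not_le.2 htr)
      have h2 : t ≤ L.xB c := by
        rcases hc with h | h
        · exact h.2
        · exact absurd h.2 (not_le.2 htr)
      rcases le_total (L.xB b) (L.xB c) with h3 | h3
      · left; left; exact ⟨by linarith, h3⟩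
      · right; left; exact ⟨by linarith, h3⟩
  rcases key with h | h
  · refine L.avoid_blue r c b hbc h ?_
    rw [← hs]
    field_simp
    ring
  · refine L.avoid_blue r b c (Ne.symm hbc) h ?_
    rw [hs]
    field_simp
    ring

end LineDrawing

end Vale.Agent.Lib.P040Z
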