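import Vale.Agent.Lib.P040Z.FinalParts

/-!
The star of a red vertex in an `x`-monotone drawing whose edges at one red vertex meet only at that
vertex: the split and the rotation, built from real values of the edges near the vertex.
-/

namespace Vale.Agent.Lib.P040Z

open Finset Vale.Agent.Lib.P040M

section rank

variable {n : ℕ}

/-- The rank of `x` for a real key. -/
noncomputable def rankK (key : Fin n → ℝ) (x : Fin n) : ℕ :=
  (univ.filter fun z => key z < key x).card

theorem rankK_lt_iff (key : Fin n → ℝ) (x y : Fin n) :
    rankK key x < rankK key y ↔ key x < key y := by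
  constructor
  · intro h
    by_contra hc
    have : rankK key y ≤ rankK key x := by
      unfold rankK
      apply card_le_card
      intro z hz
      simp only [mem_filter, mem_univ, true_and] at hz ⊢
      exact lt_of_lt_of_le hz (not_lt.mp hc)
    omega
  · intro h
    unfold rankK
    apply card_lt_card
    refine ⟨fun z hz => ?_, fun hsub => ?_⟩
    · simp only [mem_filter, mem_univ, true_and] at hz ⊢
      exact hz.trans h
    · have hx : x ∈ univ.filter fun z => key z < key y := by
        simp only [mem_filter, mem_univ, true_and]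
        exact h
      have := hsub hx
      simp only [mem_filter, mem_univ, true_and] at this
      exact lt_irrefl _ this

theorem rankK_lt (key : Fin n → ℝ) (x : Fin n) : rankK key x < n := by
  unfold rankK
  calc (univ.filter fun z => key z < key x).card < (univ : Finset (Fin n)).card := by
        apply card_lt_card
        refine ⟨filter_subset _ _, fun hsub => ?_⟩
        have := hsub (mem_univ x)
        simp only [mem_filter, mem_univ, true_and] at this
        exact lt_irrefl _ this
    _ = n := by simp

/-- The rank as a permutation. -/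
noncomputable def rankEquiv (key : Fin n → ℝ) (hk : Function.Injective key) : Fin n ≃ Fin n :=
  Equiv.ofBijective (fun x => ⟨rankK key x, rankK_lt key x⟩)
    (Finite.injective_iff_bijective.mp (by
      intro x y h
      have h' : rankK key x = rankK key y := congrArg Fin.val h
      by_contra hne
      have hne' : key x ≠ key y := fun e => hne (hk e)
      rcases lt_or_gt_of_ne hne' with h1 | h1
      · have := (rankK_lt_iff key x y).2 h1
        omega
      · have := (rankK_lt_iff key y x).2 h1
        omega))

theorem card_down {p : Fin n → Prop} [DecidablePred p] (hdown : ∀ a b, a ≤ b → p b → p a)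
    (b : Fin n) : (b : ℕ) < (univ.filter p).card ↔ p b := by
  constructor
  · intro h
    by_contra hb
    have hsub : (univ.filter p) ⊆ Finset.Iio b := by
      intro a ha
      simp only [mem_filter, mem_univ, true_and, Finset.mem_Iio] at ha ⊢
      by_contra hab
      exact hb (hdown b a (not_lt.mp hab) ha)
    have := card_le_card hsub
    rw [Fin.card_Iio] at this
    omega
  · intro hb
    have hsub : Finset.Iic b ⊆ univ.filter p := by
      intro a ha
      simp only [mem_filter, mem_univ, true_and, Finset.mem_Iic] at ha ⊢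
      exact hdown a b ha hb
    have := card_le_card hsub
    rw [Fin.card_Iic] at this
    omega

end rank

/-- A star from a real key that puts the blues with `¬ p` first. -/
theorem exists_star_of_key {k : ℕ} (p : Fin (2 * k + 1) → Prop) [DecidablePred p]
    (hp : ∀ z : Fin (2 * k + 1), (z : ℕ) < (univ.filter p).card ↔ p z)
    (key : Fin (2 * k + 1) → ℝ) (hk : Function.Injective key)
    (hlt : ∀ x y, ¬ p x → p y → key x < key y) :
    ∃ T : Star k, T.J = (univ.filter p).card ∧
      ∀ x y, ((T.pos x : ℕ) < T.pos y ↔ key x < key y) := by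
  have hcard : (univ.filter p).card + (univ.filter fun z => ¬ p z).card = 2 * k + 1 := by
    rw [card_filter_add_card_filter_not]
    simp
  refine ⟨⟨(univ.filter p).card, by omega, rankEquiv key hk, ?_⟩, rfl, ?_⟩
  · intro x
    have hrank : ((rankEquiv key hk x : Fin (2 * k + 1)) : ℕ) = rankK key x := rfl
    rw [hrank]
    constructor
    · intro hJ
      have hx : ¬ p x := fun h => by
        have := (hp x).2 h
        omega
      -- the smaller keys, the set `p`, and `x` are disjoint
      have hsub : (univ.filter fun z => key z < key x) ⊆ (univ.filter fun z => ¬ p z).erase x := by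
        intro z hz
        simp only [mem_filter, mem_univ, true_and, mem_erase] at hz ⊢
        refine ⟨fun e => lt_irrefl _ (e ▸ hz), fun hpz => ?_⟩
        exact lt_asymm hz (hlt x z hx hpz)
      have h1 := card_le_card hsub
      rw [card_erase_of_mem (by simp [hx])] at h1
      have h2 : 0 < (univ.filter fun z => ¬ p z).card :=
        card_pos.mpr ⟨x, by simp [hx]⟩
      unfold rankK
      omega
    · intro hr
      by_contra hJ
      have hx : p x := (hp x).1 (by omega)
      have hsub : (univ.filter fun z => ¬ p z) ⊆ (univ.filter fun z => key z < key x) := by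
        intro z hz
        simp only [mem_filter, mem_univ, true_and] at hz ⊢
        exact hlt z x hz hx
      have h1 := card_le_card hsub
      unfold rankK at hr
      omega
  · intro x y
    exact rankK_lt_iff key x y

/-- Two continuous functions that never meet keep their order. -/
theorem persist {f g : ℝ → ℝ} {a b : ℝ} (hab : a ≤ b) (hf : ContinuousOn f (Set.Icc a b))
    (hg : ContinuousOn g (Set.Icc a b)) (hne : ∀ t ∈ Set.Icc a b, f t ≠ g t) :
    f a < g a ↔ f b < g b := by
  have hc : ContinuousOn (fun t => g t - f t) (Set.Icc a b) := hg.sub hf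
  constructor
  · intro h
    by_contra hb
    have h0 : (0 : ℝ) ∈ Set.Icc (g b - f b) (g a - f a) :=
      ⟨by linarith [not_lt.mp hb], by linarith⟩
    obtain ⟨t, ht, ht0⟩ := intermediate_value_Icc' hab hc h0
    exact hne t ht (by simp only at ht0; linarith)
  · intro h
    by_contra ha
    have h0 : (0 : ℝ) ∈ Set.Icc (g a - f a) (g b - f b) :=
      ⟨by linarith [not_lt.mp ha], by linarith⟩
    obtain ⟨t, ht, ht0⟩ := intermediate_value_Icc hab hc h0
    exact hne t ht (by simp only at ht0; linarith)

variable {m k : ℕ}

open Classical in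
/-- The star of a red vertex. -/
theorem exists_star (D : MonoDrawing m (2 * k + 1)) (hS : StarSimple D) (r : Fin m) :
    ∃ T : Star k, (∀ b : Fin (2 * k + 1), (b : ℕ) < T.J ↔ D.xB b < D.xR r) ∧
      (∀ x y : Fin (2 * k + 1), T.J ≤ (y : ℕ) → y < x → T.above x y = D.aboveB r x y) ∧
      (∀ x y : Fin (2 * k + 1), x < y → (y : ℕ) < T.J → T.above x y = D.aboveB r x y) := by
  set p : Fin (2 * k + 1) → Prop := fun b => D.xB b < D.xR r with hpdef
  have hdown : ∀ a b, a ≤ b → p b → p a := fun a b hab hb =>
    lt_of_le_of_lt (D.xB_mono.monotone hab) hb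
  have hp := card_down hdown
  set J := (univ.filter p).card with hJdef
  have hnotp : ∀ b, ¬ p b → D.xR r < D.xB b := fun b hb =>
    lt_of_le_of_ne (not_lt.mp hb) (D.x_ne r b)
  -- the points where the values are read
  obtain ⟨tR, htR⟩ : ∃ tR : ℝ, ∀ b, ¬ p b → D.xR r < tR ∧ tR ≤ D.xB b := by
    by_cases h : J < 2 * k + 1
    · refine ⟨D.xB ⟨J, h⟩, fun b hb => ?_⟩
      have h0 : ¬ p ⟨J, h⟩ := fun h' => by
        have := (hp ⟨J, h⟩).2 h'
        simp at this
      refine ⟨hnotp _ h0, D.xB_mono.monotone ?_⟩
      have h1 : ¬ (b : ℕ) < J := fun h' => hb ((hp b).1 h')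
      exact Fin.mk_le_of_le_val (not_lt.mp h1)
    · refine ⟨0, fun b hb => ?_⟩
      exfalso
      have := b.2
      exact hb ((hp b).1 (by omega))
  obtain ⟨tL, htL⟩ : ∃ tL : ℝ, ∀ b, p b → tL < D.xR r ∧ D.xB b ≤ tL := by
    by_cases h : 0 < J
    · have hlt : J - 1 < 2 * k + 1 := by
        have : J ≤ 2 * k + 1 := by
          have := card_le_univ (univ.filter p)
          simpa using this
        omega
      refine ⟨D.xB ⟨J - 1, hlt⟩, fun b hb => ?_⟩
      have h0 : p ⟨J - 1, hlt⟩ := (hp ⟨J - 1, hlt⟩).1 (by simp only; omega)
      refine ⟨h0, D.xB_mono.monotone ?_⟩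
      have h1 := (hp b).2 hb
      exact Fin.le_def.mpr (by simp only; omega)
    · refine ⟨0, fun b hb => ?_⟩
      exfalso
      have := (hp b).2 hb
      omega
  -- the key
  set val : Fin (2 * k + 1) → ℝ := fun b => if p b then D.edge r b tL else D.edge r b tR with hval
  set key : Fin (2 * k + 1) → ℝ :=
    fun b => if p b then 10 + Real.arctan (val b) else - Real.arctan (val b) with hkey
  have hpi := Real.pi_le_four
  have hmix : ∀ x y, ¬ p x → p y → key x < key y := by
    intro x y hx hy
    simp only [hkey, hx, hy, if_true, if_false]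
    have h1 := Real.neg_pi_div_two_lt_arctan (val x)
    have h2 := Real.neg_pi_div_two_lt_arctan (val y)
    linarith
  have hk : Function.Injective key := by
    intro x y hxy
    by_contra hne
    by_cases hx : p x <;> by_cases hy : p y
    · have hv : val x = val y := by
        simp only [hkey, hx, hy, if_true] at hxy
        exact Real.arctan_injective (by linarith)
      simp only [hval, hx, hy, if_true] at hv
      have hL := htL x hx
      have hL' := htL y hy
      refine hS r x y hne tL ?_ ?_ hL.1.ne hv
      · rw [Set.uIcc_of_gt hx]; exact ⟨hL.2, hL.1.le⟩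
      · rw [Set.uIcc_of_gt hy]; exact ⟨hL'.2, hL'.1.le⟩
    · have := hmix y x hy hx
      linarith
    · have := hmix x y hx hy
      linarith
    · have hv : val x = val y := by
        simp only [hkey, hx, hy, if_false] at hxy
        exact Real.arctan_injective (by linarith)
      simp only [hval, hx, hy, if_false] at hv
      have hR := htR x hx
      have hR' := htR y hy
      refine hS r x y hne tR ?_ ?_ hR.1.ne' hv
      · rw [Set.uIcc_of_lt (hnotp x hx)]; exact ⟨hR.1.le, hR.2⟩
      · rw [Set.uIcc_of_lt (hnotp y hy)]; exact ⟨hR'.1.le, hR'.2⟩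
  obtain ⟨T, hTJ, hTpos⟩ := exists_star_of_key p hp key hk hmix
  refine ⟨T, fun b => ?_, fun x y hy hyx => ?_, fun x y hxy hy => ?_⟩
  · rw [hTJ]; exact hp b
  · -- right side
    have hy' : ¬ p y := fun h => by
      have := (hp y).2 h
      omega
    have hx' : ¬ p x := fun h => hy' (hdown y x hyx.le h)
    have hJx : T.J ≤ (x : ℕ) := by
      have : (y : ℕ) < x := hyx
      omega
    have hxB : D.xB y < D.xB x := D.xB_mono hyx
    have hRy := htR y hy'
    have hRx := htR x hx'
    have hposy := hnotp y hy'
    have hposx := hnotp x hx'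
    have hsub1 : Set.Icc tR (D.xB y) ⊆ Set.uIcc (D.xR r) (D.xB x) := by
      rw [Set.uIcc_of_lt hposx]
      exact fun t ht => ⟨hRy.1.le.trans ht.1, ht.2.trans hxB.le⟩
    have hsub2 : Set.Icc tR (D.xB y) ⊆ Set.uIcc (D.xR r) (D.xB y) := by
      rw [Set.uIcc_of_lt hposy]
      exact fun t ht => ⟨hRy.1.le.trans ht.1, ht.2⟩
    have hper := persist (f := D.edge r y) (g := D.edge r x) hRy.2
      ((D.cont r y).mono hsub2) ((D.cont r x).mono hsub1)
      (fun t ht => (hS r x y hyx.ne' t (hsub1 ht) (hsub2 ht)
        (ne_of_gt (lt_of_lt_of_le hRy.1 ht.1))).symm)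
    rw [Bool.eq_iff_iff, D.aboveB_true]
    have e1 : T.above x y = true ↔ (T.pos x : ℕ) < T.pos y := by
      simp [Star.above, hJx]
    rw [e1, hTpos]
    simp only [hkey, hx', hy', if_false, hval]
    rw [neg_lt_neg_iff, Real.arctan_strictMono.lt_iff_lt]
    rw [hper, D.at_blue r y]
  · -- left side
    have hy' : p y := (hp y).1 (lt_of_lt_of_eq hy hTJ)
    have hx' : p x := hdown x y hxy.le hy'
    have hJx : ¬ T.J ≤ (x : ℕ) := by
      have : (x : ℕ) < y := hxy
      omega
    have hxB : D.xB x < D.xB y := D.xB_mono hxy
    have hLy := htL y hy'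
    have hLx := htL x hx'
    have hsub1 : Set.Icc (D.xB y) tL ⊆ Set.uIcc (D.xR r) (D.xB x) := by
      rw [Set.uIcc_of_gt hx']
      exact fun t ht => ⟨hxB.le.trans ht.1, ht.2.trans hLy.1.le⟩
    have hsub2 : Set.Icc (D.xB y) tL ⊆ Set.uIcc (D.xR r) (D.xB y) := by
      rw [Set.uIcc_of_gt hy']
      exact fun t ht => ⟨ht.1, ht.2.trans hLy.1.le⟩
    have hper := persist (f := D.edge r y) (g := D.edge r x) hLy.2
      ((D.cont r y).mono hsub2) ((D.cont r x).mono hsub1)
      (fun t ht => (hS r x y hxy.ne t (hsub1 ht) (hsub2 ht)
        (ne_of_lt (lt_of_le_of_lt ht.2 hLy.1))).symm)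
    rw [Bool.eq_iff_iff, D.aboveB_true]
    have e1 : T.above x y = true ↔ (T.pos y : ℕ) < T.pos x := by
      simp [Star.above, hJx]
    rw [e1, hTpos]
    simp only [hkey, hx', hy', if_true, hval]
    rw [add_lt_add_iff_left, Real.arctan_strictMono.lt_iff_lt]
    rw [← hper, D.at_blue r y]

end Vale.Agent.Lib.P040Z
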