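import Vale.Agent.Lib.P040Z.Defs
import Vale.Agent.Lib.P040M.Core

/-!
Summing the agreeing bits over all pairs of stars.
-/

namespace Vale.Agent.Lib.P040Z

open Finset Vale.Agent.Lib.P040 Vale.Agent.Lib.P040M

theorem sum_wid (k : ℕ) : ∑ l : Fin (2 * k + 1), wid k l = k ^ 2 := by
  have h1 := sum_w_fin (2 * k + 1)
  have h2 : ∀ l : Fin (2 * k + 1), wid k l = w (2 * k + 1) l := by
    intro l
    unfold wid w
    have : 2 * k + 1 - 1 - (l : ℕ) = 2 * k - l := by omega
    rw [this]
  rw [Finset.sum_congr rfl fun l _ => h2 l, h1]
  unfold zar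
  have h3 : (2 * k + 1) / 2 = k := by omega
  have h4 : (2 * k + 1 - 1) / 2 = k := by omega
  rw [h3, h4]
  ring

theorem agree_eq {k : ℕ} (T T' : Star k) :
    agree T T' = ∑ l : Fin (2 * k + 1), ∑ i ∈ range (wid k l),
      if T.bit l i = T'.bit l i then 1 else 0 := by
  unfold agree
  refine Finset.sum_congr rfl fun l _ => ?_
  rw [Finset.card_filter]

/-- Each bit splits the stars into two groups, so at least `zar m` pairs of stars agree on it; there
are `k ^ 2` bits. -/
theorem sum_agree (m k : ℕ) (t : Fin m → Star k) :
    zar m * k ^ 2 ≤ ∑ r : Fin m, ∑ s : Fin m, if r < s then agree (t r) (t s) else 0 := by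
  calc zar m * k ^ 2 = ∑ l : Fin (2 * k + 1), ∑ _i ∈ range (wid k l), zar m := by
        rw [← sum_wid k, Finset.mul_sum]
        refine Finset.sum_congr rfl fun l _ => ?_
        rw [Finset.sum_const, Finset.card_range, smul_eq_mul, mul_comm]
    _ ≤ ∑ l : Fin (2 * k + 1), ∑ i ∈ range (wid k l), ∑ r : Fin m, ∑ s : Fin m,
          if r < s then (if (t r).bit l i = (t s).bit l i then 1 else 0) else 0 :=
        Finset.sum_le_sum fun l _ => Finset.sum_le_sum fun i _ =>
          mono_pairs m fun r => (t r).bit l i
    _ = ∑ r : Fin m, ∑ s : Fin m, if r < s then agree (t r) (t s) else 0 := by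
        have e1 : ∀ r s : Fin m, (if r < s then agree (t r) (t s) else 0) =
            ∑ l : Fin (2 * k + 1), ∑ i ∈ range (wid k l),
              if r < s then (if (t r).bit l i = (t s).bit l i then 1 else 0) else 0 := by
          intro r s
          by_cases h : r < s
          · simp only [h, if_true]
            exact agree_eq _ _
          · simp [h]
        simp only [e1]
        calc ∑ l : Fin (2 * k + 1), ∑ i ∈ range (wid k l), ∑ r : Fin m, ∑ s : Fin m,
              (if r < s then (if (t r).bit l i = (t s).bit l i then 1 else 0) else 0)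
            = ∑ l : Fin (2 * k + 1), ∑ r : Fin m, ∑ i ∈ range (wid k l), ∑ s : Fin m,
              (if r < s then (if (t r).bit l i = (t s).bit l i then 1 else 0) else 0) := by
              refine Finset.sum_congr rfl fun l _ => ?_
              rw [Finset.sum_comm]
          _ = ∑ r : Fin m, ∑ l : Fin (2 * k + 1), ∑ i ∈ range (wid k l), ∑ s : Fin m,
              (if r < s then (if (t r).bit l i = (t s).bit l i then 1 else 0) else 0) := by
              rw [Finset.sum_comm]
          _ = ∑ r : Fin m, ∑ s : Fin m, ∑ l : Fin (2 * k + 1), ∑ i ∈ range (wid k l),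
              (if r < s then (if (t r).bit l i = (t s).bit l i then 1 else 0) else 0) := by
              refine Finset.sum_congr rfl fun r _ => ?_
              calc ∑ l : Fin (2 * k + 1), ∑ i ∈ range (wid k l), ∑ s : Fin m,
                    (if r < s then (if (t r).bit l i = (t s).bit l i then 1 else 0) else 0)
                  = ∑ l : Fin (2 * k + 1), ∑ s : Fin m, ∑ i ∈ range (wid k l),
                    (if r < s then (if (t r).bit l i = (t s).bit l i then 1 else 0) else 0) := by
                    refine Finset.sum_congr rfl fun l _ => ?_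
                    rw [Finset.sum_comm]
                _ = _ := by rw [Finset.sum_comm]

end Vale.Agent.Lib.P040Z
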