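import Vale.Agent.Lib.P040Z.Stars
import Vale.Agent.Lib.P040Z.Bridge
import Vale.Agent.Lib.P040Z.Sum

/-!
The bound for `x`-monotone drawings with edges at a red vertex meeting only there, from the key
inequality `agree ≤ forced` for stars.
-/

namespace Vale.Agent.Lib.P040Z

open Finset Vale.Agent.Lib.P040 Vale.Agent.Lib.P040M

/-- The final reduction: the key inequality for stars gives the bound. -/
theorem top_of_core
    (hcore : ∀ (k : ℕ) (T T' : Star k), T.J ≤ T'.J → ∀ A : Fin (2 * k + 1) → Bool,
      agree T T' ≤ ((univ : Finset (Fin (2 * k + 1) × Fin (2 * k + 1))).filter fun p =>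
        p.1 ≠ p.2 ∧ forced T T' A p.1 p.2).card)
    {m n : ℕ} (D : MonoDrawing m n) (hS : StarSimple D) : zar m * zar n ≤ D.meetingPairs := by
  refine all_of_odd (fun k D hS => ?_) D hS
  choose star hstar using fun r => exists_star D hS r
  have hsa : ∀ t, IsStarAt D t (star t) := fun t => ⟨(hstar t).1, (hstar t).2.1, (hstar t).2.2⟩
  refine odd_of_parts D star ?_ (hcore k) ?_
  · intro r s hrs
    exact ⟨(hsa r).J_le (hsa s) hrs, spinOf D r s (star s), fun x y hne hf =>
      meet_of_forced (hsa r) (hsa s) hrs hne hf⟩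
  · have := sum_agree m k star
    rwa [pow_two] at this

end Vale.Agent.Lib.P040Z
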