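import Vale.Agent.Lib.P040Z.Top
import Vale.Agent.Lib.P040Z.CoreFinal
import Vale.Agent.Lib.P040Z.Base72

/-!
The Zarankiewicz bound for all `x`-monotone drawings of `K_{m,n}` whose edges at one red vertex meet
only at that vertex.
-/

namespace Vale.Agent.Lib.P040Z

open Vale.Agent.Lib.P040 Vale.Agent.Lib.P040M

/-- The bound for all `x`-monotone drawings whose edges at one red vertex meet only there. -/
theorem mono_bound {m n : ℕ} (D : MonoDrawing m n) (hS : StarSimple D) :
    zar m * zar n ≤ D.meetingPairs :=
  top_of_core (fun _ T T' hJ A => core_of_sum (fun r s A hJ => Base72.canon_sum r s A hJ) T T' hJ A)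
    D hS

end Vale.Agent.Lib.P040Z
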