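import Vale.Agent.Lib.P040M.ZarDrawing
import Vale.Agent.Lib.P040Z.FinalParts

/-!
The sheared drawing of Zarankiewicz has straight edges, so two edges at a red vertex meet only there.
-/

namespace Vale.Agent.Lib.P040Z

open Vale.Agent.Lib.P040 Vale.Agent.Lib.P040M

theorem zarDrawing_starSimple (m n : ℕ) : StarSimple (zarDrawing m n) := by
  intro r b c hbc t _ _ ht h
  have hne : ∀ b : Fin n, shearF n * sh (n / 2) b.val - sh (m / 2) r.val ≠ 0 := by
    intro b
    obtain ⟨h1, h2⟩ := shearF_mul_abs n (n / 2) b.val b.isLt (Nat.div_le_self n 2)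
    intro h
    by_cases hr : r.val < m / 2
    · have := sh_neg hr
      linarith
    · have := sh_pos hr
      linarith
  have ht' : t ≠ sh (m / 2) r.val := ht
  have ht0 : t - sh (m / 2) r.val ≠ 0 := sub_ne_zero.mpr ht'
  have h' : sh (n / 2) b.val * (t - sh (m / 2) r.val) /
      (shearF n * sh (n / 2) b.val - sh (m / 2) r.val) =
      sh (n / 2) c.val * (t - sh (m / 2) r.val) /
      (shearF n * sh (n / 2) c.val - sh (m / 2) r.val) := h
  rw [div_eq_div_iff (hne b) (hne c)] at h'
  have hxi : sh (m / 2) r.val ≠ 0 := sh_ne_zero _ _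
  have h3 : (t - sh (m / 2) r.val) * (sh (m / 2) r.val * (sh (n / 2) b.val - sh (n / 2) c.val)) =
      0 := by
    linear_combination -h'
  have h4 : sh (n / 2) b.val = sh (n / 2) c.val := by
    have h5 := (mul_eq_zero.mp h3).resolve_left ht0
    have h6 := (mul_eq_zero.mp h5).resolve_left hxi
    linarith
  apply hbc
  apply Fin.ext
  by_contra hv
  rcases lt_or_gt_of_ne hv with hlt | hlt
  · have := sh_lt (n / 2) hlt
    linarith
  · have := sh_lt (n / 2) hlt
    linarith

end Vale.Agent.Lib.P040Z
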